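import Vale.Agent.P017.H506.Defs

/-!
Good sets (header of round 2).
-/

namespace Vale.Agent.P017.H506

open Finset

/-- good sets -/
def Good {ι : Type*} (P : ι → ι → ZMod 2) (U : Finset ι) : Prop :=
  ∀ u ∈ U, ∀ v ∈ U, ∀ w ∈ U, P u v = P u w + P v w

end Vale.Agent.P017.H506
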