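import Vale.Agent.P017.H506.L2
import Vale.Agent.P017.H506.S0

/-!
# Good sets: the definition is in `S0`
-/
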