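import Vale.Agent.P017.H443.L3
import Vale.Agent.P017.H506.Good

/-!
# Leaf S3: the main terms of the sets which are not good
-/

namespace Vale.Agent.P017.H506

open Finset Function Vale.Agent.P014.FM
open Vale.Agent.P017.H443 (sg sg_zero sg_one sg_add sg_sum em wq zc z2_cases sum_bil prod_eq_sg
  mainN_eq em_sq sg_nonneg_add)

namespace S3

variable {k : ℕ}

/-- the bilinear form -/
def BB (u v : Ix k) : ZMod 2 := ∑ i, (u i).1 * (v i).2

theorem BB_add_left (u u' v : Ix k) : BB (u + u') v = BB u v + BB u' v := by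
  unfold BB
  rw [← Finset.sum_add_distrib]
  exact Finset.sum_congr rfl fun i _ => by
    rw [Pi.add_apply, Prod.fst_add, add_mul]

theorem BB_add_right (u v v' : Ix k) : BB u (v + v') = BB u v + BB u v' := by
  unfold BB
  rw [← Finset.sum_add_distrib]
  exact Finset.sum_congr rfl fun i _ => by
    rw [Pi.add_apply, Prod.snd_add, mul_add]

theorem BB_smul_left (t : ZMod 2) (u v : Ix k) : BB (t • u) v = t * BB u v := by
  unfold BB
  rw [Finset.mul_sum]
  refine Finset.sum_congr rfl fun i _ => ?_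
  rw [Pi.smul_apply, Prod.smul_fst, smul_eq_mul, mul_assoc]

theorem BB_smul_right (t : ZMod 2) (u v : Ix k) : BB u (t • v) = t * BB u v := by
  unfold BB
  rw [Finset.mul_sum]
  refine Finset.sum_congr rfl fun i _ => ?_
  rw [Pi.smul_apply, Prod.smul_snd, smul_eq_mul]
  ring

theorem Pk_eq (u v : Ix k) : Pk k u v = BB u v + BB v v := by
  unfold Pk BB
  rw [← Finset.sum_add_distrib]
  refine Finset.sum_congr rfl fun i _ => ?_
  unfold P1
  ring

theorem add_self (x : ZMod 2) : x + x = 0 := CharTwo.add_self_eq_zero x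

theorem Pk_self (u : Ix k) : Pk k u u = 0 := by
  rw [Pk_eq, add_self]

theorem vadd_self (u : Ix k) : u + u = 0 := by
  funext i
  have : ∀ x : ZMod 2 × ZMod 2, x + x = 0 := by decide
  exact this (u i)

theorem Pk_add (u v : Ix k) : Pk k u v + Pk k v u = BB (u + v) (u + v) := by
  rw [Pk_eq, Pk_eq, BB_add_left, BB_add_right, BB_add_right]
  ring

theorem eq_iff_add (x y : ZMod 2) : x = y ↔ x + y = 0 := by
  revert x y; decide

theorem unl_iff (U : Finset (Ix k)) : Unl (Pk k) U ↔ ∀ u ∈ U, ∀ v ∈ U, BB (u + v) (u + v) = 0 := by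
  unfold Unl
  refine forall_congr' fun u => forall_congr' fun _ => forall_congr' fun v =>
    forall_congr' fun _ => ?_
  rw [← Pk_add]
  exact eq_iff_add _ _

theorem mem_UsN {U : Finset (Ix k)} (hU : U ∈ UsN (Pk k) (2 ^ k)) :
    U.card = 2 ^ k ∧ ∀ u ∈ U, ∀ v ∈ U, BB (u + v) (u + v) = 0 := by
  classical
  unfold UsN at hU
  rw [Finset.mem_filter] at hU
  exact ⟨hU.2.1, (unl_iff U).1 hU.2.2⟩

/-- polar form -/
theorem polar {U : Finset (Ix k)} (hU : U ∈ UsN (Pk k) (2 ^ k)) {a b c : Ix k} (ha : a ∈ U)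
    (hb : b ∈ U) (hc : c ∈ U) : BB (a + c) (b + c) + BB (b + c) (a + c) = 0 := by
  obtain ⟨-, h⟩ := mem_UsN hU
  have h1 := h a ha c hc
  have h2 := h b hb c hc
  have h3 := h a ha b hb
  have e : a + b = (a + c) + (b + c) := by
    have : (a + c) + (b + c) = a + b + (c + c) := by abel
    rw [this, vadd_self, add_zero]
  rw [e, BB_add_left, BB_add_right (a + c) (a + c) (b + c), BB_add_right (b + c) (a + c) (b + c),
    h1, h2, zero_add, add_zero] at h3
  exact h3

/-- unlinked sets of maximal size are closed under sums of three elements -/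
theorem closed {U : Finset (Ix k)} (hU : U ∈ UsN (Pk k) (2 ^ k)) {a b c : Ix k} (ha : a ∈ U)
    (hb : b ∈ U) (hc : c ∈ U) : a + b + c ∈ U := by
  classical
  obtain ⟨hcard, h⟩ := mem_UsN hU
  by_contra hd
  have key : ∀ v ∈ U, BB (a + b + c + v) (a + b + c + v) = 0 := by
    intro v hv
    have e : a + b + c + v = (a + v) + (b + v) + (c + v) := by
      have : (a + v) + (b + v) + (c + v) = a + b + c + v + (v + v) := by abel
      rw [this, vadd_self, add_zero]
    rw [e]
    have h1 := h a ha v hv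
    have h2 := h b hb v hv
    have h3 := h c hc v hv
    have h4 := polar hU ha hb hv
    have h5 := polar hU ha hc hv
    have h6 := polar hU hb hc hv
    simp only [BB_add_left (a + v + (b + v)), BB_add_left (a + v) (b + v),
      BB_add_right _ (a + v + (b + v)), BB_add_right _ (a + v) (b + v)]
    linear_combination h1 + h2 + h3 + h4 + h5 + h6
  have hunl : Unl (Pk k) (insert (a + b + c) U) := by
    rw [unl_iff]
    intro u hu v hv
    rcases Finset.mem_insert.1 hu with rfl | hu <;> rcases Finset.mem_insert.1 hv with rfl | hv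
    · rw [vadd_self]
      unfold BB
      simp
    · exact key v hv
    · rw [add_comm u]
      exact key u hu
    · exact h u hu v hv
  have h7 := unl_le k _ hunl
  rw [Finset.card_insert_of_notMem hd, hcard] at h7
  omega

/-- values after a translation -/
theorem Pk_trans {b x y : Ix k} (hb : BB b b = 0) (hxy : BB (x + y) b = BB b (x + y))
    (t t' : ZMod 2) : Pk k (x + t • b) (y + t' • b) =
      Pk k x y + (BB b x * t' + BB b y * t) := by
  rw [Pk_eq, Pk_eq, BB_add_left, BB_add_right, BB_add_right, BB_add_left y, BB_add_right y,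
    BB_add_right (t' • b)]
  simp only [BB_smul_left, BB_smul_right, hb, mul_zero, add_zero]
  rw [BB_add_left, BB_add_right] at hxy
  have h1 := add_self (BB b y * t')
  linear_combination t' * hxy + h1

variable {κ : Type*} [Fintype κ] [DecidableEq κ]

/-- the sum over `t` -/
theorem sum_t (z : κ → ZMod 2) : ∑ t : κ → ZMod 2, sg (∑ q, t q * z q) = ∏ q, (1 + sg (z q)) := by
  simp_rw [sg_sum]
  have h2 := Finset.prod_univ_sum (fun _ : κ => (Finset.univ : Finset (ZMod 2)))
    (fun q a => sg (a * z q))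
  rw [Fintype.piFinset_univ] at h2
  rw [← h2]
  refine Finset.prod_congr rfl fun q _ => ?_
  have h3 : ∀ f : ZMod 2 → ℝ, ∑ a : ZMod 2, f a = f 0 + f 1 := fun f => Fin.sum_univ_two f
  rw [h3, zero_mul, sg_zero, one_mul]

/-- the sum over `s` for a fixed value of the parameter -/
theorem sum_s (e : κ → ZMod 2) (ρ : ZMod 2) :
    ∑ σ : κ → ZMod 2, ∏ q, (1 + sg (e q * (ρ + σ q))) = ∏ q, (if e q = 1 then (2 : ℝ) else 4) := by
  have h2 := Finset.prod_univ_sum (fun _ : κ => (Finset.univ : Finset (ZMod 2)))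
    (fun q a => 1 + sg (e q * (ρ + a)))
  rw [Fintype.piFinset_univ] at h2
  rw [← h2]
  refine Finset.prod_congr rfl fun q _ => ?_
  have h3 : ∀ f : ZMod 2 → ℝ, ∑ a : ZMod 2, f a = f 0 + f 1 := fun f => Fin.sum_univ_two f
  rw [h3]
  rcases z2_cases (e q) with h | h
  · rw [h, if_neg (by decide), zero_mul, zero_mul, sg_zero]
    norm_num
  · rw [h, if_pos rfl, one_mul, one_mul, add_zero]
    rcases z2_cases ρ with h4 | h4
    · rw [h4, zero_add, sg_zero, sg_one]
      norm_num
    · rw [h4, sg_one, show (1 : ZMod 2) + 1 = 0 by decide, sg_zero]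
      norm_num

/-- the sum over `s` and `t` -/
theorem sum_st (e : κ → ZMod 2) (ρ : (κ → ZMod 2) → ZMod 2) (l : κ → ZMod 2) :
    ∑ s : κ → ZMod 2, ∏ q, (1 + sg (e q * (ρ s + (s q + l q)))) ≤
      2 * ∏ q, (if e q = 1 then (2 : ℝ) else 4) := by
  have h1 : ∀ s : κ → ZMod 2, ∏ q, (1 + sg (e q * (ρ s + (s q + l q)))) ≤
      ∏ q, (1 + sg (e q * (0 + (s q + l q)))) + ∏ q, (1 + sg (e q * (1 + (s q + l q)))) := by
    intro s
    have h0 : ∀ x : ZMod 2, 0 ≤ ∏ q, (1 + sg (e q * (x + (s q + l q)))) := fun x =>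
      Finset.prod_nonneg fun q _ => sg_nonneg_add _
    rcases z2_cases (ρ s) with h | h
    · rw [h]
      have := h0 1
      linarith
    · rw [h]
      have := h0 0
      linarith
  refine (Finset.sum_le_sum fun s _ => h1 s).trans (le_of_eq ?_)
  rw [Finset.sum_add_distrib]
  have h2 : ∀ x : ZMod 2, ∑ s : κ → ZMod 2, ∏ q, (1 + sg (e q * (x + (s q + l q)))) =
      ∏ q, (if e q = 1 then (2 : ℝ) else 4) := by
    intro x
    rw [← sum_s e x]
    refine Fintype.sum_equiv (Equiv.addRight l) _ _ fun s => ?_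
    rfl
  rw [h2, h2]
  ring

end S3

open S3 in
/-- S3 -/
theorem bad_bound (k : ℕ) {U : Finset (Ix k)} (hU : U ∈ UsN (Pk k) (2 ^ k)) (hb : ¬ Good (Pk k) U)
    {n : ℕ} (hn : Squarefree n) (h4 : n % 4 = 3) :
    |mainN (2 ^ k) (Pk k) U n| ≤
      2 * (1 / 2) ^ (n.primeFactors.filter (fun p => p % 4 = 3)).card := by
  classical
  obtain ⟨hcard, hq⟩ := mem_UsN hU
  unfold Good at hb
  push Not at hb
  obtain ⟨u, hu, v, hv, w, hw, huvw⟩ := hb
  set a : Ix k := u + w with ha
  set b : Ix k := v + w with hbd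
  have hbb : BB b b = 0 := hq v hv w hw
  have hab : BB b a = 1 := by
    have h1 := polar hU hu hv hw
    have h2 : Pk k u v + (Pk k u w + Pk k v w) = BB a b := by
      have e1 : u = w + a := by
        rw [ha, add_comm u w, ← add_assoc, vadd_self, zero_add]
      have e2 : v = w + b := by
        rw [hbd, add_comm v w, ← add_assoc, vadd_self, zero_add]
      rw [Pk_eq, Pk_eq, Pk_eq]
      rw [e1, e2]
      simp only [BB_add_left, BB_add_right, hbb]
      have := add_self (BB w w)
      have h5 := add_self (BB a w)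
      have h6 := add_self (BB w b)
      have h7 := add_self (BB b w)
      linear_combination 3 * this + h5 + h6 + h7
    have h3 : BB a b ≠ 0 := by
      rw [← h2]
      intro h
      exact huvw ((eq_iff_add _ _).2 h)
    have h5 : BB a b = BB b a := (eq_iff_add _ _).2 h1
    rcases z2_cases (BB b a) with h | h
    · exact absurd (h5.trans h) h3
    · exact h
  have hclosed_a : ∀ x ∈ U, ∀ t : ZMod 2, x + t • a ∈ U := by
    intro x hx t
    rcases z2_cases t with h | h
    · rw [h, zero_smul, add_zero]; exact hx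
    · rw [h, one_smul, ha, ← add_assoc]
      exact closed hU hx hu hw
  have hclosed_b : ∀ x ∈ U, ∀ t : ZMod 2, x + t • b ∈ U := by
    intro x hx t
    rcases z2_cases t with h | h
    · rw [h, zero_smul, add_zero]; exact hx
    · rw [h, one_smul, hbd, ← add_assoc]
      exact closed hU hx hv hw
  -- the polar form with `b` vanishes on differences
  have hpol : ∀ x ∈ U, ∀ y ∈ U, BB (x + y) b = BB b (x + y) := by
    intro x hx y hy
    have h1 := polar hU hx hw hy
    have h2 := polar hU hx hv hy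
    rw [eq_iff_add]
    have e : b = (v + y) + (w + y) := by
      have : (v + y) + (w + y) = v + w + (y + y) := by abel
      rw [this, vadd_self, add_zero]
    rw [e, BB_add_right (x + y) (v + y) (w + y), BB_add_left (v + y) (w + y) (x + y)]
    linear_combination h1 + h2
  set κ := n.primeFactors with hκ
  -- the sum over colourings
  set T : Finset (κ → Ix k) := Fintype.piFinset (fun _ : κ => U) with hT
  set G : (κ → Ix k) → ℝ := fun c => sg (∑ p, ∑ q, wq p q * Pk k (c p) (c q)) with hG
  have hmain : mainN (2 ^ k) (Pk k) U n = (1 / ((2 ^ k : ℕ) : ℝ)) ^ n.primeFactors.card *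
      ∑ c ∈ T, G c := by
    rw [mainN_eq _ _ _ hn]
    congr 1
    refine Finset.sum_congr rfl fun c _ => ?_
    exact prod_eq_sg (fun p q => Pk k (c p) (c q)) (fun p => Pk_self _)
  -- translations
  let tr : (κ → ZMod 2) → (κ → ZMod 2) → (κ → Ix k) → (κ → Ix k) :=
    fun s t c p => c p + s p • a + t p • b
  have htrT : ∀ s t, ∀ c ∈ T, tr s t c ∈ T := by
    intro s t c hc
    rw [hT, Fintype.mem_piFinset] at hc ⊢
    exact fun p => hclosed_b _ (hclosed_a _ (hc p) _) _
  have htr2 : ∀ s t c, tr s t (tr s t c) = c := by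
    intro s t c
    funext p
    change c p + s p • a + t p • b + s p • a + t p • b = c p
    have e : c p + s p • a + t p • b + s p • a + t p • b =
        c p + (s p • a + s p • a) + (t p • b + t p • b) := by abel
    rw [e, vadd_self, vadd_self, add_zero, add_zero]
  have hsum : ∀ s t, ∑ c ∈ T, G (tr s t c) = ∑ c ∈ T, G c := by
    intro s t
    refine Finset.sum_bij' (fun c _ => tr s t c) (fun c _ => tr s t c) (htrT s t) (htrT s t)
      (fun c _ => htr2 s t c) (fun c _ => htr2 s t c) (fun c _ => rfl)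
  -- the exponent after a translation in the direction `b`
  have hexp : ∀ c ∈ T, ∀ s t, G (tr s t c) =
      G (tr s 0 c) * sg (∑ q, t q * zc (fun p => BB b (c p) + s p) q) := by
    intro c hc s t
    rw [hT, Fintype.mem_piFinset] at hc
    have hx : ∀ p, c p + s p • a ∈ U := fun p => hclosed_a _ (hc p) _
    have e0 : ∀ p, tr s 0 c p = c p + s p • a := by
      intro p
      change c p + s p • a + (0 : ZMod 2) • b = _
      rw [zero_smul, add_zero]
    have e1 : ∀ p q, Pk k (tr s t c p) (tr s t c q) =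
        Pk k (tr s 0 c p) (tr s 0 c q) +
          ((BB b (c p) + s p) * t q + (BB b (c q) + s q) * t p) := by
      intro p q
      rw [e0, e0]
      have h1 := Pk_trans hbb (hpol _ (hx p) _ (hx q)) (t p) (t q)
      have h2 : ∀ r, BB b (c r + s r • a) = BB b (c r) + s r := by
        intro r
        rw [BB_add_right, BB_smul_right, hab, mul_one]
      rw [h2, h2] at h1
      exact h1
    rw [hG]
    simp only
    rw [← sg_add, ← sum_bil h4]
    congr 1
    rw [← Finset.sum_add_distrib]
    refine Finset.sum_congr rfl fun p _ => ?_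
    rw [← Finset.sum_add_distrib]
    refine Finset.sum_congr rfl fun q _ => ?_
    rw [e1, mul_add]
  -- the coefficients
  have hzc : ∀ (σ : κ → ZMod 2) (q : κ), zc σ q = em q * ((∑ p : κ, em p * σ p) + σ q) := by
    intro σ q
    unfold zc
    simp only [add_mul, Finset.sum_add_distrib, ite_mul, zero_mul]
    rw [Finset.sum_ite_eq' univ q (fun p : κ => em p * σ p), if_pos (Finset.mem_univ _), mul_add,
      Finset.mul_sum]
    congr 1
    exact Finset.sum_congr rfl fun p _ => by ring
  have hsg : ∀ x, |sg x| = 1 := by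
    intro x
    rcases z2_cases x with h | h
    · rw [h, sg_zero, abs_one]
    · rw [h, sg_one, abs_neg, abs_one]
  have hinner : ∀ c ∈ T, |∑ s : κ → ZMod 2, ∑ t : κ → ZMod 2, G (tr s t c)| ≤
      2 * ∏ q : κ, (if em (q : ℕ) = 1 then (2 : ℝ) else 4) := by
    intro c hc
    refine (Finset.abs_sum_le_sum_abs _ _).trans ?_
    refine le_trans (Finset.sum_le_sum fun s _ => ?_)
      (sum_st (fun q : κ => em (q : ℕ)) (fun s => ∑ p : κ, em (p : ℕ) * (BB b (c p) + s p))
        (fun q => BB b (c q)))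
    rw [Finset.sum_congr rfl fun t _ => hexp c hc s t, ← Finset.mul_sum, abs_mul]
    have h1 : |G (tr s 0 c)| = 1 := hsg _
    rw [h1, one_mul, sum_t, abs_of_nonneg (Finset.prod_nonneg fun q _ => sg_nonneg_add _)]
    refine le_of_eq (Finset.prod_congr rfl fun q _ => ?_)
    rw [hzc, add_comm (s q)]
  have htotal : (4 : ℝ) ^ n.primeFactors.card * |∑ c ∈ T, G c| ≤
      (((2 ^ k : ℕ) : ℝ)) ^ n.primeFactors.card *
        (2 * ∏ q : κ, (if em (q : ℕ) = 1 then (2 : ℝ) else 4)) := by
    have h1 : ∑ s : κ → ZMod 2, ∑ t : κ → ZMod 2, ∑ c ∈ T, G (tr s t c) =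
        (4 : ℝ) ^ n.primeFactors.card * ∑ c ∈ T, G c := by
      rw [Finset.sum_congr rfl fun s _ => Finset.sum_congr rfl fun t _ => hsum s t]
      rw [Finset.sum_const, Finset.sum_const, Finset.card_univ, Fintype.card_fun, ZMod.card,
        Fintype.card_coe, nsmul_eq_mul, nsmul_eq_mul, ← mul_assoc]
      congr 1
      push_cast
      rw [← mul_pow, ← hκ]
      norm_num
    have h2 : ∑ s : κ → ZMod 2, ∑ t : κ → ZMod 2, ∑ c ∈ T, G (tr s t c) =
        ∑ c ∈ T, ∑ s : κ → ZMod 2, ∑ t : κ → ZMod 2, G (tr s t c) := by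
      rw [Finset.sum_congr rfl fun s _ => Finset.sum_comm, Finset.sum_comm]
    have h3 : (4 : ℝ) ^ n.primeFactors.card * |∑ c ∈ T, G c| =
        |(4 : ℝ) ^ n.primeFactors.card * ∑ c ∈ T, G c| := by
      rw [abs_mul, abs_of_nonneg (by positivity : (0 : ℝ) ≤ 4 ^ _)]
    rw [h3, ← h1, h2]
    refine (Finset.abs_sum_le_sum_abs _ _).trans ?_
    refine (Finset.sum_le_card_nsmul _ _ _ hinner).trans (le_of_eq ?_)
    rw [hT, Fintype.card_piFinset, Finset.prod_const, Finset.card_univ, Fintype.card_coe, hcard,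
      nsmul_eq_mul]
    push_cast
    rfl
  have hprod : ∏ q : κ, (if em (q : ℕ) = 1 then (2 : ℝ) else 4) =
      4 ^ n.primeFactors.card * (1 / 2) ^ (n.primeFactors.filter (fun p => p % 4 = 3)).card := by
    have h1 : ∀ p : ℕ, em p = 1 ↔ p % 4 = 3 := by
      intro p
      unfold Vale.Agent.P017.H443.em
      split_ifs with h
      · simp [h]
      · simp [h]
    rw [Finset.prod_coe_sort n.primeFactors (fun q => if em q = 1 then (2 : ℝ) else 4)]
    rw [← Finset.prod_const, ← Finset.prod_const, Finset.prod_filter, ← Finset.prod_mul_distrib]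
    refine Finset.prod_congr rfl fun p _ => ?_
    by_cases h : p % 4 = 3
    · rw [if_pos ((h1 p).2 h), if_pos h]; norm_num
    · rw [if_neg (fun h2 => h ((h1 p).1 h2)), if_neg h]; norm_num
  rw [hmain, abs_mul, abs_of_nonneg (by positivity : (0 : ℝ) ≤ (1 / ((2 ^ k : ℕ) : ℝ)) ^ _)]
  rw [hprod] at htotal
  have hK : (0 : ℝ) < ((2 ^ k : ℕ) : ℝ) := by positivity
  have h5 : (1 / ((2 ^ k : ℕ) : ℝ)) ^ n.primeFactors.card *
      (((2 ^ k : ℕ) : ℝ)) ^ n.primeFactors.card = 1 := by
    rw [← mul_pow, one_div, inv_mul_cancel₀ hK.ne', one_pow]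
  have h6 : |∑ c ∈ T, G c| ≤ (((2 ^ k : ℕ) : ℝ)) ^ n.primeFactors.card *
      (2 * (1 / 2) ^ (n.primeFactors.filter (fun p => p % 4 = 3)).card) := by
    have h7 : (0 : ℝ) < 4 ^ n.primeFactors.card := by positivity
    refine le_of_mul_le_mul_left ?_ h7
    refine htotal.trans (le_of_eq ?_)
    ring
  calc (1 / ((2 ^ k : ℕ) : ℝ)) ^ n.primeFactors.card * |∑ c ∈ T, G c|
      ≤ (1 / ((2 ^ k : ℕ) : ℝ)) ^ n.primeFactors.card *
        ((((2 ^ k : ℕ) : ℝ)) ^ n.primeFactors.card *
          (2 * (1 / 2) ^ (n.primeFactors.filter (fun p => p % 4 = 3)).card)) := by gcongr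
    _ = 2 * (1 / 2) ^ (n.primeFactors.filter (fun p => p % 4 = 3)).card := by
      rw [← mul_assoc, h5, one_mul]

end Vale.Agent.P017.H506
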