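import Vale.Agent.P017.H915.Card
import Vale.Agent.P017.H687.L5

/-!
# Leaf S5: the number of elements is a power of two; the sharp form of the moment argument
-/

namespace Vale.Agent.P017.H506

open Finset Function Vale.Agent.P014.FM
open Vale.Agent.P017.H915
open Vale.Agent.P014.H698 (zmod2_cases)

namespace S5

/-- the exponent of the symbol -/
noncomputable def om {n : ℕ} (q p : n.primeFactors) : ZMod 2 := if J (q : ℕ) (p : ℕ) = -1 then 1 else 0

/-- the linear map behind the local conditions -/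
noncomputable def TT (n : ℕ) : (n.primeFactors → ZMod 2) →+ (n.primeFactors → ZMod 2) where
  toFun x := fun p => ∑ q, (x q + x p) * om q p
  map_zero' := by
    funext p
    exact Finset.sum_eq_zero fun q _ => by simp
  map_add' x y := by
    funext p
    change ∑ q, ((x q + y q) + (x p + y p)) * om q p =
      ∑ q, (x q + x p) * om q p + ∑ q, (y q + y p) * om q p
    rw [← Finset.sum_add_distrib]
    exact Finset.sum_congr rfl fun q _ => by ring

theorem eps_iff {n : ℕ} (x : n.primeFactors → ZMod 2) (p : n.primeFactors) :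
    eps x p = 1 ↔ TT n x p = 0 := by
  have h1 : eps x p = ∏ q : n.primeFactors, (if (x q + x p) * om q p = 1 then (-1 : ℝ) else 1) := by
    unfold eps
    refine Finset.prod_congr rfl fun q _ => ?_
    by_cases hqp : q = p
    · subst hqp
      have : x q + x q = 0 := CharTwo.add_self_eq_zero _
      rw [this, zero_mul, if_neg (by decide), if_neg (by decide)]
    · rcases zmod2_cases (x q + x p) with h | h
      · rw [h, zero_mul, if_neg (by decide), if_neg (by decide)]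
      · rw [h, one_mul, if_pos rfl]
        unfold om
        rcases J_pm q p hqp with h2 | h2
        · rw [h2]
          norm_num
        · rw [h2]
          norm_num
  rw [h1, prod_ite_pm _ _ (Or.inr rfl)]
  change _ ↔ ∑ q, (x q + x p) * om q p = 0
  rcases zmod2_cases (∑ q, (x q + x p) * om q p) with h | h
  · rw [h]
    simp
  · rw [h]
    rw [if_pos rfl]
    constructor
    · intro h2
      norm_num at h2
    · intro h2
      exact absurd h2 (by decide)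

end S5

/-- S5 -/
theorem RS_pow {n : ℕ} (hn : Squarefree n) : ∃ j : ℕ, (RS n).card = 2 ^ j := by
  classical
  have h1 : (RS n).card = Nat.card (S5.TT n).ker := by
    rw [card_RS hn]
    refine (Nat.subtype_card _ fun x => ?_).symm
    rw [Finset.mem_filter, AddMonoidHom.mem_ker]
    constructor
    · rintro ⟨-, h⟩
      funext p
      exact (S5.eps_iff x p).1 (h p)
    · intro h
      refine ⟨Finset.mem_univ _, fun p => (S5.eps_iff x p).2 ?_⟩
      rw [h]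
      rfl
  have h2 : Nat.card (S5.TT n).ker ∣ 2 ^ n.primeFactors.card := by
    have h3 := AddSubgroup.card_addSubgroup_dvd_card (S5.TT n).ker
    rw [Nat.card_eq_fintype_card (α := n.primeFactors → ZMod 2), Fintype.card_fun,
      ZMod.card, Fintype.card_coe] at h3
    exact h3
  rw [h1]
  obtain ⟨j, -, hj⟩ := (Nat.dvd_prime_pow Nat.prime_two).1 h2
  exact ⟨j, hj⟩

theorem S5.pointwise {j : ℕ} (hj : 1 ≤ j) :
    -((((2 ^ j : ℕ) : ℝ) / 2 - 2) * (((2 ^ j : ℕ) : ℝ) / 2 - 4) * (((2 ^ j : ℕ) : ℝ) / 2 - 8)) ≤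
      21 * (if (2 ^ j : ℕ) = 2 then 1 else 0) := by
  rcases Nat.lt_or_ge j 5 with h | h
  · interval_cases j <;> norm_num
  · have h1 : (32 : ℝ) ≤ ((2 ^ j : ℕ) : ℝ) := by
      have : 2 ^ 5 ≤ 2 ^ j := Nat.pow_le_pow_right (by norm_num) h
      exact_mod_cast this
    have h2 : (2 ^ j : ℕ) ≠ 2 := by
      intro h3
      have : ((2 ^ j : ℕ) : ℝ) = 2 := by exact_mod_cast h3
      linarith
    rw [if_neg h2]
    have h3 : 0 ≤ (((2 ^ j : ℕ) : ℝ) / 2 - 2) * (((2 ^ j : ℕ) : ℝ) / 2 - 4) *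
        (((2 ^ j : ℕ) : ℝ) / 2 - 8) := by
      refine mul_nonneg (mul_nonneg ?_ ?_) ?_ <;> linarith
    linarith

/-- sharp form, with the size of the family as a hypothesis -/
theorem from_moments_sharp' (hF : ∃ c : ℝ, 0 < c ∧ ∃ X₀ : ℕ, ∀ X : ℕ, X₀ ≤ X →
      c * X ≤ ((FX X).card : ℝ))
    (h1 : ∀ ε : ℝ, 0 < ε → ∃ X₀ : ℕ, ∀ X : ℕ, X₀ ≤ X →
      ∑ n ∈ FX X, ((RS n).card : ℝ) ≤ 4 * ((FX X).card : ℝ) + ε * X)
    (h2 : ∀ ε : ℝ, 0 < ε → ∃ X₀ : ℕ, ∀ X : ℕ, X₀ ≤ X →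
      20 * ((FX X).card : ℝ) - ε * X ≤ ∑ n ∈ FX X, ((RS n).card : ℝ) ^ 2)
    (h3 : ∀ ε : ℝ, 0 < ε → ∃ X₀ : ℕ, ∀ X : ℕ, X₀ ≤ X →
      ∑ n ∈ FX X, ((RS n).card : ℝ) ^ 3 ≤ 128 * ((FX X).card : ℝ) + ε * X) :
    ∀ ε : ℝ, 0 < ε → ∃ X₀ : ℕ, ∀ X : ℕ, X₀ ≤ X →
      (2 / 7 - ε) * ((FX X).card : ℝ) ≤ (((FX X).filter fun n => (RS n).card = 2).card : ℝ) := by
  classical
  intro ε hε
  obtain ⟨c, hc, X₁, hX₁⟩ := hF
  have hδ : 0 < ε * c / 2 := by positivity
  obtain ⟨X₂, hX₂⟩ := h1 _ hδ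
  obtain ⟨X₃, hX₃⟩ := h2 _ hδ
  obtain ⟨X₄, hX₄⟩ := h3 _ hδ
  refine ⟨max (max X₁ X₂) (max X₃ X₄), fun X hX => ?_⟩
  have g0 := hX₁ X (((le_max_left _ _).trans (le_max_left _ _)).trans hX)
  have g1 := hX₂ X (((le_max_right _ _).trans (le_max_left _ _)).trans hX)
  have g2 := hX₃ X (((le_max_left _ _).trans (le_max_right _ _)).trans hX)
  have g3 := hX₄ X (((le_max_right _ _).trans (le_max_right _ _)).trans hX)
  set N : ℝ := ((FX X).card : ℝ) with hN
  set A : ℝ := (((FX X).filter fun n => (RS n).card = 2).card : ℝ) with hA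
  have hpt : ∑ n ∈ FX X, (-(1 / 8) * ((RS n).card : ℝ) ^ 3 + 7 / 2 * ((RS n).card : ℝ) ^ 2 -
      28 * ((RS n).card : ℝ) + 64) ≤ ∑ n ∈ FX X, 21 * (if (RS n).card = 2 then (1 : ℝ) else 0) := by
    refine sum_le_sum fun n hn => ?_
    have hn' : IsF n := by
      rw [FX, mem_filter] at hn
      exact hn.2
    have hn1 : n ≠ 1 := by
      rintro rfl
      have := hn'.2.1
      omega
    obtain ⟨j, hj⟩ := RS_pow hn'.1
    have hj1 : 1 ≤ j := by
      by_contra h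
      have h0 : j = 0 := by omega
      have h4 := L5.two_le_RS hn'.1 hn1
      rw [hj, h0] at h4
      norm_num at h4
    have h5 := S5.pointwise hj1
    rw [hj]
    refine le_trans (le_of_eq ?_) h5
    ring
  have hA' : ∑ n ∈ FX X, (if (RS n).card = 2 then (1 : ℝ) else 0) = A := by
    rw [hA, card_filter, Nat.cast_sum]
    exact sum_congr rfl fun n _ => by split_ifs <;> simp
  rw [← mul_sum, hA', sum_add_distrib, sum_sub_distrib, sum_add_distrib, ← mul_sum, ← mul_sum,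
    ← mul_sum, sum_const, nsmul_eq_mul, ← hN] at hpt
  have hX0 : (0 : ℝ) ≤ X := Nat.cast_nonneg X
  have hcX : ε * c / 2 * X ≤ ε / 2 * N := by
    have := mul_le_mul_of_nonneg_left g0 (by positivity : 0 ≤ ε / 2)
    linarith
  have hN0 : 0 ≤ N := Nat.cast_nonneg _
  have hεN : 0 ≤ ε * N := by positivity
  nlinarith

/-- S5 -/
theorem from_moments_sharp
    (h1 : ∀ ε : ℝ, 0 < ε → ∃ X₀ : ℕ, ∀ X : ℕ, X₀ ≤ X →
      ∑ n ∈ FX X, ((RS n).card : ℝ) ≤ 4 * ((FX X).card : ℝ) + ε * X)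
    (h2 : ∀ ε : ℝ, 0 < ε → ∃ X₀ : ℕ, ∀ X : ℕ, X₀ ≤ X →
      20 * ((FX X).card : ℝ) - ε * X ≤ ∑ n ∈ FX X, ((RS n).card : ℝ) ^ 2)
    (h3 : ∀ ε : ℝ, 0 < ε → ∃ X₀ : ℕ, ∀ X : ℕ, X₀ ≤ X →
      ∑ n ∈ FX X, ((RS n).card : ℝ) ^ 3 ≤ 128 * ((FX X).card : ℝ) + ε * X) :
    ∀ ε : ℝ, 0 < ε → ∃ X₀ : ℕ, ∀ X : ℕ, X₀ ≤ X →
      (2 / 7 - ε) * ((FX X).card : ℝ) ≤ (((FX X).filter fun n => (RS n).card = 2).card : ℝ) :=
  from_moments_sharp' FX_card h1 h2 h3

end Vale.Agent.P017.H506
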