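import Vale.Agent.P017.H506.Defs

/-!
Leaf L2: pairwise unlinked sets have at most `2 ^ k` elements.
-/

namespace Vale.Agent.P017.H506

open Finset Function Vale.Agent.P014.FM

namespace L2

/-- sign of an element of `ZMod 2` -/
def sg2 (x : ZMod 2) : ℤ := if x = 0 then 1 else -1

theorem sg2_add : ∀ x y : ZMod 2, sg2 (x + y) = sg2 x * sg2 y := by decide

theorem sg2_sum {α : Type*} (s : Finset α) (f : α → ZMod 2) :
    sg2 (∑ i ∈ s, f i) = ∏ i ∈ s, sg2 (f i) := by
  classical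
  induction s using Finset.induction with
  | empty => simp [sg2]
  | insert a s ha ih => rw [Finset.sum_insert ha, Finset.prod_insert ha, sg2_add, ih]

/-- one factor of the matrix -/
def mm (w : ZMod 2 × ZMod 2) : ℤ := sg2 (w.1 * w.2)

theorem mm_conv : ∀ u v : ZMod 2 × ZMod 2,
    ∑ w, mm (u + w) * mm (w + v) = if u = v then 4 else 0 := by decide

theorem P1_add : ∀ u v : ZMod 2 × ZMod 2, P1 u v + P1 v u = (u + v).1 * (u + v).2 := by decide

theorem eq_iff2 : ∀ x y : ZMod 2, x = y → x + y = 0 := by decide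

theorem prod_mm_of_unl {k : ℕ} {u v : Ix k} (h : Pk k u v = Pk k v u) :
    ∏ i, mm (u i + v i) = 1 := by
  have h1 : ∑ i, (u i + v i).1 * (u i + v i).2 = 0 := by
    rw [← eq_iff2 _ _ h, Pk, Pk, ← Finset.sum_add_distrib]
    exact Finset.sum_congr rfl fun i _ => (P1_add (u i) (v i)).symm
  have h2 := sg2_sum (univ : Finset (Fin k)) (fun i => (u i + v i).1 * (u i + v i).2)
  rw [h1] at h2
  simpa [mm, sg2] using h2.symm

theorem conv_mm {k : ℕ} (u v : Ix k) :
    ∑ w : Ix k, (∏ i, mm (u i + w i)) * (∏ i, mm (w i + v i)) = if u = v then 4 ^ k else 0 := by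
  have h1 : ∀ w : Ix k, (∏ i, mm (u i + w i)) * (∏ i, mm (w i + v i))
      = ∏ i, mm (u i + w i) * mm (w i + v i) := fun w => Finset.prod_mul_distrib.symm
  rw [Finset.sum_congr rfl fun w _ => h1 w]
  have h2 := Finset.prod_univ_sum (fun _ : Fin k => (univ : Finset (ZMod 2 × ZMod 2)))
    (fun i w => mm (u i + w) * mm (w + v i))
  rw [Fintype.piFinset_univ] at h2
  rw [← h2]
  rw [Finset.prod_congr rfl fun i _ => mm_conv (u i) (v i)]
  by_cases huv : u = v
  · subst huv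
    simp
  · rw [if_neg huv]
    obtain ⟨i, hi⟩ := Function.ne_iff.1 huv
    exact Finset.prod_eq_zero (Finset.mem_univ i) (if_neg hi)

end L2

open L2 in
/-- L2 size of unlinked sets -/
theorem unl_le (k : ℕ) (U : Finset (Ix k)) (h : Unl (Pk k) U) : U.card ≤ 2 ^ k := by
  classical
  set M : Ix k → Ix k → ℤ := fun u v => ∏ i, mm (u i + v i) with hM
  have hM1 : ∀ u ∈ U, ∀ v ∈ U, M u v = 1 := fun u hu v hv => prod_mm_of_unl (h u hu v hv)
  have hsum : ∑ w : Ix k, (∑ u ∈ U, M u w) * (∑ v ∈ U, M w v) = 4 ^ k * (U.card : ℤ) := by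
    simp_rw [Finset.sum_mul_sum]
    rw [Finset.sum_comm]
    have : ∀ u ∈ U, ∑ w : Ix k, ∑ v ∈ U, M u w * M w v = 4 ^ k := by
      intro u hu
      rw [Finset.sum_comm]
      have h3 : ∀ v ∈ U, ∑ w : Ix k, M u w * M w v = if u = v then 4 ^ k else 0 :=
        fun v _ => conv_mm u v
      rw [Finset.sum_congr rfl h3, Finset.sum_ite_eq, if_pos hu]
    rw [Finset.sum_congr rfl this, Finset.sum_const, nsmul_eq_mul, mul_comm]
  have hsymm : ∀ u w, M u w = M w u := fun u w => by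
    simp only [hM, add_comm]
  have hlow : ∑ w ∈ U, (∑ u ∈ U, M u w) * (∑ v ∈ U, M w v)
      ≤ ∑ w : Ix k, (∑ u ∈ U, M u w) * (∑ v ∈ U, M w v) := by
    refine Finset.sum_le_sum_of_subset_of_nonneg (Finset.subset_univ _) fun w _ _ => ?_
    have : ∑ u ∈ U, M u w = ∑ v ∈ U, M w v := Finset.sum_congr rfl fun u _ => hsymm u w
    rw [this]
    exact mul_self_nonneg _
  have hU : ∑ w ∈ U, (∑ u ∈ U, M u w) * (∑ v ∈ U, M w v) = (U.card : ℤ) ^ 3 := by
    have : ∀ w ∈ U, (∑ u ∈ U, M u w) * (∑ v ∈ U, M w v) = (U.card : ℤ) ^ 2 := by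
      intro w hw
      rw [Finset.sum_congr rfl fun u hu => hM1 u hu w hw,
        Finset.sum_congr rfl fun v hv => hM1 w hw v hv]
      simp [sq]
    rw [Finset.sum_congr rfl this, Finset.sum_const, nsmul_eq_mul]
    ring
  rw [hU, hsum] at hlow
  by_contra hc
  push Not at hc
  have h4 : (2 : ℤ) ^ k < (U.card : ℤ) := by exact_mod_cast hc
  have h5 : (0 : ℤ) < 2 ^ k := by positivity
  have h6 : (4 : ℤ) ^ k = 2 ^ k * 2 ^ k := by rw [← mul_pow]; norm_num
  rw [h6] at hlow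
  have h7 : (0 : ℤ) < (U.card : ℤ) := h5.trans h4
  have h8 : (2 : ℤ) ^ k * 2 ^ k < (U.card : ℤ) * (U.card : ℤ) := by nlinarith
  nlinarith

end Vale.Agent.P017.H506
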