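import Vale.Agent.P017.H443.L3b

/-!
# L3: the main terms (statements of helper506, proofs in H443)
-/

namespace Vale.Agent.P017.H506

open Finset Function Vale.Agent.P014.FM

/-- L3a -/
theorem main_abs {ι : Type*} [Fintype ι] [DecidableEq ι] (N : ℕ) (hN : 1 ≤ N)
    (P : ι → ι → ZMod 2) (U : Finset ι) (hU : U.card ≤ N) {n : ℕ} (hn : Squarefree n) :
    |mainN N P U n| ≤ 1 := H443.main_abs N hN P U hU hn

/-- L3b -/
theorem main_one {n : ℕ} (hn : Squarefree n) (h4 : n % 4 = 3) :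
    ∑ U ∈ UsN (Pk 1) 2, mainN 2 (Pk 1) U n = 4 := H443.main_one hn h4

/-- L3c -/
theorem main_two {n : ℕ} (hn : Squarefree n) (h4 : n % 4 = 3) :
    20 ≤ ∑ U ∈ UsN (Pk 2) 4, mainN 4 (Pk 2) U n := H443.main_two hn h4

end Vale.Agent.P017.H506
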