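import Vale.Agent.P017.H506.Defs
import Vale.Agent.P017.H185.Fam

/-!
Leaf L6: if `RS d` has only two elements then `X_0(15)` has finitely many points over `ℚ(√-d)`.
-/

namespace Vale.Agent.P017.H506

open Finset Function Vale.Agent.P014.FM

theorem L6.one_mem_RS {d : ℕ} (hd : d ≠ 0) : 1 ∈ RS d := by
  classical
  unfold RS
  rw [Finset.mem_filter]
  refine ⟨Nat.one_mem_divisors.2 hd, fun p hp _ => ⟨fun _ => ⟨1, by simp⟩, fun h => ?_⟩⟩
  exact absurd (Nat.dvd_one.1 h) hp.one_lt.ne'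

theorem L6.self_mem_RS {d : ℕ} (hd : d ≠ 0) : d ∈ RS d := by
  classical
  unfold RS
  rw [Finset.mem_filter]
  refine ⟨Nat.mem_divisors_self d hd, fun p _ hpd => ⟨fun h => absurd hpd h, fun _ => ?_⟩⟩
  rw [Nat.div_self (Nat.pos_of_ne_zero hd)]
  exact ⟨1, by simp⟩

theorem L6.redei_of_two {d : ℕ} (hd : 1 < d) (h : (RS d).card = 2) : H185.Redei d := by
  classical
  intro a ha hloc
  have hd0 : d ≠ 0 := by omega
  have hsub : ({1, d} : Finset ℕ) ⊆ RS d := by
    intro x hx
    rcases Finset.mem_insert.1 hx with rfl | hx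
    · exact L6.one_mem_RS hd0
    · rw [Finset.mem_singleton.1 hx]; exact L6.self_mem_RS hd0
  have hc : ({1, d} : Finset ℕ).card = 2 := Finset.card_pair hd.ne
  have heq : ({1, d} : Finset ℕ) = RS d := Finset.eq_of_subset_of_card_le hsub (by rw [h, hc])
  have hmem : a ∈ RS d := by
    unfold RS
    rw [Finset.mem_filter]
    exact ⟨Nat.mem_divisors.2 ⟨ha, hd0⟩, hloc⟩
  rw [← heq] at hmem
  simpa using hmem

universe u

/-- L6 -/
theorem fin_of_two {d : ℕ} (hd : IsF d) (h : (RS d).card = 2) :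
    ∀ (K : Type u) [Field K] [NumberField K] [Algebra.IsQuadraticExtension ℚ K] (θ : K),
        θ ^ 2 = -(d : K) → Finite (H185.X015.baseChange K).toAffine.Point := by
  obtain ⟨hsq, h4, h3, h51, h54⟩ := hd
  intro K _ _ _ θ hθ
  obtain ⟨q⟩ := H185.exists_QF_of_sqrt hsq hθ
  apply q.finite_of_cond (q.no_order_four h4 (L6.redei_of_two (by omega) h))
  · intro _ h
    have h1 : ((d : ℕ) : ZMod 3) = ((1 : ℕ) : ZMod 3) := by rw [h]; simp
    have h2 := (ZMod.natCast_eq_natCast_iff _ _ _).mp h1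
    have h3 : d % 3 = 1 % 3 := h2
    omega
  · intro h5 h
    have h6 : d % 5 = 2 ∨ d % 5 = 3 := by omega
    rcases h6 with h6 | h6
    · have h1 : ((d : ℕ) : ZMod 5) = ((2 : ℕ) : ZMod 5) := by
        rw [ZMod.natCast_eq_natCast_iff]
        exact h6
      rw [h1] at h
      revert h
      decide
    · have h1 : ((d : ℕ) : ZMod 5) = ((3 : ℕ) : ZMod 5) := by
        rw [ZMod.natCast_eq_natCast_iff]
        exact h6
      rw [h1] at h
      revert h
      decide

end Vale.Agent.P017.H506
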