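import Vale.Agent.P017.H506.L1
import Vale.Agent.P017.H506.L2
import Vale.Agent.P017.H506.L3
import Vale.Agent.P017.H687.L5
import Vale.Agent.P017.H506.L6

/-!
Top assembly: the engine for the moments of order one, two and three gives the positive proportion.
-/

namespace Vale.Agent.P017.H506

open Finset Function Vale.Agent.P014.FM

/-- the statement of the engine -/
def EngineStmt : Prop := ∀ (k : ℕ) (ε : ℝ), 0 < ε → ∃ X₀ : ℕ, ∀ X : ℕ, X₀ ≤ X →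
    |∑ n ∈ FX X, (((RS n).card : ℝ) ^ k - ∑ U ∈ UsN (Pk k) (2 ^ k), mainN (2 ^ k) (Pk k) U n)|
      ≤ ε * X

namespace Asm

theorem mem_FX {X n : ℕ} : n ∈ FX X ↔ n < X + 1 ∧ IsF n := by
  classical
  unfold FX
  rw [Finset.mem_filter, Finset.mem_range]

theorem h1 (eng : EngineStmt) : ∀ ε : ℝ, 0 < ε → ∃ X₀ : ℕ, ∀ X : ℕ, X₀ ≤ X →
    ∑ n ∈ FX X, ((RS n).card : ℝ) ≤ 4 * ((FX X).card : ℝ) + ε * X := by
  intro ε hε
  obtain ⟨X₀, h⟩ := eng 1 ε hε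
  refine ⟨X₀, fun X hX => ?_⟩
  have h2 := h X hX
  have h3 : ∑ n ∈ FX X, (((RS n).card : ℝ) ^ 1 - ∑ U ∈ UsN (Pk 1) (2 ^ 1), mainN (2 ^ 1) (Pk 1) U n)
      = ∑ n ∈ FX X, ((RS n).card : ℝ) - 4 * ((FX X).card : ℝ) := by
    have : ∀ n ∈ FX X, (((RS n).card : ℝ) ^ 1
        - ∑ U ∈ UsN (Pk 1) (2 ^ 1), mainN (2 ^ 1) (Pk 1) U n) = ((RS n).card : ℝ) - 4 := by
      intro n hn
      obtain ⟨-, hsq, h4, -⟩ := mem_FX.1 hn
      have e := main_one hsq h4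
      rw [show (2 : ℕ) ^ 1 = 2 from rfl, e, pow_one]
    rw [Finset.sum_congr rfl this, Finset.sum_sub_distrib, Finset.sum_const, nsmul_eq_mul]
    ring
  rw [h3] at h2
  have := (abs_le.1 h2).2
  linarith

theorem h2 (eng : EngineStmt) : ∀ ε : ℝ, 0 < ε → ∃ X₀ : ℕ, ∀ X : ℕ, X₀ ≤ X →
    20 * ((FX X).card : ℝ) - ε * X ≤ ∑ n ∈ FX X, ((RS n).card : ℝ) ^ 2 := by
  intro ε hε
  obtain ⟨X₀, h⟩ := eng 2 ε hε
  refine ⟨X₀, fun X hX => ?_⟩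
  have h2 := h X hX
  have h3 : ∑ n ∈ FX X, (((RS n).card : ℝ) ^ 2 - ∑ U ∈ UsN (Pk 2) (2 ^ 2), mainN (2 ^ 2) (Pk 2) U n)
      ≤ ∑ n ∈ FX X, ((RS n).card : ℝ) ^ 2 - 20 * ((FX X).card : ℝ) := by
    have : ∀ n ∈ FX X, (((RS n).card : ℝ) ^ 2
        - ∑ U ∈ UsN (Pk 2) (2 ^ 2), mainN (2 ^ 2) (Pk 2) U n) ≤ ((RS n).card : ℝ) ^ 2 - 20 := by
      intro n hn
      obtain ⟨-, hsq, h4, -⟩ := mem_FX.1 hn
      have e := main_two hsq h4
      rw [show (2 : ℕ) ^ 2 = 4 from rfl]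
      linarith
    refine (Finset.sum_le_sum this).trans (le_of_eq ?_)
    rw [Finset.sum_sub_distrib, Finset.sum_const, nsmul_eq_mul]
    ring
  have := (abs_le.1 h2).1
  linarith

theorem h3 (eng : EngineStmt) : ∃ C : ℝ, ∀ ε : ℝ, 0 < ε → ∃ X₀ : ℕ, ∀ X : ℕ, X₀ ≤ X →
    ∑ n ∈ FX X, ((RS n).card : ℝ) ^ 3 ≤ C * ((FX X).card : ℝ) + ε * X := by
  classical
  refine ⟨((UsN (Pk 3) (2 ^ 3)).card : ℝ), fun ε hε => ?_⟩
  obtain ⟨X₀, h⟩ := eng 3 ε hε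
  refine ⟨X₀, fun X hX => ?_⟩
  have h2 := h X hX
  have h3 : ∑ n ∈ FX X, ((RS n).card : ℝ) ^ 3 - ((UsN (Pk 3) (2 ^ 3)).card : ℝ) * ((FX X).card : ℝ)
      ≤ ∑ n ∈ FX X, (((RS n).card : ℝ) ^ 3
        - ∑ U ∈ UsN (Pk 3) (2 ^ 3), mainN (2 ^ 3) (Pk 3) U n) := by
    have : ∀ n ∈ FX X, ((RS n).card : ℝ) ^ 3 - ((UsN (Pk 3) (2 ^ 3)).card : ℝ)
        ≤ (((RS n).card : ℝ) ^ 3 - ∑ U ∈ UsN (Pk 3) (2 ^ 3), mainN (2 ^ 3) (Pk 3) U n) := by
      intro n hn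
      obtain ⟨-, hsq, -⟩ := mem_FX.1 hn
      have e : ∑ U ∈ UsN (Pk 3) (2 ^ 3), mainN (2 ^ 3) (Pk 3) U n
          ≤ ∑ _U ∈ UsN (Pk 3) (2 ^ 3), (1 : ℝ) := by
        refine Finset.sum_le_sum fun U hU => ?_
        have hU' : U.card = 2 ^ 3 := by
          unfold UsN at hU
          exact (Finset.mem_filter.1 hU).2.1
        exact (abs_le.1 (main_abs (2 ^ 3) (by norm_num) (Pk 3) U hU'.le hsq)).2
      rw [Finset.sum_const, nsmul_eq_mul, mul_one] at e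
      linarith
    refine le_trans (le_of_eq ?_) (Finset.sum_le_sum this)
    rw [Finset.sum_sub_distrib, Finset.sum_const, nsmul_eq_mul]
    ring
  have := (abs_le.1 h2).2
  linarith

end Asm

/-- a positive proportion of `d` in the family has a Rédei set with two elements -/
theorem two_of_engine (eng : EngineStmt) : ∃ c : ℝ, 0 < c ∧ ∃ X₀ : ℕ, ∀ X : ℕ, X₀ ≤ X →
    c * X ≤ (((FX X).filter fun n => (RS n).card = 2).card : ℝ) := by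
  obtain ⟨C, hC⟩ := Asm.h3 eng
  exact from_moments (Asm.h1 eng) (Asm.h2 eng) C hC

universe u

/-- **Positive proportion** of imaginary quadratic fields over which `X_0(15)` has finitely many
points. -/
theorem pos_prop_of_engine (eng : EngineStmt) : ∃ c : ℝ, 0 < c ∧ ∃ X₀ : ℕ, ∀ X : ℕ, X₀ ≤ X →
    c * X ≤ (Set.ncard {d : ℕ | d ≤ X ∧ Squarefree d ∧ d % 4 = 3 ∧ d % 3 = 2 ∧
      (d % 5 = 2 ∨ d % 5 = 3) ∧
      ∀ (K : Type u) [Field K] [NumberField K] [Algebra.IsQuadraticExtension ℚ K] (θ : K),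
        θ ^ 2 = -(d : K) → Finite (H185.X015.baseChange K).toAffine.Point} : ℝ) := by
  classical
  obtain ⟨c, hc, X₀, h⟩ := two_of_engine eng
  refine ⟨c, hc, X₀, fun X hX => (h X hX).trans ?_⟩
  have hfin : {d : ℕ | d ≤ X ∧ Squarefree d ∧ d % 4 = 3 ∧ d % 3 = 2 ∧
      (d % 5 = 2 ∨ d % 5 = 3) ∧
      ∀ (K : Type u) [Field K] [NumberField K] [Algebra.IsQuadraticExtension ℚ K] (θ : K),
        θ ^ 2 = -(d : K) → Finite (H185.X015.baseChange K).toAffine.Point}.Finite :=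
    (Set.finite_Iic X).subset fun d hd => hd.1
  have hsub : (((FX X).filter fun n => (RS n).card = 2 : Finset ℕ) : Set ℕ)
      ⊆ {d : ℕ | d ≤ X ∧ Squarefree d ∧ d % 4 = 3 ∧ d % 3 = 2 ∧
      (d % 5 = 2 ∨ d % 5 = 3) ∧
      ∀ (K : Type u) [Field K] [NumberField K] [Algebra.IsQuadraticExtension ℚ K] (θ : K),
        θ ^ 2 = -(d : K) → Finite (H185.X015.baseChange K).toAffine.Point} := by
    intro d hd
    rw [Finset.mem_coe, Finset.mem_filter] at hd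
    obtain ⟨h1, h2⟩ := hd
    obtain ⟨h3, h4⟩ := Asm.mem_FX.1 h1
    exact ⟨by omega, h4.1, h4.2.1, h4.2.2.1, h4.2.2.2, fin_of_two h4 h2⟩
  have := Set.ncard_le_ncard hsub hfin
  rw [Set.ncard_coe_finset] at this
  exact_mod_cast this

end Vale.Agent.P017.H506
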