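import Vale.Agent.P014.H580.K9

/-!
Shared definitions: moments of the number of divisors counted by Rédei's criterion.
-/

namespace Vale.Agent.P017.H506

open Finset Function Vale.Agent.P014.FM

/-- index set for the `k`-th moment -/
abbrev Ix (k : ℕ) := Fin k → ZMod 2 × ZMod 2

/-- exponent of the symbol `(q | p)` for one factor -/
def P1 (u v : ZMod 2 × ZMod 2) : ZMod 2 := v.2 * (u.1 + v.1)

/-- exponent of the symbol `(D_u | D_v)` -/
def Pk (k : ℕ) (u v : Ix k) : ZMod 2 := ∑ i, P1 (u i) (v i)

/-- the local conditions in Rédei's criterion -/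
def Cond (d a : ℕ) : Prop := ∀ p : ℕ, p.Prime → p ∣ d →
  (¬ p ∣ a → IsSquare (a : ZMod p)) ∧ (p ∣ a → IsSquare ((d / a : ℕ) : ZMod p))

open Classical in
/-- the divisors satisfying the local conditions -/
noncomputable def RS (d : ℕ) : Finset ℕ := d.divisors.filter (Cond d)

section general

variable {ι : Type*} [Fintype ι]

/-- the sign attached to a tuple -/
noncomputable def wtP (P : ι → ι → ZMod 2) (D : ι → ℕ) : ℝ :=
  ∏ u, ∏ v, (if P u v = 1 then J (D u) (D v) else 1)

variable (ι) [DecidableEq ι] in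
/-- the factorisations of `n` indexed by `ι` -/
noncomputable def tup (n : ℕ) : Finset (ι → ℕ) :=
  (Fintype.piFinset fun _ => n.divisors).filter fun D => ∏ u, D u = n

/-- pairwise unlinked sets -/
def Unl (P : ι → ι → ZMod 2) (U : Finset ι) : Prop := ∀ u ∈ U, ∀ v ∈ U, P u v = P v u

open Classical in
/-- the unlinked sets with `N` elements -/
noncomputable def UsN (P : ι → ι → ZMod 2) (N : ℕ) : Finset (Finset ι) :=
  univ.filter fun U => U.card = N ∧ Unl P U

variable [DecidableEq ι]

open Classical in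
/-- the part supported on `U` -/
noncomputable def mainN (N : ℕ) (P : ι → ι → ZMod 2) (U : Finset ι) (n : ℕ) : ℝ :=
  (1 / (N : ℝ)) ^ n.primeFactors.card *
    ∑ D ∈ (tup ι n).filter (fun D => ∀ u, u ∉ U → D u = 1), wtP P D

end general

/-- the family: `ℚ(√-n)` with `2` unramified, `3` not inert and `5` not split -/
def IsF (n : ℕ) : Prop :=
  Squarefree n ∧ n % 4 = 3 ∧ n % 3 ≠ 1 ∧ n % 5 ≠ 1 ∧ n % 5 ≠ 4

open Classical in
/-- the family up to `X` -/
noncomputable def FX (X : ℕ) : Finset ℕ := (range (X + 1)).filter IsF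

end Vale.Agent.P017.H506
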