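import Vale.Agent.P017.H506.Defs

/-!
The engine, first part: tuples with a linked pair of large coordinates are negligible.
-/

namespace Vale.Agent.P017.H506

open Finset Function Vale.Agent.P014.FM
open Vale.Agent.P014.H580 (J_abs J_mul_left J_mul_right bilin harm_le)

/-- the basic weight -/
noncomputable def qN (N n : ℕ) : ℝ := (1 / (N : ℝ)) ^ n.primeFactors.card

lemma qN_nonneg (N n : ℕ) : 0 ≤ qN N n := by
  unfold qN
  positivity

lemma inv_le_one' {N : ℕ} (hN : 1 ≤ N) : (1 : ℝ) / N ≤ 1 := by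
  have : (1 : ℝ) ≤ N := by exact_mod_cast hN
  rw [div_le_one (by linarith)]
  exact this

lemma qN_le_one {N : ℕ} (hN : 1 ≤ N) (n : ℕ) : qN N n ≤ 1 :=
  pow_le_one₀ (by positivity) (inv_le_one' hN)

lemma qN_anti {N : ℕ} (hN : 1 ≤ N) {m n : ℕ} (h : m ∣ n) (hn : n ≠ 0) : qN N n ≤ qN N m := by
  unfold qN
  apply pow_le_pow_of_le_one (by positivity) (inv_le_one' hN)
  exact Finset.card_le_card (Nat.primeFactors_mono h hn)

open Classical in
/-- the part depending on the product only -/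
noncomputable def pN (N i Q n : ℕ) : ℝ :=
  (if Squarefree n then qN N n else 0) * chi4 n ^ i * J n Q

lemma pN_abs {N : ℕ} (hN : 1 ≤ N) (i Q n : ℕ) : |pN N i Q n| ≤ 1 := by
  unfold pN
  rw [abs_mul, abs_mul, abs_pow]
  have h1 : |chi4 n| ^ i ≤ 1 := pow_le_one₀ (abs_nonneg _) (chi4_abs n)
  have h2 : |J n Q| ≤ 1 := J_abs n Q
  have h3 : |(if Squarefree n then qN N n else 0)| ≤ 1 := by
    split_ifs
    · rw [abs_of_nonneg (qN_nonneg N n)]
      exact qN_le_one hN n
    · simp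
  exact mul_le_one₀ (mul_le_one₀ h3 (by positivity) h1) (by positivity) h2

lemma qN_mul {N m n : ℕ} (h : Nat.Coprime m n) : qN N (m * n) = qN N m * qN N n := by
  unfold qN
  rw [Nat.Coprime.primeFactors_mul h,
    Finset.card_union_of_disjoint (Nat.Coprime.disjoint_primeFactors h), pow_add]

lemma pN_mul {N i Q m n : ℕ} (h : Nat.Coprime m n) :
    pN N i Q (m * n) = pN N i Q m * pN N i Q n := by
  unfold pN
  rw [Vale.Agent.P014.FM.chi4_mul, J_mul_left, mul_pow]
  by_cases h1 : Squarefree m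
  · by_cases h2 : Squarefree n
    · rw [if_pos h1, if_pos h2, if_pos ((Nat.squarefree_mul h).2 ⟨h1, h2⟩), qN_mul h]
      ring
    · rw [if_neg h2, if_neg (fun h3 => h2 ((Nat.squarefree_mul h).1 h3).2)]
      ring
  · rw [if_neg h1, if_neg (fun h3 => h1 ((Nat.squarefree_mul h).1 h3).1)]
    ring

lemma pN_not_sq {N i Q n : ℕ} (h : ¬ Squarefree n) : pN N i Q n = 0 := by
  unfold pN
  rw [if_neg h]
  ring

lemma pN_even {N i Q n : ℕ} (hi : i ≠ 0) (h : ¬ Odd n) : pN N i Q n = 0 := by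
  unfold pN
  rw [Vale.Agent.P014.FM.chi4_even h, zero_pow hi]
  ring

section general

variable {ι : Type*} [Fintype ι]

/-- the full summand -/
noncomputable def gN (N : ℕ) (P : ι → ι → ZMod 2) (i Q : ℕ) (D : ι → ℕ) : ℝ :=
  pN N i Q (∏ u, D u) * wtP P D

lemma wtP_eq (P : ι → ι → ZMod 2) (D : ι → ℕ) :
    wtP P D = wtG (fun _ => 0) (fun _ => 0) P D := by
  unfold wtP wtG
  simp

variable [DecidableEq ι]

/-- the summand in two linked coordinates -/
lemma gN_sep {N : ℕ} (hN : 1 ≤ N) (P : ι → ι → ZMod 2) (i Q : ℕ)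
    (hi : i ≠ 0) (u v : ι) (huv : u ≠ v) (h1 : P u v = 1) (h2 : P v u ≠ 1) (D : ι → ℕ)
    (hDu : D u = 1) (hDv : D v = 1) :
    ∃ A B : ℕ → ℝ, (∀ x, |A x| ≤ 1) ∧ (∀ y, |B y| ≤ 1) ∧ (∀ x, A x ≠ 0 → Odd x ∧ Squarefree x) ∧
      (∀ y, B y ≠ 0 → Odd y ∧ Squarefree y) ∧
      ∀ x y, 1 ≤ y → gN N P i Q (update (update D v y) u x) = A x * B y * J x y := by
  obtain ⟨A, B, hA, hB, h⟩ := wtG_sep (fun _ => 0) (fun _ => 0) P u v huv h1 h2 D
  set r := ∏ w, D w with hr
  classical
  refine ⟨fun x => (if Nat.Coprime x r then pN N i Q x else 0) * A x,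
    fun y => (if Nat.Coprime y r then pN N i Q y * pN N i Q r else 0) * B y, ?_, ?_, ?_, ?_, ?_⟩
  · intro x
    rw [abs_mul]
    refine mul_le_one₀ ?_ (abs_nonneg _) (hA x)
    split_ifs
    · exact pN_abs hN _ _ _
    · simp
  · intro y
    rw [abs_mul]
    refine mul_le_one₀ ?_ (abs_nonneg _) (hB y)
    split_ifs
    · rw [abs_mul]
      exact mul_le_one₀ (pN_abs hN _ _ _) (abs_nonneg _) (pN_abs hN _ _ _)
    · simp
  · intro x hx
    have h3 : pN N i Q x ≠ 0 := by
      intro h4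
      apply hx
      dsimp only
      rw [h4]
      simp
    constructor
    · by_contra h4
      exact h3 (pN_even hi h4)
    · by_contra h4
      exact h3 (pN_not_sq h4)
  · intro y hy
    have h3 : pN N i Q y ≠ 0 := by
      intro h4
      apply hy
      dsimp only
      rw [h4]
      simp
    constructor
    · by_contra h4
      exact h3 (pN_even hi h4)
    · by_contra h4
      exact h3 (pN_not_sq h4)
  · intro x y hy
    unfold gN
    rw [wtP_eq, h x y]
    have hprod : ∏ w, update (update D v y) u x w = x * (y * r) := by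
      rw [prod_upd _ u x (by rw [update_of_ne huv]; exact hDu), prod_upd _ v y hDv]
    rw [hprod]
    dsimp only
    by_cases hxy : Nat.Coprime x y
    · by_cases hxr : Nat.Coprime x r
      · by_cases hyr : Nat.Coprime y r
        · rw [if_pos hxr, if_pos hyr, pN_mul (Nat.Coprime.mul_right hxy hxr), pN_mul hyr]
          ring
        · rw [if_neg hyr, pN_not_sq]
          · ring
          · intro h3
            apply hyr
            have h4 := Squarefree.squarefree_of_dvd (Dvd.intro_left x rfl) h3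
            exact Nat.coprime_of_squarefree_mul h4
      · rw [if_neg hxr, pN_not_sq]
        · ring
        · intro h3
          apply hxr
          have h4 : Squarefree (x * r) := Squarefree.squarefree_of_dvd
            ⟨y, by ring⟩ h3
          exact Nat.coprime_of_squarefree_mul h4
    · rw [J_eq_zero (by omega) hxy]
      ring

/-- the contribution of one linked pair of large coordinates -/
theorem S1_oneN : ∃ C : ℝ, 1 ≤ C ∧ ∀ (N : ℕ) (P : ι → ι → ZMod 2) (i Q : ℕ) (u v : ι)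
    (X Z : ℕ) (H : (ι → ℕ) → ℝ), 1 ≤ N → i ≠ 0 → u ≠ v → P u v = 1 → P v u ≠ 1 → SepH u v H →
    1 ≤ X → 1 ≤ Z →
    |∑ D ∈ TX ι X, gN N P i Q D * (H D * bd Z u v D)|
      ≤ C * X * (1 + Real.log X) ^ (Fintype.card ι + 1) * (Z : ℝ) ^ (-(1 : ℝ) / 32) := by
  obtain ⟨C, hC, hbil⟩ := bilin
  refine ⟨C, hC, ?_⟩
  intro N₀ P i Q u v X Z H hN₀ hi huv h1 h2 hH hX hZ
  have hX1 : (1 : ℝ) ≤ X := by exact_mod_cast hX
  have hlogX : 0 ≤ Real.log X := Real.log_nonneg hX1
  have hZ0 : (0 : ℝ) < Z := by exact_mod_cast hZ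
  have hC0 : (0 : ℝ) ≤ C := by linarith
  rw [sum_fib2T X u v huv]
  refine (Finset.abs_sum_le_sum_abs _ _).trans ?_
  have hone : ∀ D ∈ (TX ι X).filter (fun D => D u = 1 ∧ D v = 1),
      |∑ y ∈ Icc 1 (X / ∏ w, D w), ∑ x ∈ Icc 1 (X / (∏ w, D w) / y),
        gN N₀ P i Q (update (update D v y) u x) *
          (H (update (update D v y) u x) * bd Z u v (update (update D v y) u x))|
      ≤ C * X * (1 + Real.log X) * (Z : ℝ) ^ (-(1 : ℝ) / 32) * (1 / ((∏ w, D w : ℕ) : ℝ)) := by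
    intro D hD
    rw [Finset.mem_filter, mem_TX] at hD
    obtain ⟨⟨hD1, hD2⟩, hDu, hDv⟩ := hD
    have hp := one_le_prod hD1
    have hp0 : (0 : ℝ) < ((∏ w, D w : ℕ) : ℝ) := by exact_mod_cast hp
    obtain ⟨A, B, hA, hB, hA2, hB2, h⟩ := gN_sep hN₀ P i Q hi u v huv h1 h2 D hDu hDv
    obtain ⟨A', B', hA', hB', h'⟩ := hH D
    dsimp only at h'
    set N := X / ∏ w, D w with hN
    have hN1 : 1 ≤ N := by
      rw [hN, Nat.one_le_div_iff (by omega)]
      exact hD2
    set a : ℕ → ℝ := fun x => if Z ≤ x then A x * A' x else 0 with ha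
    set b : ℕ → ℝ := fun y => if Z ≤ y then B y * B' y else 0 with hb
    have hterm : ∑ y ∈ Icc 1 N, ∑ x ∈ Icc 1 (N / y),
        gN N₀ P i Q (update (update D v y) u x) *
          (H (update (update D v y) u x) * bd Z u v (update (update D v y) u x))
        = ∑ y ∈ Icc 1 N, ∑ x ∈ Icc 1 (N / y), a x * b y * J x y := by
      apply Finset.sum_congr rfl
      intro y hy
      apply Finset.sum_congr rfl
      intro x _
      rw [Finset.mem_Icc] at hy
      rw [h x y hy.1, h' x y]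
      unfold bd
      rw [update_self, update_of_ne huv.symm, update_self, ha, hb]
      dsimp only
      by_cases hx : Z ≤ x
      · by_cases hy' : Z ≤ y
        · rw [if_pos ⟨hx, hy'⟩, if_pos hx, if_pos hy']
          ring
        · rw [if_neg (fun hc => hy' hc.2), if_neg hy']
          ring
      · rw [if_neg (fun hc => hx hc.1), if_neg hx]
        ring
    rw [hterm]
    have ha1 : ∀ x, |a x| ≤ 1 := by
      intro x
      rw [ha]
      dsimp only
      split_ifs
      · rw [abs_mul]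
        exact mul_le_one₀ (hA x) (abs_nonneg _) (hA' x)
      · simp
    have hb1 : ∀ x, |b x| ≤ 1 := by
      intro x
      rw [hb]
      dsimp only
      split_ifs
      · rw [abs_mul]
        exact mul_le_one₀ (hB x) (abs_nonneg _) (hB' x)
      · simp
    have ha2 : ∀ x, a x ≠ 0 → Odd x ∧ Squarefree x ∧ Z ≤ x := by
      intro x hx
      rw [ha] at hx
      dsimp only at hx
      by_cases hZx : Z ≤ x
      · rw [if_pos hZx] at hx
        have := hA2 x (left_ne_zero_of_mul hx)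
        exact ⟨this.1, this.2, hZx⟩
      · rw [if_neg hZx] at hx
        exact absurd rfl hx
    have hb2 : ∀ x, b x ≠ 0 → Odd x ∧ Squarefree x ∧ Z ≤ x := by
      intro x hx
      rw [hb] at hx
      dsimp only at hx
      by_cases hZx : Z ≤ x
      · rw [if_pos hZx] at hx
        have := hB2 x (left_ne_zero_of_mul hx)
        exact ⟨this.1, this.2, hZx⟩
      · rw [if_neg hZx] at hx
        exact absurd rfl hx
    refine (hbil N Z a b ha1 hb1 ha2 hb2 hZ hN1).trans ?_
    have hNle : (N : ℝ) ≤ X / ((∏ w, D w : ℕ) : ℝ) := Nat.cast_div_le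
    have hN0 : (0 : ℝ) < N := by exact_mod_cast hN1
    have hNX : (N : ℝ) ≤ X := by exact_mod_cast Nat.div_le_self _ _
    have hlog : Real.log N ≤ Real.log X := Real.log_le_log hN0 hNX
    calc C * (N : ℝ) * (1 + Real.log N) * (Z : ℝ) ^ (-(1 : ℝ) / 32)
        ≤ C * (X / ((∏ w, D w : ℕ) : ℝ)) * (1 + Real.log X) * (Z : ℝ) ^ (-(1 : ℝ) / 32) := by
          have h0 : 0 ≤ 1 + Real.log N := by
            have := Real.log_nonneg (by exact_mod_cast hN1 : (1 : ℝ) ≤ N)
            linarith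
          gcongr
      _ = _ := by ring
  refine (Finset.sum_le_sum hone).trans ?_
  rw [← Finset.mul_sum]
  have hsum : ∑ D ∈ (TX ι X).filter (fun D => D u = 1 ∧ D v = 1), 1 / ((∏ w, D w : ℕ) : ℝ)
      ≤ (1 + Real.log X) ^ (Fintype.card ι) := by
    refine le_trans ?_ (sum_recipT (ι := ι) X)
    apply Finset.sum_le_sum_of_subset_of_nonneg
    · exact Finset.filter_subset _ _
    · intro D _ _
      positivity
  calc C * X * (1 + Real.log X) * (Z : ℝ) ^ (-(1 : ℝ) / 32) *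
        ∑ D ∈ (TX ι X).filter (fun D => D u = 1 ∧ D v = 1), 1 / ((∏ w, D w : ℕ) : ℝ)
      ≤ C * X * (1 + Real.log X) * (Z : ℝ) ^ (-(1 : ℝ) / 32) *
        (1 + Real.log X) ^ (Fintype.card ι) := by gcongr
    _ = _ := by ring

/-- all linked pairs -/
theorem S1N : ∃ C : ℝ, 1 ≤ C ∧ ∀ (N : ℕ) (P : ι → ι → ZMod 2) (i Q₀ : ℕ)
    (X Z : ℕ) (Q : Finset (ι × ι)), (∀ q ∈ Q, P q.1 q.2 = 1 ∧ P q.2 q.1 ≠ 1) → 1 ≤ N → i ≠ 0 →
    1 ≤ X → 1 ≤ Z →
    |∑ D ∈ TX ι X, gN N P i Q₀ D - ∑ D ∈ TX ι X, gN N P i Q₀ D * NQ Z Q D|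
      ≤ Q.card * (C * X * (1 + Real.log X) ^ (Fintype.card ι + 1) * (Z : ℝ) ^ (-(1 : ℝ) / 32)) := by
  obtain ⟨C, hC, h⟩ := S1_oneN (ι := ι)
  refine ⟨C, hC, ?_⟩
  intro N P i Q₀ X Z Q hQ hN hi hX hZ
  induction Q using Finset.induction_on with
  | empty => simp [NQ]
  | insert q Q hq ih =>
    have h1 := ih (fun q' hq' => hQ q' (Finset.mem_insert_of_mem hq'))
    have h2 := hQ q (Finset.mem_insert_self _ _)
    have huv : q.1 ≠ q.2 := by
      intro h3
      rw [h3] at h2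
      exact h2.2 h2.1
    have hsep : SepH q.1 q.2 (NQ Z Q) :=
      NQ_sep P Z Q q.1 q.2 huv (fun q' hq' => hQ q' (Finset.mem_insert_of_mem hq')) h2.1 hq
    have h3 := h N P i Q₀ q.1 q.2 X Z (NQ Z Q) hN hi huv h2.1 h2.2 hsep hX hZ
    have h4 : ∑ D ∈ TX ι X, gN N P i Q₀ D * NQ Z (insert q Q) D
        = ∑ D ∈ TX ι X, gN N P i Q₀ D * NQ Z Q D
          - ∑ D ∈ TX ι X, gN N P i Q₀ D * (NQ Z Q D * bd Z q.1 q.2 D) := by
      rw [← Finset.sum_sub_distrib]
      apply Finset.sum_congr rfl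
      intro D _
      have : NQ Z (insert q Q) D = (1 - bd Z q.1 q.2 D) * NQ Z Q D := by
        unfold NQ
        rw [Finset.prod_insert hq]
      rw [this]
      ring
    rw [h4, Finset.card_insert_of_notMem hq]
    push_cast
    have h5 : ∑ D ∈ TX ι X, gN N P i Q₀ D - (∑ D ∈ TX ι X, gN N P i Q₀ D * NQ Z Q D
          - ∑ D ∈ TX ι X, gN N P i Q₀ D * (NQ Z Q D * bd Z q.1 q.2 D))
        = (∑ D ∈ TX ι X, gN N P i Q₀ D - ∑ D ∈ TX ι X, gN N P i Q₀ D * NQ Z Q D)
          + ∑ D ∈ TX ι X, gN N P i Q₀ D * (NQ Z Q D * bd Z q.1 q.2 D) := by ring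
    rw [h5]
    refine (abs_add_le _ _).trans ?_
    linarith

end general

end Vale.Agent.P017.H506
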