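import Vale.Agent.P017.H506.E2

/-!
The engine, third part: a large coordinate linked to a small nontrivial coordinate.
-/

namespace Vale.Agent.P017.H506

open Finset Function Vale.Agent.P014.FM
open Vale.Agent.P014.H580 (J_abs J_mul_left J_mul_right bilin harm_le)
open Vale.Agent.P014.H687.FM (fm2b sqf mem_sqf)

section general

variable {ι : Type*} [Fintype ι]

lemma wtP_abs (P : ι → ι → ZMod 2) (D : ι → ℕ) : |wtP P D| ≤ 1 := by
  rw [wtP_eq]
  exact wtG_abs _ _ P D

lemma gN_abs (N : ℕ) (P : ι → ι → ZMod 2) (i Q : ℕ) (D : ι → ℕ) :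
    |gN N P i Q D| ≤ sqh (qN N) D := by
  classical
  unfold gN sqh
  rw [abs_mul]
  have h1 : |pN N i Q (∏ u, D u)| ≤ if Squarefree (∏ u, D u) then qN N (∏ u, D u) else 0 := by
    by_cases h : Squarefree (∏ u, D u)
    · rw [if_pos h]
      unfold pN
      rw [if_pos h, abs_mul, abs_mul, abs_pow (chi4 _), abs_of_nonneg (qN_nonneg N _)]
      have h1 : |chi4 (∏ u, D u)| ^ i ≤ 1 :=
        pow_le_one₀ (abs_nonneg _) (Vale.Agent.P014.FM.chi4_abs _)
      have h2 : |J (∏ u, D u) Q| ≤ 1 := J_abs _ Q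
      have h4 := qN_nonneg N (∏ u, D u)
      calc qN N (∏ u, D u) * |chi4 (∏ u, D u)| ^ i * |J (∏ u, D u) Q|
          ≤ qN N (∏ u, D u) * 1 * 1 := by gcongr
        _ = qN N (∏ u, D u) := by ring
    · rw [if_neg h, pN_not_sq h]
      simp
  calc |pN N i Q (∏ u, D u)| * |wtP P D| ≤ |pN N i Q (∏ u, D u)| * 1 :=
        mul_le_mul_of_nonneg_left (wtP_abs P D) (abs_nonneg _)
    _ = |pN N i Q (∏ u, D u)| := mul_one _
    _ ≤ _ := by
      refine h1.trans (le_of_eq ?_)
      congr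

variable [DecidableEq ι]

/-- the summand as a function of one coordinate -/
lemma one_varN {N : ℕ} (hN : 1 ≤ N) (P : ι → ι → ZMod 2) (hP : ∀ w, P w w = 0) (i Q : ℕ)
    (hi : i ≠ 0) (hQ : Q ≠ 0) (v : ι) (D : ι → ℕ) (hDv : D v = 1) (hodd : Odd (∏ u, D u)) :
    ∃ c : ℝ, |c| ≤ 1 ∧ ∃ a : ℕ, a ≠ 0 ∧ ∀ x, gN N P i Q (update D v x)
      = c * (open Classical in (if Squarefree x ∧ Nat.Coprime x (∏ u, D u) then qN N x else 0) *
        (chi4 x ^ a * J x (Q * lprod P v D))) := by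
  classical
  set r := ∏ u, D u with hr
  obtain ⟨hQ0, c, hc, a, h⟩ := wt2_ty P hP v D hodd
  rw [← hr] at h
  refine ⟨pN N i Q r * c, ?_, i + a, by omega, ?_⟩
  · rw [abs_mul]
    exact mul_le_one₀ (pN_abs hN _ _ _) (abs_nonneg _) hc
  intro x
  unfold gN
  rw [prod_upd D v x hDv, ← hr]
  by_cases hxr : Nat.Coprime x r
  · rw [pN_mul hxr]
    by_cases hsq : Squarefree x
    · by_cases hx : Odd x
      · rw [if_pos ⟨hsq, hxr⟩]
        have hx2 := h x hx hxr
        dsimp only at hx2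
        unfold wtP
        rw [hx2]
        have hpw : pN N i Q x = qN N x * chi4 x ^ i * J x Q := by
          unfold pN
          rw [if_pos hsq]
        rw [hpw, J_mul_right _ _ _ hQ hQ0, pow_add]
        ring
      · rw [pN_even hi hx, Vale.Agent.P014.FM.chi4_even hx, pow_add, zero_pow hi]
        ring
    · rw [pN_not_sq hsq, if_neg (fun h => hsq h.1)]
      ring
  · rw [if_neg (fun h => hxr h.2), pN_not_sq]
    · ring
    · intro h3
      exact hxr (Nat.coprime_of_squarefree_mul h3)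

omit [DecidableEq ι] in
/-- the modulus is not a square -/
lemma mod_nonsqN (P : ι → ι → ZMod 2) (v : ι) (D : ι → ℕ) (hsq : Squarefree (∏ u, D u))
    (Q : ℕ) (hQ : Q ≠ 0) (hcop : Nat.Coprime (∏ u, D u) Q) (h : ∃ t, P v t ≠ P t v ∧ 1 < D t) :
    ¬ IsSquare (Q * lprod P v D) := by
  set L := lprod P v D with hL
  have hLd : L ∣ ∏ u, D u := lprod_dvd P v D
  have hLsq : Squarefree L := Squarefree.squarefree_of_dvd hLd hsq
  have hL0 : L ≠ 0 := hLsq.ne_zero
  have hL1 : L ≠ 1 := by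
    obtain ⟨t, ht1, ht2⟩ := h
    have h1 : D t ∣ L := by
      rw [hL]
      unfold lprod
      have h2 : D t = (if P v t = P t v then 1 else D t) := by rw [if_neg ht1]
      conv_lhs => rw [h2]
      exact Finset.dvd_prod_of_mem _ (Finset.mem_univ t)
    intro h3
    rw [h3] at h1
    have := Nat.dvd_one.1 h1
    omega
  obtain ⟨p, hp, hpL⟩ := Nat.exists_prime_and_dvd hL1
  have hpQ : ¬ p ∣ Q := by
    intro hpQ
    have h1 := Nat.dvd_gcd (hpL.trans hLd) hpQ
    rw [hcop] at h1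
    exact hp.one_lt.ne' (Nat.dvd_one.1 h1)
  rintro ⟨s, hs⟩
  have h1 : (Q * L).factorization p = (s * s).factorization p := by rw [hs]
  have hs0 : s ≠ 0 := by
    rintro rfl
    simp only [mul_zero, mul_eq_zero] at hs
    rcases hs with hs | hs
    · exact hQ hs
    · exact hL0 hs
  rw [Nat.factorization_mul hQ hL0, Nat.factorization_mul hs0 hs0] at h1
  simp only [Finsupp.coe_add, Pi.add_apply] at h1
  have h2 : Nat.factorization Q p = 0 := Nat.factorization_eq_zero_of_not_dvd hpQ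
  have h3 : L.factorization p = 1 := by
    have h4 := hLsq.natFactorization_le_one p
    have h5 : 0 < L.factorization p := hp.factorization_pos_of_dvd hL0 hpL
    omega
  rw [h2, h3] at h1
  omega

end general

lemma geom_leN {N : ℕ} (hN : 2 ≤ N) (n : ℕ) : ∑ j ∈ range n, ((1 : ℝ) / N) ^ j ≤ 2 := by
  have hNR : (2 : ℝ) ≤ N := by exact_mod_cast hN
  have h : ∀ n : ℕ, ∑ j ∈ range n, ((1 : ℝ) / 2) ^ j ≤ 2 - 2 * (1 / 2) ^ n := by
    intro n
    induction n with
    | zero => norm_num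
    | succ n ih =>
      rw [Finset.sum_range_succ, pow_succ]
      have : (0 : ℝ) ≤ (1 / 2) ^ n := by positivity
      linarith
  have h1 := h n
  have h0 : (0 : ℝ) ≤ (1 / 2) ^ n := by positivity
  have h2 : ∑ j ∈ range n, ((1 : ℝ) / N) ^ j ≤ ∑ j ∈ range n, ((1 : ℝ) / 2) ^ j := by
    apply Finset.sum_le_sum
    intro j _
    apply pow_le_pow_left₀ (by positivity)
    exact one_div_le_one_div_of_le (by norm_num) hNR
  linarith

open Classical in
/-- splitting according to the number of prime factors -/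
lemma split_sumN (N a Q r J0 M Y : ℕ) (hY : 1 ≤ Y) (hYM : Y ≤ M) :
    ∑ x ∈ Icc 1 M, (if x.primeFactors.card ≤ J0 then
        (if Y ≤ x then ((if Squarefree x ∧ Nat.Coprime x r then qN N x else 0) *
          (chi4 x ^ a * J x Q)) else 0) else 0)
      = ∑ j ∈ range (J0 + 1), ((1 : ℝ) / N) ^ j * (SJ a Q r j M - SJ a Q r j (Y - 1)) := by
  have h1 : ∀ j, SJ a Q r j M - SJ a Q r j (Y - 1)
      = ∑ x ∈ Icc 1 M, (if Y ≤ x then (if Squarefree x ∧ x.Coprime r ∧ x.primeFactors.card = j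
          then chi4 x ^ a * J x Q else 0) else 0) := by
    intro j
    unfold SJ
    rw [Finset.sum_filter, Finset.sum_filter]
    have h2 : Icc 1 M = Icc 1 (Y - 1) ∪ Icc Y M := by
      ext x
      simp only [mem_union, mem_Icc]
      omega
    have hd : Disjoint (Icc 1 (Y - 1)) (Icc Y M) := by
      rw [Finset.disjoint_left]
      intro x hx hx'
      simp only [mem_Icc] at hx hx'
      omega
    rw [h2, Finset.sum_union hd, Finset.sum_union hd]
    have h3 : ∑ x ∈ Icc 1 (Y - 1), (if Y ≤ x then (if Squarefree x ∧ x.Coprime r ∧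
        x.primeFactors.card = j then chi4 x ^ a * J x Q else 0) else 0) = 0 := by
      apply Finset.sum_eq_zero
      intro x hx
      rw [mem_Icc] at hx
      rw [if_neg (by omega)]
    rw [h3, zero_add]
    have h4 : ∑ x ∈ Icc Y M, (if Y ≤ x then (if Squarefree x ∧ x.Coprime r ∧
        x.primeFactors.card = j then chi4 x ^ a * J x Q else 0) else 0)
        = ∑ x ∈ Icc Y M, (if Squarefree x ∧ x.Coprime r ∧
        x.primeFactors.card = j then chi4 x ^ a * J x Q else 0) := by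
      apply Finset.sum_congr rfl
      intro x hx
      rw [mem_Icc] at hx
      rw [if_pos hx.1]
    rw [h4]
    have h5 : ∀ a b c d : ℝ, a = c → d = b → a + d - c = b := by
      intro a b c d h h'
      rw [h, h']
      ring
    refine h5 _ _ _ _ ?_ ?_
    · apply Finset.sum_congr rfl
      intro x _
      congr
    · apply Finset.sum_congr rfl
      intro x _
      congr
  simp only [h1, Finset.mul_sum]
  rw [Finset.sum_comm]
  apply Finset.sum_congr rfl
  intro x _
  by_cases hYx : Y ≤ x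
  · simp only [if_pos hYx]
    by_cases hsq : Squarefree x ∧ x.Coprime r
    · rw [if_pos hsq]
      have h4 : ∀ j, (if Squarefree x ∧ x.Coprime r ∧ x.primeFactors.card = j
          then chi4 x ^ a * J x Q else 0) = if x.primeFactors.card = j then chi4 x ^ a * J x Q
            else 0 := by
        intro j
        by_cases hj : x.primeFactors.card = j
        · rw [if_pos ⟨hsq.1, hsq.2, hj⟩, if_pos hj]
        · rw [if_neg (fun h => hj h.2.2), if_neg hj]
      simp only [h4, mul_ite, mul_zero]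
      rw [Finset.sum_ite_eq]
      by_cases hJ : x.primeFactors.card ≤ J0
      · rw [if_pos hJ, if_pos (by rw [mem_range]; omega)]
        rfl
      · rw [if_neg hJ, if_neg (by rw [mem_range]; omega)]
    · have h4 : ∀ j, (if Squarefree x ∧ x.Coprime r ∧ x.primeFactors.card = j
          then chi4 x ^ a * J x Q else 0) = 0 := by
        intro j
        rw [if_neg (fun h => hsq ⟨h.1, h.2.1⟩)]
      simp [h4, hsq]
  · simp [hYx]

section general2

open Classical

variable {ι : Type*} [Fintype ι] [DecidableEq ι]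

/-- the inner sum -/
lemma S2_innerN {N₀ : ℕ} (hN₀ : 2 ≤ N₀) (P : ι → ι → ZMod 2) (hP : ∀ w, P w w = 0) (i Q₀ : ℕ)
    (hi : i ≠ 0) (hQ₀ : Odd Q₀) (X Y Z J0 : ℕ) (W M : ℝ) (hM : 0 < M) (hY : 2 ≤ Y) (hZ1 : 1 ≤ Z)
    (hZY : Z ≤ Y)
    (hW : (4 * (Q₀ * (Z : ℝ) ^ (Fintype.card ι))) ≤ W) (hB : CharB X Y J0 W M)
    (V : Finset ι) (v : ι) (D : ι → ℕ) (hD : D ∈ TX ι X) (hDv : D v = 1) :
    |∑ x ∈ Icc 1 (X / ∏ u, D u), gN N₀ P i Q₀ (update D v x) *
      (HH P Z Y V v (update D v x) * tr J0 x)| ≤ 4 * X / M * (1 / ((∏ u, D u : ℕ) : ℝ)) := by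
  have hN₀1 : 1 ≤ N₀ := by omega
  rw [mem_TX] at hD
  obtain ⟨hD1, hD2⟩ := hD
  set r := ∏ u, D u with hr
  have hr1 : 1 ≤ r := one_le_prod hD1
  have hrR : (0 : ℝ) < r := by exact_mod_cast hr1
  have hnn : 0 ≤ 4 * X / M * (1 / (r : ℝ)) := by positivity
  have hzero : (∀ x ∈ Icc 1 (X / r), gN N₀ P i Q₀ (update D v x) *
      (HH P Z Y V v (update D v x) * tr J0 x) = 0) →
      |∑ x ∈ Icc 1 (X / r), gN N₀ P i Q₀ (update D v x) *
      (HH P Z Y V v (update D v x) * tr J0 x)| ≤ 4 * X / M * (1 / (r : ℝ)) := by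
    intro h
    rw [Finset.sum_eq_zero h, abs_zero]
    exact hnn
  -- degenerate cases
  by_cases hκ : HH P Z Y V v (update D v Y) = 0
  · apply hzero
    intro x _
    by_cases hx : Y ≤ x
    · rw [HH_upd P Z Y V v D hY hZY x hx, hκ]
      ring
    · rw [HH_small P Z Y V v D x hx]
      ring
  by_cases hpw : pN N₀ i Q₀ r = 0
  · apply hzero
    intro x _
    have : gN N₀ P i Q₀ (update D v x) = 0 := by
      unfold gN
      rw [prod_upd D v x hDv, ← hr]
      by_cases hxr : Nat.Coprime x r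
      · rw [pN_mul hxr, hpw]
        ring
      · rw [pN_not_sq]
        · ring
        · intro h3
          exact hxr (Nat.coprime_of_squarefree_mul h3)
    rw [this]
    ring
  have hodd : Odd r := by
    by_contra h
    exact hpw (pN_even hi h)
  have hsq : Squarefree r := by
    by_contra h
    exact hpw (pN_not_sq h)
  have hQ00 : Q₀ ≠ 0 := hQ₀.pos.ne'
  have hcop : Nat.Coprime r Q₀ := by
    by_contra h
    apply hpw
    unfold pN
    rw [J_eq_zero hQ00 h, mul_zero]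
  obtain ⟨hlt, hex⟩ := HH_ne P Z Y V v D hZY hκ
  obtain ⟨c, hc, a, ha, hone⟩ := one_varN hN₀1 P hP i Q₀ hi hQ00 v D hDv hodd
  rw [← hr] at hone
  set Q := Q₀ * lprod P v D with hQ
  set N := X / r with hN
  by_cases hYN : Y ≤ N
  swap
  · apply hzero
    intro x hx
    rw [mem_Icc] at hx
    rw [HH_small P Z Y V v D x (by omega)]
    ring
  have hQodd : Odd Q := by
    rw [hQ, Nat.odd_mul]
    refine ⟨hQ₀, ?_⟩
    obtain ⟨k, hk⟩ := lprod_dvd P v D
    rw [← hr] at hk
    rw [hk, Nat.odd_mul] at hodd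
    exact hodd.1
  have hQns : ¬ IsSquare Q := mod_nonsqN P v D hsq Q₀ hQ00 hcop hex
  have hQW : (4 * Q : ℝ) ≤ W := by
    refine le_trans ?_ hW
    have h1 : (lprod P v D : ℝ) ≤ (Z : ℝ) ^ (Fintype.card ι) := by
      exact_mod_cast lprod_le P v D Z hZ1 hlt
    rw [hQ]
    push_cast
    gcongr
  have hterm : ∑ x ∈ Icc 1 N, gN N₀ P i Q₀ (update D v x) *
      (HH P Z Y V v (update D v x) * tr J0 x)
      = c * HH P Z Y V v (update D v Y) * ∑ x ∈ Icc 1 N, (if x.primeFactors.card ≤ J0 then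
        (if Y ≤ x then ((if Squarefree x ∧ Nat.Coprime x r then qN N₀ x else 0) *
          (chi4 x ^ a * J x Q)) else 0) else 0) := by
    rw [Finset.mul_sum]
    apply Finset.sum_congr rfl
    intro x _
    rw [hone x]
    unfold tr
    by_cases hJ : x.primeFactors.card ≤ J0
    · by_cases hYx : Y ≤ x
      · rw [if_pos hJ, if_pos hJ, if_pos hYx, HH_upd P Z Y V v D hY hZY x hYx]
        ring
      · rw [if_pos hJ, if_pos hJ, if_neg hYx, HH_small P Z Y V v D x hYx]
        ring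
    · rw [if_neg hJ, if_neg hJ]
      ring
  rw [hterm, split_sumN N₀ a Q r J0 N Y (by omega) hYN, abs_mul, abs_mul]
  have hNX : N ≤ X := Nat.div_le_self _ _
  have hNR : (N : ℝ) ≤ X / r := Nat.cast_div_le
  have h3 : |∑ j ∈ range (J0 + 1), ((1 : ℝ) / N₀) ^ j * (SJ a Q r j N - SJ a Q r j (Y - 1))|
      ≤ 4 * X / M * (1 / (r : ℝ)) := by
    refine (Finset.abs_sum_le_sum_abs _ _).trans ?_
    have h4 : ∀ j ∈ range (J0 + 1), |((1 : ℝ) / N₀) ^ j * (SJ a Q r j N - SJ a Q r j (Y - 1))|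
        ≤ (1 / N₀) ^ j * (2 * (X / r) / M) := by
      intro j hj
      rw [mem_range] at hj
      rw [abs_mul, abs_of_nonneg (by positivity : (0 : ℝ) ≤ (1 / N₀) ^ j)]
      apply mul_le_mul_of_nonneg_left _ (by positivity)
      have h5 := hB a Q r j N ha hQodd hQns hQW hr1 hD2 (by omega) (by omega) hNX
      have h6 := hB a Q r j (Y - 1) ha hQodd hQns hQW hr1 hD2 (by omega) (by omega) (by omega)
      have h7 : ((Y - 1 : ℕ) : ℝ) / M ≤ (X / r) / M := by
        have : ((Y - 1 : ℕ) : ℝ) ≤ N := by exact_mod_cast (by omega : Y - 1 ≤ N)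
        have h8 := this.trans hNR
        gcongr
      have h8 : (N : ℝ) / M ≤ (X / r) / M := by gcongr
      refine (abs_sub _ _).trans ?_
      have : 2 * ((X : ℝ) / r) / M = (X / r) / M + (X / r) / M := by ring
      rw [this]
      linarith
    refine (Finset.sum_le_sum h4).trans ?_
    rw [← Finset.sum_mul]
    have h5 := geom_leN hN₀ (J0 + 1)
    calc (∑ j ∈ range (J0 + 1), ((1 : ℝ) / N₀) ^ j) * (2 * ((X : ℝ) / r) / M)
        ≤ 2 * (2 * ((X : ℝ) / r) / M) := by gcongr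
      _ = 4 * X / M * (1 / (r : ℝ)) := by ring
  have h4 : |c| * |HH P Z Y V v (update D v Y)| ≤ 1 :=
    mul_le_one₀ hc (abs_nonneg _) (HH_abs P Z Y V v _)
  calc |c| * |HH P Z Y V v (update D v Y)| *
        |∑ j ∈ range (J0 + 1), ((1 : ℝ) / N₀) ^ j * (SJ a Q r j N - SJ a Q r j (Y - 1))|
      ≤ 1 * |∑ j ∈ range (J0 + 1), ((1 : ℝ) / N₀) ^ j * (SJ a Q r j N - SJ a Q r j (Y - 1))| := by
        gcongr
    _ ≤ _ := by rw [one_mul]; exact h3

/-- the tail over many prime factors -/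
noncomputable def tailSN (ι : Type*) [Fintype ι] [DecidableEq ι] (N X J0 : ℕ) : ℝ :=
  ∑ D ∈ (TX ι X).filter (fun D => J0 < (∏ u, D u).primeFactors.card), sqh (qN N) D

/-- one coordinate -/
lemma S2_oneN {N₀ : ℕ} (hN₀ : 2 ≤ N₀) (P : ι → ι → ZMod 2) (hP : ∀ w, P w w = 0) (i Q₀ : ℕ)
    (hi : i ≠ 0) (hQ₀ : Odd Q₀) (X Y Z J0 : ℕ) (W M : ℝ) (hM : 0 < M) (hY : 2 ≤ Y) (hZ1 : 1 ≤ Z)
    (hZY : Z ≤ Y)
    (hW : (4 * (Q₀ * (Z : ℝ) ^ (Fintype.card ι))) ≤ W) (hB : CharB X Y J0 W M)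
    (V : Finset ι) (v : ι) :
    |∑ D ∈ TX ι X, gN N₀ P i Q₀ D * HH P Z Y V v D|
      ≤ 4 * X / M * (1 + Real.log X) ^ (Fintype.card ι) + tailSN ι N₀ X J0 := by
  have hsplit : ∑ D ∈ TX ι X, gN N₀ P i Q₀ D * HH P Z Y V v D
      = ∑ D ∈ TX ι X, gN N₀ P i Q₀ D * (HH P Z Y V v D * tr J0 (D v))
        + ∑ D ∈ TX ι X, gN N₀ P i Q₀ D * (HH P Z Y V v D * (1 - tr J0 (D v))) := by
    rw [← Finset.sum_add_distrib]
    apply Finset.sum_congr rfl
    intro D _
    ring
  rw [hsplit]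
  refine (abs_add_le _ _).trans (add_le_add ?_ ?_)
  · rw [sum_fibT X v]
    refine (Finset.abs_sum_le_sum_abs _ _).trans ?_
    have h1 : ∀ D ∈ (TX ι X).filter (fun D => D v = 1),
        |∑ x ∈ Icc 1 (X / ∏ u, D u), gN N₀ P i Q₀ (update D v x) *
          (HH P Z Y V v (update D v x) * tr J0 (update D v x v))|
        ≤ 4 * X / M * (1 / ((∏ u, D u : ℕ) : ℝ)) := by
      intro D hD
      rw [Finset.mem_filter] at hD
      have := S2_innerN hN₀ P hP i Q₀ hi hQ₀ X Y Z J0 W M hM hY hZ1 hZY hW hB V v D hD.1 hD.2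
      simpa only [update_self] using this
    refine (Finset.sum_le_sum h1).trans ?_
    rw [← Finset.mul_sum]
    apply mul_le_mul_of_nonneg_left _ (by positivity)
    refine le_trans ?_ (sum_recipT (ι := ι) X)
    apply Finset.sum_le_sum_of_subset_of_nonneg
    · exact Finset.filter_subset _ _
    · intro D _ _
      positivity
  · refine (Finset.abs_sum_le_sum_abs _ _).trans ?_
    unfold tailSN
    rw [Finset.sum_filter]
    apply Finset.sum_le_sum
    intro D hD
    rw [mem_TX] at hD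
    by_cases hJ : J0 < (∏ u, D u).primeFactors.card
    · rw [if_pos hJ, abs_mul]
      have h1 := gN_abs N₀ P i Q₀ D
      have h2 : |HH P Z Y V v D * (1 - tr J0 (D v))| ≤ 1 := by
        rw [abs_mul]
        refine mul_le_one₀ (HH_abs _ _ _ _ _ _) (abs_nonneg _) ?_
        unfold tr
        split_ifs <;> simp
      calc |gN N₀ P i Q₀ D| * |HH P Z Y V v D * (1 - tr J0 (D v))|
          ≤ sqh (qN N₀) D * 1 :=
            mul_le_mul h1 h2 (abs_nonneg _) (sqh_nonneg _ (qN_nonneg N₀) _)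
        _ = sqh (qN N₀) D := mul_one _
    · rw [if_neg hJ]
      have h1 : tr J0 (D v) = 1 := by
        unfold tr
        rw [if_pos]
        have h2 : (D v).primeFactors ⊆ (∏ u, D u).primeFactors :=
          Nat.primeFactors_mono (Finset.dvd_prod_of_mem _ (Finset.mem_univ v))
            (by have := one_le_prod hD.1; omega)
        have := Finset.card_le_card h2
        omega
      rw [h1]
      simp

/-- all coordinates -/
theorem S2N {N₀ : ℕ} (hN₀ : 2 ≤ N₀) (P : ι → ι → ZMod 2) (hP : ∀ w, P w w = 0) (i Q₀ : ℕ)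
    (hi : i ≠ 0) (hQ₀ : Odd Q₀) (X Y Z J0 : ℕ) (W M : ℝ) (hM : 0 < M) (hY : 2 ≤ Y) (hZ1 : 1 ≤ Z)
    (hZY : Z ≤ Y)
    (hW : (4 * (Q₀ * (Z : ℝ) ^ (Fintype.card ι))) ≤ W) (hB : CharB X Y J0 W M)
    (V : Finset ι) :
    |∑ D ∈ TX ι X, gN N₀ P i Q₀ D * NQ Z (allP P) D
        - ∑ D ∈ TX ι X, gN N₀ P i Q₀ D * (NQ Z (allP P) D * MV P Y V D)|
      ≤ V.card * (4 * X / M * (1 + Real.log X) ^ (Fintype.card ι) + tailSN ι N₀ X J0) := by
  induction V using Finset.induction_on with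
  | empty => simp [MV]
  | insert v V hv ih =>
    have h3 := S2_oneN hN₀ P hP i Q₀ hi hQ₀ X Y Z J0 W M hM hY hZ1 hZY hW hB V v
    have h4 : ∑ D ∈ TX ι X, gN N₀ P i Q₀ D * (NQ Z (allP P) D * MV P Y (insert v V) D)
        = ∑ D ∈ TX ι X, gN N₀ P i Q₀ D * (NQ Z (allP P) D * MV P Y V D)
          - ∑ D ∈ TX ι X, gN N₀ P i Q₀ D * HH P Z Y V v D := by
      rw [← Finset.sum_sub_distrib]
      apply Finset.sum_congr rfl
      intro D _
      have : MV P Y (insert v V) D = (1 - Cv P Y v D) * MV P Y V D := by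
        unfold MV
        rw [Finset.prod_insert hv]
      rw [this]
      unfold HH
      ring
    rw [h4, Finset.card_insert_of_notMem hv]
    push_cast
    have h5 : ∑ D ∈ TX ι X, gN N₀ P i Q₀ D * NQ Z (allP P) D -
        (∑ D ∈ TX ι X, gN N₀ P i Q₀ D * (NQ Z (allP P) D * MV P Y V D)
          - ∑ D ∈ TX ι X, gN N₀ P i Q₀ D * HH P Z Y V v D)
        = (∑ D ∈ TX ι X, gN N₀ P i Q₀ D * NQ Z (allP P) D
          - ∑ D ∈ TX ι X, gN N₀ P i Q₀ D * (NQ Z (allP P) D * MV P Y V D))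
          + ∑ D ∈ TX ι X, gN N₀ P i Q₀ D * HH P Z Y V v D := by ring
    rw [h5]
    refine (abs_add_le _ _).trans ?_
    linarith

end general2

end Vale.Agent.P017.H506
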