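import Vale.Agent.P017.H506.E3

/-!
The engine, fourth part: maximal unlinked sets, and the three error terms.
-/

namespace Vale.Agent.P017.H506

open Finset Function Vale.Agent.P014.FM
open Vale.Agent.P014.H687.FM (fm2b sqf mem_sqf SW eventually_log_rpow_le)

section general

variable {ι : Type*} [Fintype ι]

lemma mem_UsN {P : ι → ι → ZMod 2} {N : ℕ} {U : Finset ι} :
    U ∈ UsN P N ↔ U.card = N ∧ Unl P U := by
  unfold UsN
  simp

open Classical in
/-- the number of maximal unlinked sets containing the support -/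
noncomputable def mUN (N : ℕ) (P : ι → ι → ZMod 2) (D : ι → ℕ) : ℝ :=
  ∑ U ∈ UsN P N, if (∀ u, u ∉ U → D u = 1) then 1 else 0

lemma mUN_nonneg (N : ℕ) (P : ι → ι → ZMod 2) (D : ι → ℕ) : 0 ≤ mUN N P D := by
  unfold mUN
  apply Finset.sum_nonneg
  intro U _
  split_ifs <;> simp

open Classical in
lemma mUN_le (N : ℕ) (P : ι → ι → ZMod 2) (D : ι → ℕ) : mUN N P D ≤ (UsN P N).card := by
  unfold mUN
  calc ∑ U ∈ UsN P N, (if (∀ u, u ∉ U → D u = 1) then (1 : ℝ) else 0) ≤ ∑ _U ∈ UsN P N, (1 : ℝ) := by
        apply Finset.sum_le_sum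
        intro U _
        split_ifs <;> simp
    _ = (UsN P N).card := by simp

variable [DecidableEq ι]

/-- maximality -/
lemma UsN_max {P : ι → ι → ZMod 2} {N : ℕ} (hmax : ∀ U : Finset ι, Unl P U → U.card ≤ N)
    {U : Finset ι} (hU : U ∈ UsN P N) {w : ι} (hw : w ∉ U) :
    ∃ u ∈ U, P u w ≠ P w u := by
  rw [mem_UsN] at hU
  obtain ⟨h4, hun⟩ := hU
  by_contra hcon
  push Not at hcon
  have h1 := hmax (insert w U) (by
    intro u hu v hv
    rw [Finset.mem_insert] at hu hv
    rcases hu with rfl | hu <;> rcases hv with rfl | hv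
    · rfl
    · exact (hcon v hv).symm
    · exact hcon u hu
    · exact hun u hu v hv)
  rw [Finset.card_insert_of_notMem hw, h4] at h1
  omega

/-- many large coordinates -/
lemma m_eqN {P : ι → ι → ZMod 2} {N : ℕ} (hmax : ∀ U : Finset ι, Unl P U → U.card ≤ N)
    (Z Y : ℕ) (hZ : 2 ≤ Z) (hZY : Z ≤ Y) (D : ι → ℕ) (hD : ∀ u, 1 ≤ D u)
    (h4 : N ≤ (Lg Y D).card) :
    NQ Z (allP P) D * MV P Y univ D = mUN N P D := by
  have hmemL : ∀ u, u ∈ Lg Y D ↔ Y ≤ D u := by
    intro u
    unfold Lg
    rw [Finset.mem_filter]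
    exact ⟨fun h => h.2, fun h => ⟨Finset.mem_univ _, h⟩⟩
  by_cases hex : ∃ U ∈ UsN P N, ∀ u, u ∉ U → D u = 1
  · obtain ⟨U, hU, hsupp⟩ := hex
    have key : ∀ U' ∈ UsN P N, (∀ u, u ∉ U' → D u = 1) → U' = Lg Y D := by
      intro U' hU' hs
      symm
      apply Finset.eq_of_subset_of_card_le
      · intro u hu
        by_contra hcon
        have h1 := hs u hcon
        have h2 := (hmemL u).1 hu
        omega
      · have := (mem_UsN.1 hU').1
        omega
    have hULg := key U hU hsupp
    have hsum : mUN N P D = 1 := by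
      unfold mUN
      rw [Finset.sum_eq_single U]
      · rw [if_pos hsupp]
      · intro U' hU' hne
        rw [if_neg]
        intro hs
        exact hne ((key U' hU' hs).trans hULg.symm)
      · intro h
        exact absurd hU h
    have hun := (mem_UsN.1 hU).2
    have hNQ : NQ Z (allP P) D = 1 := by
      unfold NQ
      apply Finset.prod_eq_one
      rintro ⟨s, t⟩ hst
      unfold allP at hst
      rw [Finset.mem_filter] at hst
      have h1 := hst.2
      simp only at h1
      unfold bd
      rw [if_neg]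
      · ring
      · rintro ⟨hs, ht⟩
        have hsU : s ∈ U := by
          by_contra hcon
          have := hsupp s hcon
          simp only at hs
          omega
        have htU : t ∈ U := by
          by_contra hcon
          have := hsupp t hcon
          simp only at ht
          omega
        have h2 := hun s hsU t htU
        rw [h1.1] at h2
        exact h1.2 h2.symm
    have hMV : MV P Y univ D = 1 := by
      unfold MV
      apply Finset.prod_eq_one
      intro v _
      unfold Cv
      rw [if_neg]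
      · ring
      · rintro ⟨hv, w, hw1, hw2⟩
        have hvU : v ∈ U := by
          by_contra hcon
          have := hsupp v hcon
          omega
        have hwU : w ∈ U := by
          by_contra hcon
          have := hsupp w hcon
          omega
        exact hw1 (hun v hvU w hwU)
    rw [hNQ, hMV, hsum]
    ring
  · have hsum : mUN N P D = 0 := by
      unfold mUN
      apply Finset.sum_eq_zero
      intro U hU
      rw [if_neg]
      intro hs
      exact hex ⟨U, hU, hs⟩
    rw [hsum]
    by_contra hcon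
    have hMV : MV P Y univ D ≠ 0 := right_ne_zero_of_mul hcon
    have hC : ∀ v, ¬ (Y ≤ D v ∧ ∃ w, P v w ≠ P w v ∧ 1 < D w) := by
      intro v hv
      apply hMV
      unfold MV
      apply Finset.prod_eq_zero (Finset.mem_univ v)
      unfold Cv
      rw [if_pos hv]
      ring
    obtain ⟨U, hUsub, hUcard⟩ := Finset.exists_subset_card_eq h4
    have hUUs : U ∈ UsN P N := by
      rw [mem_UsN]
      refine ⟨hUcard, ?_⟩
      intro u hu v hv
      by_contra hne
      have h1 := (hmemL u).1 (hUsub hu)
      have h2 := (hmemL v).1 (hUsub hv)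
      exact hC u ⟨h1, v, hne, by omega⟩
    apply hex
    refine ⟨U, hUUs, ?_⟩
    intro w hw
    obtain ⟨u, hu, hne⟩ := UsN_max hmax hUUs hw
    have h1 := (hmemL u).1 (hUsub hu)
    have h2 := hC u
    by_contra h3
    have h4 := hD w
    exact h2 ⟨h1, w, hne, by omega⟩

/-- the third step -/
lemma S3N {P : ι → ι → ZMod 2} {N : ℕ} (hN : 1 ≤ N)
    (hmax : ∀ U : Finset ι, Unl P U → U.card ≤ N) (i Q X Y Z : ℕ) (hZ : 2 ≤ Z) (hZY : Z ≤ Y) :
    |∑ D ∈ TX ι X, gN N P i Q D * (NQ Z (allP P) D * MV P Y univ D)
        - ∑ D ∈ TX ι X, gN N P i Q D * mUN N P D|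
      ≤ (1 + (UsN P N).card) *
        ∑ D ∈ (TX ι X).filter (fun D => (Lg Y D).card ≤ N - 1), sqh (qN N) D := by
  rw [← Finset.sum_sub_distrib]
  refine (Finset.abs_sum_le_sum_abs _ _).trans ?_
  rw [Finset.sum_filter, Finset.mul_sum]
  apply Finset.sum_le_sum
  intro D hD
  rw [mem_TX] at hD
  by_cases h : (Lg Y D).card ≤ N - 1
  · rw [if_pos h, ← mul_sub, abs_mul]
    have h1 := gN_abs N P i Q D
    have h2 : |NQ Z (allP P) D * MV P Y univ D - mUN N P D| ≤ 1 + (UsN P N).card := by
      have h3 : |NQ Z (allP P) D * MV P Y univ D| ≤ 1 := by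
        rcases NQ_cases Z (allP P) D with h | h <;> rcases MV_cases P Y univ D with h' | h' <;>
          rw [h, h'] <;> simp
      have h4 : |mUN N P D| ≤ (UsN P N).card := by
        rw [abs_of_nonneg (mUN_nonneg N P D)]
        exact mUN_le N P D
      exact (abs_sub _ _).trans (add_le_add h3 h4)
    calc |gN N P i Q D| * |NQ Z (allP P) D * MV P Y univ D - mUN N P D|
        ≤ sqh (qN N) D * (1 + (UsN P N).card) :=
          mul_le_mul h1 h2 (abs_nonneg _) (sqh_nonneg _ (qN_nonneg N) _)
      _ = _ := mul_comm _ _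
  · rw [if_neg h, m_eqN hmax Z Y hZ hZY D hD.1 (by omega)]
    simp

end general

end Vale.Agent.P017.H506
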