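import Vale.Agent.P017.H506.E4

/-!
The engine, fifth part: the choice of the parameters.
-/

namespace Vale.Agent.P017.H506

open Finset Function Vale.Agent.P014.FM
open Vale.Agent.P014.H687.FM (fm2b sqf mem_sqf SW eventually_log_rpow_le)

/-- the exponent -/
noncomputable def eta (c N : ℕ) : ℝ := 1 / (2 * N * (c + 1))

lemma eta_pos {c N : ℕ} (hN : 1 ≤ N) : 0 < eta c N := by
  have : (0 : ℝ) < N := by exact_mod_cast hN
  unfold eta
  positivity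

lemma eta_half {c N : ℕ} (hN : 1 ≤ N) : eta c N ≤ 1 / 2 := by
  have hN' : (1 : ℝ) ≤ N := by exact_mod_cast hN
  have hc : (0 : ℝ) ≤ c := Nat.cast_nonneg _
  unfold eta
  apply one_div_le_one_div_of_le (by norm_num)
  nlinarith

lemma eta_mul {c N : ℕ} (hN : 1 ≤ N) : c * eta c N ≤ 1 / (2 * N) := by
  have hN' : (1 : ℝ) ≤ N := by exact_mod_cast hN
  have hc : (0 : ℝ) ≤ c := Nat.cast_nonneg _
  unfold eta
  rw [mul_one_div, div_le_div_iff₀ (by positivity) (by positivity)]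
  nlinarith

/-- the parameters -/
structure ParN (c N Q₀ : ℕ) (X : ℕ) (L K : ℝ) (Z Y J0 : ℕ) : Prop where
  hX : 9 ≤ X
  hL : Real.log X = L
  big : 2 ≤ L
  Z1 : (L ^ (c + 2)) ^ 32 ≤ Z
  Z2 : 2 ≤ Z
  ZY : Z ≤ Y
  Ylow : Real.exp (L ^ eta c N) + 1 ≤ Y
  Yup : Real.log Y ≤ 2 + L ^ eta c N
  YX : (Y ^ c) ^ 2 ≤ X
  J1 : (J0 : ℝ) ≤ K * Real.log L
  J2 : (4 * N + 4) * Real.log L ≤ J0 + 1
  W : 4 * (Q₀ * (Z : ℝ) ^ c) ≤ L ^ K
  M : L ^ (c + 1) ≤ L ^ K

/-- the exponent of the logarithm -/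
def KN (c N : ℕ) : ℕ := (32 * (c + 2)) * c + c + 4 * N + 5

theorem par_exN (c N Q₀ : ℕ) (hN : 1 ≤ N) : ∃ X₀ : ℝ, ∀ X : ℕ, X₀ ≤ X →
    ∃ L : ℝ, ∃ Z Y J0 : ℕ, ParN c N Q₀ X L (KN c N) Z Y J0 := by
  have hη := eta_pos (c := c) hN
  have hη2 := eta_half (c := c) hN
  have h1 := eventually_log_rpow_le 1 ((32 * (c + 2) : ℕ) + 1) (eta c N) hη
  have h2 : ∀ᶠ L : ℝ in Filter.atTop, (4 * Q₀ * 2 ^ c : ℝ) + (8 * c + 8) ^ 2 + 9 ≤ L :=
    Filter.eventually_ge_atTop _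
  obtain ⟨L₀, hL₀⟩ := Filter.eventually_atTop.1 (h1.and h2)
  refine ⟨max (Real.exp L₀) 9, ?_⟩
  intro X hX
  have hX2 : Real.exp L₀ ≤ X := (le_max_left _ _).trans hX
  have hX9 : (9 : ℝ) ≤ X := (le_max_right _ _).trans hX
  have hX9' : 9 ≤ X := by exact_mod_cast hX9
  have hXpos : (0 : ℝ) < X := by linarith
  obtain ⟨L, hL⟩ : ∃ L, Real.log X = L := ⟨_, rfl⟩
  have hLL : L₀ ≤ L := by rw [← hL, Real.le_log_iff_exp_le hXpos]; exact hX2
  obtain ⟨hlogr, hbig⟩ := hL₀ L hLL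
  rw [Real.rpow_one] at hlogr
  have hc0 : (0 : ℝ) ≤ c := Nat.cast_nonneg _
  have hN1 : (1 : ℝ) ≤ N := by exact_mod_cast hN
  have hQ0 : (0 : ℝ) ≤ 4 * Q₀ * 2 ^ c := by positivity
  have hsq0 : (0 : ℝ) ≤ (8 * c + 8) ^ 2 := by positivity
  have hL9 : 9 ≤ L := by linarith
  have hL0 : 0 < L := by linarith
  have hL1 : 1 ≤ L := by linarith
  obtain ⟨A, hA⟩ : ∃ A, (L ^ (c + 2)) ^ 32 = A := ⟨_, rfl⟩
  have hA' : A = L ^ (32 * (c + 2)) := by
    rw [← hA, ← pow_mul]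
    congr 1
    ring
  have hAL : L ≤ A := by
    rw [hA']
    exact le_self_pow₀ hL1 (by omega)
  obtain ⟨e, he⟩ : ∃ e, L ^ eta c N = e := ⟨_, rfl⟩
  have he1 : 1 ≤ e := by rw [← he]; exact Real.one_le_rpow hL1 hη.le
  have hexp : L * A ≤ Real.exp e := by
    rw [hA', ← pow_succ']
    rw [he] at hlogr
    have e1 : L ^ (32 * (c + 2) + 1) = Real.exp (((32 * (c + 2) : ℕ) + 1) * Real.log L) := by
      rw [mul_comm _ (Real.log L), Real.exp_mul, Real.exp_log hL0, ← Nat.cast_succ,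
        Real.rpow_natCast]
    rw [e1]
    exact Real.exp_le_exp.2 hlogr
  refine ⟨L, ⌈A⌉₊, ⌈Real.exp e⌉₊ + 1, ⌊(4 * N + 4) * Real.log L⌋₊, ?_⟩
  have hZ1 : A ≤ (⌈A⌉₊ : ℝ) := Nat.le_ceil _
  have hZ2 : (⌈A⌉₊ : ℝ) ≤ 2 * A := by
    have := (Nat.ceil_lt_add_one (by linarith : 0 ≤ A)).le
    linarith
  have hYup : ((⌈Real.exp e⌉₊ + 1 : ℕ) : ℝ) ≤ 3 * Real.exp e := by
    have h1 := (Nat.ceil_lt_add_one (Real.exp_pos e).le).le
    have h2 : 1 ≤ Real.exp e := Real.one_le_exp (by linarith)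
    push_cast
    linarith
  have hY1 : Real.exp e ≤ (⌈Real.exp e⌉₊ : ℝ) := Nat.le_ceil _
  have hlog3 : Real.log 3 ≤ 2 := by
    rw [Real.log_le_iff_le_exp (by norm_num)]
    have := Real.add_one_le_exp (2 : ℝ)
    linarith
  have hYpos : (0 : ℝ) < ((⌈Real.exp e⌉₊ + 1 : ℕ) : ℝ) := by positivity
  have hlogY : Real.log ((⌈Real.exp e⌉₊ + 1 : ℕ) : ℝ) ≤ 2 + e := by
    calc Real.log ((⌈Real.exp e⌉₊ + 1 : ℕ) : ℝ) ≤ Real.log (3 * Real.exp e) :=
          Real.log_le_log hYpos hYup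
      _ = Real.log 3 + e := by rw [Real.log_mul (by norm_num) (Real.exp_pos e).ne', Real.log_exp]
      _ ≤ 2 + e := by linarith
  have hlogL : 0 ≤ Real.log L := Real.log_nonneg hL1
  have hKr : ∀ n : ℕ, n ≤ KN c N → L ^ n ≤ L ^ ((KN c N : ℕ) : ℝ) := by
    intro n hn
    rw [Real.rpow_natCast]
    exact pow_le_pow_right₀ hL1 hn
  refine ⟨hX9', hL, by linarith, by rw [hA]; exact hZ1, ?_, ?_, ?_, by rw [he]; exact hlogY,
    ?_, ?_, ?_, ?_, ?_⟩
  · have : (2 : ℝ) ≤ (⌈A⌉₊ : ℝ) := by linarith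
    exact_mod_cast this
  · have h1 : (⌈A⌉₊ : ℝ) ≤ ((⌈Real.exp e⌉₊ + 1 : ℕ) : ℝ) := by
      calc (⌈A⌉₊ : ℝ) ≤ 2 * A := hZ2
        _ ≤ L * A := mul_le_mul_of_nonneg_right (by linarith) (by linarith)
        _ ≤ Real.exp e := hexp
        _ ≤ _ := by push_cast; linarith
    exact_mod_cast h1
  · rw [he]
    push_cast
    linarith
  · have heL : e ≤ L / (8 * c + 8) := by
      have h1 : e ≤ L ^ ((1 : ℝ) / 2) := by
        rw [← he]
        exact Real.rpow_le_rpow_of_exponent_le hL1 hη2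
      rw [← Real.sqrt_eq_rpow] at h1
      have h2 : Real.sqrt L ≤ L / (8 * c + 8) := by
        rw [le_div_iff₀ (by positivity)]
        have h3 : (8 * (c : ℝ) + 8) ≤ Real.sqrt L := by
          apply Real.le_sqrt_of_sq_le
          linarith
        calc Real.sqrt L * (8 * c + 8) ≤ Real.sqrt L * Real.sqrt L := by gcongr
          _ = L := Real.mul_self_sqrt hL0.le
      linarith
    obtain ⟨Y, hY⟩ : ∃ Y, ⌈Real.exp e⌉₊ + 1 = Y := ⟨_, rfl⟩
    rw [hY] at hlogY hYpos ⊢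
    have h1 : ((Y : ℝ) ^ c) ^ 2 ≤ X := by
      calc ((Y : ℝ) ^ c) ^ 2 = Real.exp ((c * 2 : ℕ) * Real.log Y) := by
            rw [mul_comm, Real.exp_mul, Real.exp_log hYpos, ← pow_mul]
            norm_cast
        _ ≤ Real.exp L := by
            apply Real.exp_le_exp.2
            push_cast
            have h2 : (c : ℝ) * 2 * Real.log Y ≤ c * 2 * (2 + L / (8 * c + 8)) := by
              gcongr
              linarith
            have h3 : (c : ℝ) * 2 * (L / (8 * c + 8)) ≤ L / 4 := by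
              rw [mul_div_assoc', div_le_div_iff₀ (by positivity) (by norm_num)]
              nlinarith
            nlinarith
        _ = X := by rw [← hL]; exact Real.exp_log hXpos
    exact_mod_cast h1
  · have h1 : ((⌊(4 * N + 4) * Real.log L⌋₊ : ℕ) : ℝ) ≤ (4 * N + 4) * Real.log L :=
      Nat.floor_le (by positivity)
    refine h1.trans ?_
    apply mul_le_mul_of_nonneg_right _ hlogL
    have h2 : 4 * N + 4 ≤ KN c N := by unfold KN; omega
    exact_mod_cast h2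
  · exact (Nat.lt_floor_add_one _).le
  · calc 4 * (Q₀ * (⌈A⌉₊ : ℝ) ^ c) ≤ 4 * (Q₀ * (2 * A) ^ c) := by gcongr
      _ = (4 * Q₀ * 2 ^ c) * A ^ c := by
          rw [mul_pow]
          ring
      _ ≤ L * A ^ c := by
          apply mul_le_mul_of_nonneg_right _ (pow_nonneg (by linarith) _)
          linarith
      _ = L ^ (32 * (c + 2) * c + 1) := by
          rw [hA', ← pow_mul, ← pow_succ']
      _ ≤ L ^ ((KN c N : ℕ) : ℝ) := hKr _ (by unfold KN; omega)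
  · exact hKr _ (by unfold KN; omega)

end Vale.Agent.P017.H506
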