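import Vale.Agent.P017.H506.E6

/-!
The engine, last part: reduction of the moments to the main terms.
-/

namespace Vale.Agent.P017.H506

open Finset Function Vale.Agent.P014.FM
open Vale.Agent.P014.H580 (J_abs J_mul_left J_mul_right bilin harm_le)

lemma J_three (n : ℕ) : J n 3 = if n % 3 = 1 then 1 else if n % 3 = 2 then -1 else 0 := by
  unfold Vale.Agent.P014.H580.J
  rw [jacobiSym.mod_left]
  have h : n % 3 = 0 ∨ n % 3 = 1 ∨ n % 3 = 2 := by omega
  have e : ((n : ℤ) % ((3 : ℕ) : ℤ)) = ((n % 3 : ℕ) : ℤ) := by push_cast; rfl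
  rw [e]
  rcases h with h | h | h
  · rw [h, show jacobiSym ((0 : ℕ) : ℤ) 3 = 0 by decide +kernel]; norm_num
  · rw [h, show jacobiSym ((1 : ℕ) : ℤ) 3 = 1 by decide +kernel]; norm_num
  · rw [h, show jacobiSym ((2 : ℕ) : ℤ) 3 = -1 by decide +kernel]; norm_num

lemma J_five (n : ℕ) : J n 5 = if n % 5 = 1 ∨ n % 5 = 4 then 1 else
    if n % 5 = 2 ∨ n % 5 = 3 then -1 else 0 := by
  unfold Vale.Agent.P014.H580.J
  rw [jacobiSym.mod_left]
  have h : n % 5 = 0 ∨ n % 5 = 1 ∨ n % 5 = 2 ∨ n % 5 = 3 ∨ n % 5 = 4 := by omega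
  have e : ((n : ℤ) % ((5 : ℕ) : ℤ)) = ((n % 5 : ℕ) : ℤ) := by push_cast; rfl
  rw [e]
  rcases h with h | h | h | h | h
  · rw [h, show jacobiSym ((0 : ℕ) : ℤ) 5 = 0 by decide +kernel]; norm_num
  · rw [h, show jacobiSym ((1 : ℕ) : ℤ) 5 = 1 by decide +kernel]; norm_num
  · rw [h, show jacobiSym ((2 : ℕ) : ℤ) 5 = -1 by decide +kernel]; norm_num
  · rw [h, show jacobiSym ((3 : ℕ) : ℤ) 5 = -1 by decide +kernel]; norm_num
  · rw [h, show jacobiSym ((4 : ℕ) : ℤ) 5 = 1 by decide +kernel]; norm_num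

lemma J_comb (n a b : ℕ) : J n (3 ^ a * 5 ^ b) = J n 3 ^ a * J n 5 ^ b := by
  rw [J_mul_right _ _ _ (by positivity) (by positivity), J_pow_right, J_pow_right]

/-- the six pairs `(Q, coefficient)` -/
noncomputable def cN (N i n : ℕ) : ℝ :=
  4 * pN N i 1 n - 2 * pN N i 9 n - 2 * pN N i 3 n - 2 * pN N i 25 n - 2 * pN N i 5 n
    + pN N i 225 n + pN N i 45 n + pN N i 75 n + pN N i 15 n

open Classical in
/-- the indicator of the family as a combination of characters -/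
lemma ind_F (N n : ℕ) : (if IsF n then qN N n else 0) = (1 / 8) * (cN N 2 n - cN N 1 n) := by
  have j0 : J n 1 = 1 := J_one_right n
  have j1 : J n 225 = J n 3 ^ 2 * J n 5 ^ 2 := by rw [← J_comb]; norm_num
  have j2 : J n 75 = J n 3 ^ 1 * J n 5 ^ 2 := by rw [← J_comb]; norm_num
  have j3 : J n 45 = J n 3 ^ 2 * J n 5 ^ 1 := by rw [← J_comb]; norm_num
  have j4 : J n 15 = J n 3 ^ 1 * J n 5 ^ 1 := by rw [← J_comb]; norm_num
  have j5 : J n 9 = J n 3 ^ 2 * J n 5 ^ 0 := by rw [← J_comb]; norm_num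
  have j6 : J n 25 = J n 3 ^ 0 * J n 5 ^ 2 := by rw [← J_comb]; norm_num
  unfold cN pN
  rw [j0, j1, j2, j3, j4, j5, j6]
  by_cases hsq : Squarefree n
  swap
  · rw [if_neg (fun h => hsq h.1), if_neg hsq]
    ring
  rw [if_pos hsq]
  have key : (if IsF n then qN N n else 0) = (1 / 8) * qN N n *
      ((chi4 n ^ 2 - chi4 n ^ 1) * (2 - J n 3 ^ 2 - J n 3 ^ 1) * (2 - J n 5 ^ 2 - J n 5 ^ 1)) := by
    by_cases h4 : n % 4 = 3
    · have hc : chi4 n = -1 := by
        unfold chi4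
        rw [if_neg (by omega), if_pos h4]
      by_cases h3 : n % 3 = 1
      · have hj3 : J n 3 = 1 := by
          rw [J_three, if_pos h3]
        rw [if_neg (fun h => h.2.2.1 h3), hj3]
        ring
      · have hj3 : J n 3 = 0 ∨ J n 3 = -1 := by
          rw [J_three, if_neg h3]
          split_ifs <;> simp
        by_cases h5 : n % 5 = 1 ∨ n % 5 = 4
        · have hj5 : J n 5 = 1 := by
            rw [J_five, if_pos h5]
          rw [if_neg (fun h => h5.elim h.2.2.2.1 h.2.2.2.2), hj5]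
          ring
        · have hj5 : J n 5 = 0 ∨ J n 5 = -1 := by
            rw [J_five, if_neg h5]
            split_ifs <;> simp
          rw [if_pos ⟨hsq, h4, h3, fun h => h5 (Or.inl h), fun h => h5 (Or.inr h)⟩, hc]
          rcases hj3 with h | h <;> rcases hj5 with h' | h' <;> rw [h, h'] <;> ring
    · have hc : chi4 n = 0 ∨ chi4 n = 1 := by
        unfold chi4
        rw [if_neg h4]
        split_ifs <;> simp
      rw [if_neg (fun h => h4 h.2.1)]
      rcases hc with h | h <;> rw [h] <;> ring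
  rw [key]
  ring

lemma mem_FX {X n : ℕ} : n ∈ FX X ↔ n ≤ X ∧ IsF n := by
  classical
  unfold FX
  rw [Finset.mem_filter, mem_range, Nat.lt_succ_iff]

section general

variable {ι : Type*} [Fintype ι] [DecidableEq ι]

open Classical in
/-- sums over the family and all factorisations -/
lemma sum_FX (N X : ℕ) (F : (ι → ℕ) → ℝ) :
    ∑ n ∈ FX X, (1 / (N : ℝ)) ^ n.primeFactors.card * ∑ D ∈ tup ι n, F D
      = ∑ D ∈ TX ι X, (if IsF (∏ u, D u) then qN N (∏ u, D u) else 0) * F D := by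
  have h1 : ∀ D ∈ (TX ι X).filter (fun D => IsF (∏ u, D u)), ∏ u, D u ∈ FX X := by
    intro D hD
    rw [Finset.mem_filter, mem_TX] at hD
    rw [mem_FX]
    exact ⟨hD.1.2, hD.2⟩
  have h2 : ∑ D ∈ TX ι X, (if IsF (∏ u, D u) then qN N (∏ u, D u) else 0) * F D
      = ∑ D ∈ (TX ι X).filter (fun D => IsF (∏ u, D u)), qN N (∏ u, D u) * F D := by
    rw [Finset.sum_filter]
    apply Finset.sum_congr rfl
    intro D _
    split_ifs
    · rfl
    · ring
  rw [h2, ← Finset.sum_fiberwise_of_maps_to h1]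
  apply Finset.sum_congr rfl
  intro n hn
  rw [mem_FX] at hn
  rw [Finset.mul_sum]
  have hn0 : n ≠ 0 := hn.2.1.ne_zero
  apply Finset.sum_congr
  · ext D
    unfold tup
    rw [Finset.mem_filter, Finset.mem_filter, Finset.mem_filter, mem_TX, Fintype.mem_piFinset]
    constructor
    · rintro ⟨h3, h4⟩
      have h5 : ∀ u, 1 ≤ D u := fun u => Nat.pos_of_mem_divisors (h3 u)
      rw [h4]
      exact ⟨⟨⟨h5, hn.1⟩, hn.2⟩, rfl⟩
    · rintro ⟨⟨⟨h3, _⟩, _⟩, h4⟩
      refine ⟨fun u => ?_, h4⟩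
      rw [Nat.mem_divisors]
      refine ⟨?_, hn0⟩
      rw [← h4]
      exact Finset.dvd_prod_of_mem _ (Finset.mem_univ u)
  · intro D hD
    rw [Finset.mem_filter] at hD
    have h3 : ∏ u, D u = n := by
      rw [Finset.mem_filter] at hD
      exact hD.2
    rw [h3]
    rfl

/-- the error for one choice of the characters -/
noncomputable def Er (N : ℕ) (P : ι → ι → ZMod 2) (i Q X : ℕ) : ℝ :=
  ∑ D ∈ TX ι X, gN N P i Q D - ∑ D ∈ TX ι X, gN N P i Q D * mUN N P D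

lemma Er_eq (N : ℕ) (P : ι → ι → ZMod 2) (i Q X : ℕ) :
    Er N P i Q X = ∑ D ∈ TX ι X, pN N i Q (∏ u, D u) * (wtP P D * (1 - mUN N P D)) := by
  unfold Er gN
  rw [← Finset.sum_sub_distrib]
  apply Finset.sum_congr rfl
  intro D _
  ring

/-- the combination of the errors -/
noncomputable def cE (N : ℕ) (P : ι → ι → ZMod 2) (i X : ℕ) : ℝ :=
  4 * Er N P i 1 X - 2 * Er N P i 9 X - 2 * Er N P i 3 X - 2 * Er N P i 25 X - 2 * Er N P i 5 X
    + Er N P i 225 X + Er N P i 45 X + Er N P i 75 X + Er N P i 15 X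

/-- the difference in terms of the twisted sums -/
lemma diff_eqF (N : ℕ) (P : ι → ι → ZMod 2) (X : ℕ) :
    ∑ n ∈ FX X, ((1 / (N : ℝ)) ^ n.primeFactors.card * ∑ D ∈ tup ι n, wtP P D
        - ∑ U ∈ UsN P N, mainN N P U n)
    = (1 / 8) * (cE N P 2 X - cE N P 1 X) := by
  classical
  have h1 : ∀ n ∈ FX X, (1 / (N : ℝ)) ^ n.primeFactors.card * ∑ D ∈ tup ι n, wtP P D
        - ∑ U ∈ UsN P N, mainN N P U n
      = (1 / (N : ℝ)) ^ n.primeFactors.card * ∑ D ∈ tup ι n, (wtP P D * (1 - mUN N P D)) := by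
    intro n _
    unfold mainN
    rw [← Finset.mul_sum, ← mul_sub]
    congr 1
    simp only [mul_sub, mul_one, Finset.sum_sub_distrib]
    congr 1
    simp only [Finset.sum_filter]
    rw [Finset.sum_comm]
    apply Finset.sum_congr rfl
    intro D _
    unfold mUN
    rw [Finset.mul_sum]
    apply Finset.sum_congr rfl
    intro U _
    by_cases h : ∀ u, u ∉ U → D u = 1
    · rw [if_pos h, if_pos h, mul_one]
    · rw [if_neg h, if_neg h, mul_zero]
  rw [Finset.sum_congr rfl h1, sum_FX]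
  unfold cE
  simp only [Er_eq, Finset.mul_sum, ← Finset.sum_sub_distrib, ← Finset.sum_add_distrib]
  apply Finset.sum_congr rfl
  intro D _
  rw [ind_F]
  unfold cN
  ring

/-- reduction to the main terms, first form -/
theorem engineG4 (N : ℕ) (hN : 2 ≤ N) (hι : Fintype.card ι = N ^ 2) (P : ι → ι → ZMod 2)
    (hP : ∀ w, P w w = 0) (hmax : ∀ U : Finset ι, Unl P U → U.card ≤ N) (ε : ℝ) (hε : 0 < ε) :
    ∃ X₀ : ℕ, ∀ X : ℕ, X₀ ≤ X →
    |∑ n ∈ FX X, ((1 / (N : ℝ)) ^ n.primeFactors.card * ∑ D ∈ tup ι n, wtP P D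
        - ∑ U ∈ UsN P N, mainN N P U n)| ≤ 4 * (ε * X) := by
  have hNR : (0 : ℝ) < N := by exact_mod_cast (by omega : 0 < N)
  have hone : ∀ Q : ℕ, Odd Q → ∃ X₀ : ℕ, ∀ X : ℕ, X₀ ≤ X → ∀ i : ℕ, i ≠ 0 →
      |Er N P i Q X| ≤ ε * X := by
    intro Q hQ
    obtain ⟨C, X₁, hC, h⟩ := one_iQ N Q hN hι P hP hQ hmax
    have ht : Filter.Tendsto (fun X : ℕ => C * (Real.log X) ^ (-(1 / (2 * (N : ℝ)))))
        Filter.atTop (nhds 0) := by
      have h1 := (tendsto_rpow_neg_atTop (show (0 : ℝ) < 1 / (2 * (N : ℝ)) by positivity)).comp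
        (Real.tendsto_log_atTop.comp tendsto_natCast_atTop_atTop)
      have h2 := h1.const_mul C
      rw [mul_zero] at h2
      exact h2
    obtain ⟨X₂, hX₂⟩ := Filter.eventually_atTop.1 (ht.eventually (ge_mem_nhds hε))
    refine ⟨max ⌈X₁⌉₊ X₂, ?_⟩
    intro X hX i hi
    have hX1 : X₁ ≤ X := (Nat.le_ceil _).trans (by exact_mod_cast (le_max_left _ _).trans hX)
    have h2 := hX₂ X ((le_max_right _ _).trans hX)
    refine (h X hX1 i hi).trans ?_
    calc C * X * (Real.log X) ^ (-(1 / (2 * (N : ℝ))))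
        = (C * (Real.log X) ^ (-(1 / (2 * (N : ℝ))))) * X := by ring
      _ ≤ ε * X := mul_le_mul_of_nonneg_right h2 (Nat.cast_nonneg _)
  have hcE : ∃ X₀ : ℕ, ∀ X : ℕ, X₀ ≤ X → ∀ i : ℕ, i ≠ 0 → |cE N P i X| ≤ 16 * (ε * X) := by
    obtain ⟨X₁, h1⟩ := hone 1 (by decide)
    obtain ⟨X₂, h2⟩ := hone 9 (by decide)
    obtain ⟨X₃, h3⟩ := hone 3 (by decide)
    obtain ⟨X₄, h4⟩ := hone 25 (by decide)
    obtain ⟨X₅, h5⟩ := hone 5 (by decide)
    obtain ⟨X₆, h6⟩ := hone 225 (by decide)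
    obtain ⟨X₇, h7⟩ := hone 45 (by decide)
    obtain ⟨X₈, h8⟩ := hone 75 (by decide)
    obtain ⟨X₉, h9⟩ := hone 15 (by decide)
    refine ⟨X₁ + X₂ + X₃ + X₄ + X₅ + X₆ + X₇ + X₈ + X₉, fun X hX i hi => ?_⟩
    have k1 := abs_le.1 (h1 X (by omega) i hi)
    have k2 := abs_le.1 (h2 X (by omega) i hi)
    have k3 := abs_le.1 (h3 X (by omega) i hi)
    have k4 := abs_le.1 (h4 X (by omega) i hi)
    have k5 := abs_le.1 (h5 X (by omega) i hi)
    have k6 := abs_le.1 (h6 X (by omega) i hi)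
    have k7 := abs_le.1 (h7 X (by omega) i hi)
    have k8 := abs_le.1 (h8 X (by omega) i hi)
    have k9 := abs_le.1 (h9 X (by omega) i hi)
    unfold cE
    rw [abs_le]
    constructor
    · linarith [k1.1, k2.2, k3.2, k4.2, k5.2, k6.1, k7.1, k8.1, k9.1]
    · linarith [k1.2, k2.1, k3.1, k4.1, k5.1, k6.2, k7.2, k8.2, k9.2]
  obtain ⟨X₀, h⟩ := hcE
  refine ⟨X₀, fun X hX => ?_⟩
  have a := abs_le.1 (h X hX 2 (by norm_num))
  have b := abs_le.1 (h X hX 1 (by norm_num))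
  rw [diff_eqF, abs_le]
  constructor
  · linarith [a.1, b.2]
  · linarith [a.2, b.1]

/-- **reduction to the main terms** -/
theorem engineG (N : ℕ) (hN : 2 ≤ N) (hι : Fintype.card ι = N ^ 2) (P : ι → ι → ZMod 2)
    (hP : ∀ w, P w w = 0) (hmax : ∀ U : Finset ι, Unl P U → U.card ≤ N) (ε : ℝ) (hε : 0 < ε) :
    ∃ X₀ : ℕ, ∀ X : ℕ, X₀ ≤ X →
    |∑ n ∈ FX X, ((1 / (N : ℝ)) ^ n.primeFactors.card * ∑ D ∈ tup ι n, wtP P D
        - ∑ U ∈ UsN P N, mainN N P U n)| ≤ ε * X := by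
  obtain ⟨X₀, h⟩ := engineG4 N hN hι P hP hmax (ε / 4) (by positivity)
  refine ⟨X₀, fun X hX => (h X hX).trans (le_of_eq (by ring))⟩

end general

lemma card_Ix (k : ℕ) : Fintype.card (Ix k) = (2 ^ k) ^ 2 := by
  rw [Fintype.card_fun, Fintype.card_prod, ZMod.card, Fintype.card_fin, ← pow_mul, mul_comm k 2,
    pow_mul]
  norm_num

lemma Pk_self (k : ℕ) (w : Ix k) : Pk k w w = 0 := by
  unfold Pk P1
  apply Finset.sum_eq_zero
  intro i _
  have h : ∀ a b : ZMod 2, b * (a + a) = 0 := by decide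
  exact h _ _

end Vale.Agent.P017.H506
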