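import Vale.Agent.P017.H915.Card

/-!
# Leaf L1: the power identity
-/

namespace Vale.Agent.P017.H506

open Finset Function Vale.Agent.P014.FM Vale.Agent.P017.H915

/-- L1 power identity, without the parity condition -/
theorem card_pow' (k : ℕ) {n : ℕ} (hn : Squarefree n) :
    ((RS n).card : ℝ) ^ k
      = (1 / ((2 ^ k : ℕ) : ℝ)) ^ n.primeFactors.card * ∑ D ∈ tup (Ix k) n, wtP (Pk k) D := by
  have h1 : ∑ D ∈ tup (Ix k) n, wtP (Pk k) D =
      (2 ^ n.primeFactors.card * ((RS n).card : ℝ)) ^ k := by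
    rw [← sum_tup hn, ← sum_W_P1 hn, ← sum_W_pow]
    exact Finset.sum_congr rfl fun c _ => wtP_Dc _ c
  rw [h1, mul_pow, ← mul_assoc]
  have h2 : (1 / ((2 ^ k : ℕ) : ℝ)) ^ n.primeFactors.card * (2 ^ n.primeFactors.card) ^ k = 1 := by
    rw [Nat.cast_pow, Nat.cast_ofNat, one_div, inv_pow, ← pow_mul, ← pow_mul,
      mul_comm n.primeFactors.card k]
    exact inv_mul_cancel₀ (by positivity)
  rw [h2, one_mul]

/-- L1 power identity -/
theorem card_pow (k : ℕ) {n : ℕ} (hn : Squarefree n) (_hodd : n % 2 = 1) :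
    ((RS n).card : ℝ) ^ k
      = (1 / ((2 ^ k : ℕ) : ℝ)) ^ n.primeFactors.card * ∑ D ∈ tup (Ix k) n, wtP (Pk k) D :=
  card_pow' k hn

end Vale.Agent.P017.H506
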