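import Vale.Agent.P017.H506.E7
import Vale.Agent.P017.H506.L1
import Vale.Agent.P017.H506.L2
import Vale.Agent.P017.H506.L3
import Vale.Agent.P017.H506.L6
import Vale.Agent.P017.H687.L5

/-!
The first three moments and the positive proportion.
-/

namespace Vale.Agent.P017.H506

open Finset Function Vale.Agent.P014.FM

/-- the reduction of the `k`-th moment to the main terms -/
theorem engine (k : ℕ) (hk : 1 ≤ k) (ε : ℝ) (hε : 0 < ε) : ∃ X₀ : ℕ, ∀ X : ℕ, X₀ ≤ X →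
    |∑ n ∈ FX X, (((RS n).card : ℝ) ^ k - ∑ U ∈ UsN (Pk k) (2 ^ k), mainN (2 ^ k) (Pk k) U n)|
      ≤ ε * X := by
  have h2 : 2 ≤ 2 ^ k := by
    calc 2 = 2 ^ 1 := by norm_num
      _ ≤ 2 ^ k := Nat.pow_le_pow_right (by norm_num) hk
  obtain ⟨X₀, h⟩ := engineG (2 ^ k) h2 (card_Ix k) (Pk k) (Pk_self k) (unl_le k) ε hε
  refine ⟨X₀, fun X hX => ?_⟩
  have h1 := h X hX
  rw [Finset.sum_congr rfl (fun n hn => ?_)] at h1
  · exact h1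
  · have hn' := (mem_FX.1 hn).2
    rw [← card_pow k hn'.1 (by have := hn'.2.1; omega)]

theorem mom1 (ε : ℝ) (hε : 0 < ε) : ∃ X₀ : ℕ, ∀ X : ℕ, X₀ ≤ X →
    ∑ n ∈ FX X, ((RS n).card : ℝ) ≤ 4 * ((FX X).card : ℝ) + ε * X := by
  obtain ⟨X₀, h⟩ := engine 1 le_rfl ε hε
  refine ⟨X₀, fun X hX => ?_⟩
  have h1 := (abs_le.1 (h X hX)).2
  rw [Finset.sum_sub_distrib] at h1
  have h2 : ∑ n ∈ FX X, ∑ U ∈ UsN (Pk 1) (2 ^ 1), mainN (2 ^ 1) (Pk 1) U n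
      = ∑ n ∈ FX X, (4 : ℝ) := by
    apply Finset.sum_congr rfl
    intro n hn
    have hn' := (mem_FX.1 hn).2
    exact main_one hn'.1 hn'.2.1
  rw [h2, Finset.sum_const, nsmul_eq_mul] at h1
  simp only [pow_one] at h1
  linarith

theorem mom2 (ε : ℝ) (hε : 0 < ε) : ∃ X₀ : ℕ, ∀ X : ℕ, X₀ ≤ X →
    20 * ((FX X).card : ℝ) - ε * X ≤ ∑ n ∈ FX X, ((RS n).card : ℝ) ^ 2 := by
  obtain ⟨X₀, h⟩ := engine 2 (by norm_num) ε hε
  refine ⟨X₀, fun X hX => ?_⟩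
  have h1 := (abs_le.1 (h X hX)).1
  rw [Finset.sum_sub_distrib] at h1
  have h2 : ∑ n ∈ FX X, (20 : ℝ) ≤
      ∑ n ∈ FX X, ∑ U ∈ UsN (Pk 2) (2 ^ 2), mainN (2 ^ 2) (Pk 2) U n := by
    apply Finset.sum_le_sum
    intro n hn
    have hn' := (mem_FX.1 hn).2
    exact main_two hn'.1 hn'.2.1
  rw [Finset.sum_const, nsmul_eq_mul] at h2
  linarith

theorem mom3 (ε : ℝ) (hε : 0 < ε) : ∃ X₀ : ℕ, ∀ X : ℕ, X₀ ≤ X →
    ∑ n ∈ FX X, ((RS n).card : ℝ) ^ 3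
      ≤ ((UsN (Pk 3) (2 ^ 3)).card : ℝ) * ((FX X).card : ℝ) + ε * X := by
  obtain ⟨X₀, h⟩ := engine 3 (by norm_num) ε hε
  refine ⟨X₀, fun X hX => ?_⟩
  have h1 := (abs_le.1 (h X hX)).2
  rw [Finset.sum_sub_distrib] at h1
  have h2 : ∑ n ∈ FX X, ∑ U ∈ UsN (Pk 3) (2 ^ 3), mainN (2 ^ 3) (Pk 3) U n
      ≤ ∑ n ∈ FX X, ((UsN (Pk 3) (2 ^ 3)).card : ℝ) := by
    apply Finset.sum_le_sum
    intro n hn
    have hn' := (mem_FX.1 hn).2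
    calc ∑ U ∈ UsN (Pk 3) (2 ^ 3), mainN (2 ^ 3) (Pk 3) U n
        ≤ ∑ U ∈ UsN (Pk 3) (2 ^ 3), (1 : ℝ) := by
          apply Finset.sum_le_sum
          intro U hU
          have := main_abs (2 ^ 3) (by norm_num) (Pk 3) U (mem_UsN.1 hU).1.le hn'.1
          exact (abs_le.1 this).2
      _ = _ := by rw [Finset.sum_const, nsmul_eq_mul, mul_one]
  rw [Finset.sum_const, nsmul_eq_mul, mul_comm] at h2
  linarith

/-- a positive proportion of the family has `4`-rank zero -/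
theorem prop_two : ∃ c : ℝ, 0 < c ∧ ∃ X₀ : ℕ, ∀ X : ℕ, X₀ ≤ X →
    c * X ≤ (((FX X).filter fun n => (RS n).card = 2).card : ℝ) :=
  from_moments mom1 mom2 _ mom3

end Vale.Agent.P017.H506
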