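import Vale.Agent.P017.H506.S0
import Vale.Agent.P017.H654.Good

/-!
Leaf S2: at most 128 good sets with 8 elements for the third moment.
-/

namespace Vale.Agent.P017.H506

open Finset

open Classical in
/-- S2 -/
theorem good_three : ((UsN (Pk 3) 8).filter (fun U => Good (Pk 3) U)).card ≤ 128 :=
  H654.good_three

end Vale.Agent.P017.H506
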