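import Vale.Agent.P017.H506.E8
import Vale.Agent.P017.H506.S2
import Vale.Agent.P017.H506.S3
import Vale.Agent.P017.H506.S5
import Vale.Agent.P017.H687.S1
import Vale.Agent.P017.H687.S4

/-!
The third moment and the density `2/7`.
-/

namespace Vale.Agent.P017.H506

open Finset Function Vale.Agent.P014.FM

/-- the third moment -/
theorem mom3s (ε : ℝ) (hε : 0 < ε) : ∃ X₀ : ℕ, ∀ X : ℕ, X₀ ≤ X →
    ∑ n ∈ FX X, ((RS n).card : ℝ) ^ 3 ≤ 128 * ((FX X).card : ℝ) + ε * X := by
  classical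
  set B : Finset (Finset (Ix 3)) := (UsN (Pk 3) 8).filter (fun U => ¬ Good (Pk 3) U) with hB
  have hb0 : (0 : ℝ) ≤ (B.card : ℝ) := Nat.cast_nonneg _
  obtain ⟨X₁, h⟩ := engine 3 (by norm_num) (ε / 2) (by positivity)
  obtain ⟨X₂, hneg⟩ := negl (ε / (4 * ((B.card : ℝ) + 1))) (by positivity)
  refine ⟨max X₁ X₂, fun X hX => ?_⟩
  have h1 := (abs_le.1 (h X ((le_max_left _ _).trans hX))).2
  have h2 := hneg X ((le_max_right _ _).trans hX)
  rw [Finset.sum_sub_distrib] at h1
  have h3 : ∑ n ∈ FX X, ∑ U ∈ UsN (Pk 3) (2 ^ 3), mainN (2 ^ 3) (Pk 3) U n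
      ≤ ∑ n ∈ FX X, (128 + (B.card : ℝ) *
        (2 * (1 / 2 : ℝ) ^ (n.primeFactors.filter (fun p => p % 4 = 3)).card)) := by
    apply Finset.sum_le_sum
    intro n hn
    have hn' := (mem_FX.1 hn).2
    have e8 : (2 : ℕ) ^ 3 = 8 := by norm_num
    have hs := Finset.sum_filter_add_sum_filter_not (UsN (Pk 3) (2 ^ 3)) (fun U => Good (Pk 3) U)
      (fun U => mainN (2 ^ 3) (Pk 3) U n)
    rw [← hs]
    apply add_le_add
    · calc ∑ U ∈ (UsN (Pk 3) (2 ^ 3)).filter (fun U => Good (Pk 3) U), mainN (2 ^ 3) (Pk 3) U n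
          ≤ ∑ U ∈ (UsN (Pk 3) (2 ^ 3)).filter (fun U => Good (Pk 3) U), (1 : ℝ) := by
            apply Finset.sum_le_sum
            intro U hU
            have := main_abs (2 ^ 3) (by norm_num) (Pk 3) U
              (mem_UsN.1 (Finset.mem_filter.1 hU).1).1.le hn'.1
            exact (abs_le.1 this).2
        _ = (((UsN (Pk 3) 8).filter (fun U => Good (Pk 3) U)).card : ℝ) := by
            rw [Finset.sum_const, nsmul_eq_mul, mul_one, e8]
        _ ≤ 128 := by
            have := good_three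
            have h128 : (((UsN (Pk 3) 8).filter (fun U => Good (Pk 3) U)).card : ℝ)
              ≤ ((128 : ℕ) : ℝ) := by
              refine Nat.cast_le.2 (le_trans (le_of_eq ?_) this)
              congr
            simpa using h128
    · calc ∑ U ∈ (UsN (Pk 3) (2 ^ 3)).filter (fun U => ¬ Good (Pk 3) U), mainN (2 ^ 3) (Pk 3) U n
          ≤ ∑ U ∈ (UsN (Pk 3) (2 ^ 3)).filter (fun U => ¬ Good (Pk 3) U),
            (2 * (1 / 2 : ℝ) ^ (n.primeFactors.filter (fun p => p % 4 = 3)).card) := by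
            apply Finset.sum_le_sum
            intro U hU
            rw [Finset.mem_filter] at hU
            exact (abs_le.1 (bad_bound 3 hU.1 hU.2 hn'.1 hn'.2.1)).2
        _ = _ := by
            rw [Finset.sum_const, nsmul_eq_mul, hB, e8]
  have h4 : ∑ n ∈ FX X, (128 + (B.card : ℝ) *
        (2 * (1 / 2 : ℝ) ^ (n.primeFactors.filter (fun p => p % 4 = 3)).card))
      = 128 * ((FX X).card : ℝ) + 2 * (B.card : ℝ) *
        ∑ n ∈ FX X, (1 / 2 : ℝ) ^ (n.primeFactors.filter (fun p => p % 4 = 3)).card := by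
    rw [Finset.sum_add_distrib, Finset.sum_const, nsmul_eq_mul, Finset.mul_sum]
    congr 1
    · ring
    · apply Finset.sum_congr rfl
      intro n _
      ring
  have h5 : 2 * (B.card : ℝ) *
        ∑ n ∈ FX X, (1 / 2 : ℝ) ^ (n.primeFactors.filter (fun p => p % 4 = 3)).card
      ≤ ε / 2 * X := by
    calc 2 * (B.card : ℝ) *
        ∑ n ∈ FX X, (1 / 2 : ℝ) ^ (n.primeFactors.filter (fun p => p % 4 = 3)).card
        ≤ 2 * (B.card : ℝ) * (ε / (4 * ((B.card : ℝ) + 1)) * X) := by gcongr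
      _ = (B.card / (B.card + 1)) * (ε / 2 * X) := by
          field_simp
          ring
      _ ≤ 1 * (ε / 2 * X) := by
          apply mul_le_mul_of_nonneg_right _ (by positivity)
          rw [div_le_one (by positivity)]
          linarith
      _ = ε / 2 * X := one_mul _
  linarith

/-- the density `2/7` in the family -/
theorem dens27 : ∀ ε : ℝ, 0 < ε → ∃ X₀ : ℕ, ∀ X : ℕ, X₀ ≤ X →
      (2 / 7 - ε) * ((FX X).card : ℝ) ≤ (((FX X).filter fun n => (RS n).card = 2).card : ℝ) :=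
  from_moments_sharp mom1 mom2 mom3s

lemma FX_sub (X : ℕ) : ((FX X).card : ℝ) ≤ ((AllX X).card : ℝ) := by
  apply Nat.cast_le.2
  apply Finset.card_le_card
  intro n hn
  rw [mem_FX] at hn
  rw [S1.mem_AllX, S1.dsc_three hn.2.2.1]
  exact ⟨by omega, hn.2.1, hn.1⟩

/-- the density `5/72` among all imaginary quadratic fields -/
theorem dens572 (ε : ℝ) (hε : 0 < ε) : ∃ X₀ : ℕ, ∀ X : ℕ, X₀ ≤ X →
    (5 / 72 - ε) * ((AllX X).card : ℝ) ≤ (((FX X).filter fun n => (RS n).card = 2).card : ℝ) := by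
  obtain ⟨X₁, h1⟩ := dens27 (ε / 2) (by positivity)
  obtain ⟨X₂, h2⟩ := count_ratio (ε / 2) (by positivity)
  refine ⟨max X₁ X₂, fun X hX => ?_⟩
  have a := h1 X ((le_max_left _ _).trans hX)
  have b := h2 X ((le_max_right _ _).trans hX)
  have c := FX_sub X
  have hA0 : 0 ≤ ((AllX X).card : ℝ) := Nat.cast_nonneg _
  generalize ((FX X).card : ℝ) = F at a b c
  generalize ((AllX X).card : ℝ) = A at b c hA0 ⊢
  refine le_trans ?_ a
  have e1 := mul_le_mul_of_nonneg_left c (by positivity : (0 : ℝ) ≤ ε / 2)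
  have e2 := mul_nonneg hε.le hA0
  nlinarith [e1, e2, b]

end Vale.Agent.P017.H506
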