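import Vale.Agent.P017.H506.R0
import Vale.Agent.P017.H687.Ratio

/-!
Leaf T11: the sizes of the six families.
-/

namespace Vale.Agent.P017.H506

open Finset Function Vale.Agent.P014.FM

namespace T11

open S1 Vale.Agent.P017.H687.Sqf

lemma mem_GX' {tp cl X n : ℕ} : n ∈ GX tp cl X ↔ n ≤ X ∧ IsG tp cl n := by
  classical
  unfold GX
  rw [Finset.mem_filter, mem_range, Nat.lt_succ_iff]

/-- the classes modulo `900` -/
def fG (cl r : ℕ) : ℕ → Bool := if cl = 0 then fI r else fII r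

lemma mem_fG {cl r Y n : ℕ} : n ∈ QX (fG cl r) Y ↔ n ≤ Y ∧ Squarefree n ∧ n % 4 = r ∧
    (if cl = 0 then n % 3 ≠ 1 ∧ n % 5 ≠ 1 ∧ n % 5 ≠ 4 else n % 3 = 1 ∧ (n % 5 = 1 ∨ n % 5 = 4)) := by
  unfold fG
  by_cases hcl : cl = 0
  · rw [if_pos hcl, if_pos hcl, mem_QI]
  · rw [if_neg hcl, if_neg hcl, mem_QII]

lemma GX_zero (cl X : ℕ) : GX 0 cl X = QX (fG cl 3) X := by
  ext n
  rw [mem_GX', mem_fG]
  unfold IsG dd
  rw [if_pos rfl, if_neg (by norm_num : ¬ (0 = 2))]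

lemma GX_one (cl X : ℕ) : GX 1 cl X = QX (fG cl 1) X := by
  ext n
  rw [mem_GX', mem_fG]
  unfold IsG dd
  rw [if_neg (by norm_num), if_pos rfl, if_neg (by norm_num : ¬ (1 = 2))]

lemma card_GX_two (cl X : ℕ) : (GX 2 cl X).card = (QX (fG cl 2) (2 * X)).card := by
  classical
  apply Finset.card_bij (fun n _ => 2 * n)
  · intro n hn
    rw [mem_GX'] at hn
    obtain ⟨h1, h2, h3, h4⟩ := hn
    rw [if_neg (by norm_num), if_neg (by norm_num)] at h3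
    unfold dd at h4
    rw [if_pos rfl] at h4
    rw [mem_fG]
    refine ⟨by omega, ?_, by omega, h4⟩
    rw [Nat.squarefree_mul (Nat.coprime_two_left.2 (Nat.odd_iff.2 h3.2))]
    exact ⟨Nat.prime_two.squarefree, h2⟩
  · intro a _ b _ h
    omega
  · intro d hd
    rw [mem_fG] at hd
    obtain ⟨h1, h2, h3, h4⟩ := hd
    have hd2 : 2 * (d / 2) = d := by omega
    refine ⟨d / 2, ?_, hd2⟩
    rw [mem_GX']
    refine ⟨by omega, Squarefree.squarefree_of_dvd ⟨2, by omega⟩ h2, ?_, ?_⟩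
    · rw [if_neg (by norm_num), if_neg (by norm_num)]
      exact ⟨rfl, by omega⟩
    · unfold dd
      rw [if_pos rfl, hd2]
      exact h4

lemma card_Af (cl r : ℕ) (hr : r = 1 ∨ r = 2 ∨ r = 3) : 1 ≤ (Af (fG cl r)).card := by
  unfold fG
  by_cases hcl : cl = 0
  · rw [if_pos hcl]
    rcases hr with rfl | rfl | rfl
    · rw [card_I1]; norm_num
    · rw [card_I2]; norm_num
    · rw [card_I3]; norm_num
  · rw [if_neg hcl]
    rcases hr with rfl | rfl | rfl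
    · rw [card_II1]; norm_num
    · rw [card_II2]; norm_num
    · rw [card_II3]; norm_num

lemma QX_low (cl r : ℕ) (hr : r = 1 ∨ r = 2 ∨ r = 3) (Y : ℕ) (hY : 10 ^ 8 ≤ Y) :
    (1 / 10000 : ℝ) * Y ≤ ((QX (fG cl r) Y).card : ℝ) := by
  have h1 := QX_ge (fG cl r) Y
  have hm := card_Af cl r hr
  have hmR : (1 : ℝ) ≤ ((Af (fG cl r)).card : ℝ) := by exact_mod_cast hm
  generalize ((Af (fG cl r)).card : ℝ) = m at h1 hmR
  have hC := C_pos
  set s : ℕ := Nat.sqrt Y with hs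
  have hs1 : 10 ^ 4 ≤ s := Nat.le_sqrt.2 (by
    calc 10 ^ 4 * 10 ^ 4 = 10 ^ 8 := by norm_num
      _ ≤ Y := hY)
  have hsY : s * s ≤ Y := Nat.sqrt_le Y
  have hs1R : (10000 : ℝ) ≤ s := by
    have h : ((10000 : ℕ) : ℝ) ≤ (s : ℝ) := Nat.cast_le.2 ((by norm_num : 10000 ≤ 10 ^ 4).trans hs1)
    rw [Nat.cast_ofNat] at h
    exact h
  have hsYR : (s : ℝ) * s ≤ Y := by exact_mod_cast hsY
  have hY0 : (0 : ℝ) ≤ Y := Nat.cast_nonneg _
  have hs0 : (0 : ℝ) ≤ s := Nat.cast_nonneg _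
  have e1 : 10000 * (s : ℝ) ≤ Y := (mul_le_mul_of_nonneg_right hs1R hs0).trans hsYR
  have e2 : (1 / 1260 : ℝ) * Y ≤ C / 900 * Y := by
    apply mul_le_mul_of_nonneg_right _ hY0
    linarith
  have e3 : (1 / 10000 : ℝ) * Y ≤ C / 900 * Y - (4 * (s : ℝ) + 1) := by
    linarith
  have e4 : C / 900 * Y - (4 * (s : ℝ) + 1) ≤ m * (C / 900 * Y - (4 * (s : ℝ) + 1)) := by
    have h0 : 0 ≤ C / 900 * Y - (4 * (s : ℝ) + 1) := le_trans (by positivity) e3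
    exact le_mul_of_one_le_left h0 hmR
  calc (1 / 10000 : ℝ) * Y ≤ m * (C / 900 * Y - (4 * (s : ℝ) + 1)) := e3.trans e4
    _ ≤ _ := by
        refine le_trans (le_of_eq ?_) h1
        ring

end T11

open T11 S1

/-- T11 -/
theorem count6 (ε : ℝ) (hε : 0 < ε) : ∃ X₀ : ℕ, ∀ X : ℕ, X₀ ≤ X →
    (25 / 48 - ε) * ((AllX X).card : ℝ) ≤ ((GX 0 0 X).card : ℝ) + (GX 0 1 X).card +
      (GX 1 0 (X / 4)).card + (GX 1 1 (X / 4)).card + (GX 2 0 (X / 8)).card +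
      (GX 2 1 (X / 8)).card := by
  obtain ⟨X₁, h⟩ := ratio_six (ε / 6) (by positivity)
  refine ⟨X₁, fun X hX => ?_⟩
  obtain ⟨a1, a2, a3, a4, a5, a6⟩ := h X hX
  rw [GX_zero, GX_zero, GX_one, GX_one, card_GX_two, card_GX_two]
  have hle : ∀ cl, QX (fG cl 2) (X / 4) = QX (fG cl 2) (2 * (X / 8)) := by
    intro cl
    ext n
    rw [mem_fG, mem_fG]
    constructor
    · rintro ⟨h1, h2, h3, h4⟩
      exact ⟨by omega, h2, h3, h4⟩
    · rintro ⟨h1, h2, h3, h4⟩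
      exact ⟨by omega, h2, h3, h4⟩
  rw [← hle, ← hle]
  have f0 : ∀ r, fG 0 r = fI r := fun r => rfl
  have f1 : ∀ r, fG 1 r = fII r := fun r => rfl
  rw [f0, f0, f0, f1, f1, f1]
  linarith

/-- T11 -/
theorem GX_card (tp cl : ℕ) (htp : tp ≤ 2) : ∃ c : ℝ, 0 < c ∧ ∃ X₀ : ℕ, ∀ X : ℕ, X₀ ≤ X →
      c * X ≤ ((GX tp cl X).card : ℝ) := by
  refine ⟨1 / 10000, by norm_num, 10 ^ 8, fun X hX => ?_⟩
  have h : tp = 0 ∨ tp = 1 ∨ tp = 2 := by omega
  rcases h with rfl | rfl | rfl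
  · rw [GX_zero]
    exact QX_low cl 3 (by norm_num) X hX
  · rw [GX_one]
    exact QX_low cl 1 (by norm_num) X hX
  · rw [card_GX_two]
    have h1 := QX_low cl 2 (by norm_num) (2 * X) (by omega)
    push_cast at h1
    have hX0 : (0 : ℝ) ≤ X := Nat.cast_nonneg _
    linarith

end Vale.Agent.P017.H506
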