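import Vale.Agent.P017.H506.T13
import Vale.Agent.P017.H506.RT11
import Vale.Agent.P017.H687.Mom
import Vale.Agent.P017.H102.T12

/-!
Round 3: the density `25/168` among all imaginary quadratic fields.
-/

namespace Vale.Agent.P017.H506

open Finset Function Vale.Agent.P014.FM

universe u

/-- the density `2/7` in each of the six families -/
theorem densG (tp cl : ℕ) (htp : tp ≤ 2) : ∀ ε : ℝ, 0 < ε → ∃ X₀ : ℕ, ∀ X : ℕ, X₀ ≤ X →
      (2 / 7 - ε) * ((GX tp cl X).card : ℝ) ≤
        (((GX tp cl X).filter fun n => (R3 tp cl n).card = 2).card : ℝ) :=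
  H687.from_moments_gen (GX tp cl) (fun n => (R3 tp cl n).card) (GX_card tp cl htp)
    ⟨0, fun _ _ _ hn => R3_pow (T13.mem_GX.1 hn).2⟩ (mom31 tp cl htp) (mom32 tp cl htp)
    (mom33 tp cl htp)

/-- `X₀(15)` has finitely many points over `ℚ(√-d)` -/
def FinX (d : ℕ) : Prop :=
  ∀ (K : Type u) [Field K] [NumberField K] [Algebra.IsQuadraticExtension ℚ K] (θ : K),
    θ ^ 2 = -(d : K) → Finite (H185.X015.baseChange K).toAffine.Point

open Classical in
/-- the fields counted -/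
noncomputable def TX0 (X : ℕ) : Finset ℕ := (AllX X).filter (fun d => FinX.{u} d)

/-- type and class of a field -/
def key (d : ℕ) : ℕ × ℕ :=
  (if d % 4 = 3 then 0 else if d % 4 = 1 then 1 else 2, if d % 3 = 1 then 1 else 0)

/-- the bound for the odd part -/
def bd0 (tp X : ℕ) : ℕ := if tp = 0 then X else if tp = 1 then X / 4 else X / 8

lemma dd_facts {tp cl n X : ℕ} (hcl : cl = 0 ∨ cl = 1) (hn : IsG tp cl n) (hX : n ≤ bd0 tp X) :
    Squarefree (dd tp n) ∧ dsc (dd tp n) ≤ X ∧ dd tp n ≤ X ∧ key (dd tp n) = (tp, cl) := by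
  obtain ⟨hsq, h4, hc⟩ := hn
  have hkey2 : (if dd tp n % 3 = 1 then 1 else 0) = cl := by
    rcases hcl with rfl | rfl
    · rw [if_pos rfl] at hc
      rw [if_neg hc.1]
    · rw [if_neg (by norm_num)] at hc
      rw [if_pos hc.1]
  unfold key
  rw [hkey2]
  by_cases h0 : tp = 0
  · subst h0
    rw [if_pos rfl] at h4
    unfold bd0 at hX
    rw [if_pos rfl] at hX
    unfold dd
    rw [if_neg (by norm_num), S1.dsc_three h4, if_pos h4]
    exact ⟨hsq, hX, hX, rfl⟩
  · by_cases h1 : tp = 1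
    · subst h1
      rw [if_neg (by norm_num), if_pos rfl] at h4
      unfold bd0 at hX
      rw [if_neg (by norm_num), if_pos rfl] at hX
      unfold dd
      rw [if_neg (by norm_num), S1.dsc_not (by omega), if_neg (by omega), if_pos h4]
      exact ⟨hsq, by omega, by omega, rfl⟩
    · rw [if_neg h0, if_neg h1] at h4
      obtain ⟨h2, hodd⟩ := h4
      subst h2
      unfold bd0 at hX
      rw [if_neg (by norm_num), if_neg (by norm_num)] at hX
      unfold dd
      rw [if_pos rfl, S1.dsc_not (by omega), if_neg (by omega), if_neg (by omega)]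
      refine ⟨?_, by omega, by omega, rfl⟩
      rw [Nat.squarefree_mul (Nat.coprime_two_left.2 (Nat.odd_iff.2 hodd))]
      exact ⟨Nat.prime_two.squarefree, hsq⟩

open Classical in
lemma part {tp cl : ℕ} (hcl : cl = 0 ∨ cl = 1) (X : ℕ) :
    (((GX tp cl (bd0 tp X)).filter fun n => (R3 tp cl n).card = 2).card : ℝ) ≤
      (((TX0.{u} X).filter (fun d => key d = (tp, cl))).card : ℝ) + 1 := by
  set A := (GX tp cl (bd0 tp X)).filter fun n => (R3 tp cl n).card = 2 with hA
  have h1 : (A.erase 1).card ≤ ((TX0.{u} X).filter (fun d => key d = (tp, cl))).card := by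
    apply Finset.card_le_card_of_injOn (dd tp)
    · intro n hn
      rw [Finset.mem_coe, Finset.mem_erase, hA, Finset.mem_filter, T13.mem_GX] at hn
      obtain ⟨hn1, ⟨hnX, hn⟩, h2⟩ := hn
      obtain ⟨g1, g2, g3, g4⟩ := dd_facts hcl hn hnX
      rw [Finset.mem_coe, Finset.mem_filter]
      refine ⟨?_, g4⟩
      unfold TX0
      rw [Finset.mem_filter, S1.mem_AllX]
      refine ⟨⟨by omega, g1, g2⟩, ?_⟩
      rcases hcl with rfl | rfl
      · exact fin3_I hn h2
      · have hn0 : n ≠ 0 := hn.1.ne_zero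
        exact fin3_II (by norm_num) hn (by omega) h2
    · intro a _ b _ h
      unfold dd at h
      split_ifs at h <;> omega
  have h2 : A.card ≤ (A.erase 1).card + 1 := by
    have := Finset.pred_card_le_card_erase (s := A) (a := 1)
    omega
  have h3 : A.card ≤ ((TX0.{u} X).filter (fun d => key d = (tp, cl))).card + 1 := by omega
  exact_mod_cast h3

open Classical in
lemma sum_parts (X : ℕ) : ((TX0.{u} X).card : ℝ) =
    ∑ κ ∈ (range 3) ×ˢ (range 2), (((TX0.{u} X).filter (fun d => key d = κ)).card : ℝ) := by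
  rw [← Nat.cast_sum]
  refine congrArg (Nat.cast : ℕ → ℝ) ?_
  apply Finset.card_eq_sum_card_fiberwise
  intro d _
  rw [Finset.mem_coe, Finset.mem_product, mem_range, mem_range]
  unfold key
  constructor
  · dsimp only
    split_ifs <;> norm_num
  · dsimp only
    split_ifs <;> norm_num

lemma AllX_big (M : ℝ) : ∃ X₀ : ℕ, ∀ X : ℕ, X₀ ≤ X → M ≤ ((AllX X).card : ℝ) := by
  obtain ⟨c, hc, X₁, h⟩ := GX_card 0 0 (by norm_num)
  obtain ⟨X₂, h2⟩ := exists_nat_ge (M / c)
  refine ⟨max X₁ X₂, fun X hX => ?_⟩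
  have h1 := h X ((le_max_left _ _).trans hX)
  have h3 : M / c ≤ X := h2.trans (by exact_mod_cast (le_max_right _ _).trans hX)
  rw [div_le_iff₀ hc] at h3
  have h4 : ((GX 0 0 X).card : ℝ) ≤ ((AllX X).card : ℝ) := by
    apply Nat.cast_le.2
    apply Finset.card_le_card
    intro n hn
    rw [T13.mem_GX] at hn
    obtain ⟨g1, g2, g3, g4⟩ := dd_facts (X := X) (Or.inl rfl) hn.2 (by
      unfold bd0
      rw [if_pos rfl]
      exact hn.1)
    have e : dd 0 n = n := by
      unfold dd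
      rw [if_neg (by norm_num)]
    rw [e] at g1 g2 g3
    rw [S1.mem_AllX]
    exact ⟨by omega, g1, g2⟩
  linarith

/-- **the density** -/
theorem dens_final (ε : ℝ) (hε : 0 < ε) : ∃ X₀ : ℕ, ∀ X : ℕ, X₀ ≤ X →
    (25 / 168 - ε) * ((AllX X).card : ℝ) ≤ ((TX0.{u} X).card : ℝ) := by
  obtain ⟨e, he⟩ : ∃ e, e = min (ε / 2) (1 / 7) := ⟨_, rfl⟩
  have he0 : 0 < e := by rw [he]; positivity
  have he1 : e ≤ ε / 2 := by rw [he]; exact min_le_left _ _
  have he2 : e ≤ 1 / 7 := by rw [he]; exact min_le_right _ _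
  obtain ⟨a1, h1⟩ := densG 0 0 (by norm_num) e he0
  obtain ⟨a2, h2⟩ := densG 0 1 (by norm_num) e he0
  obtain ⟨a3, h3⟩ := densG 1 0 (by norm_num) e he0
  obtain ⟨a4, h4⟩ := densG 1 1 (by norm_num) e he0
  obtain ⟨a5, h5⟩ := densG 2 0 (by norm_num) e he0
  obtain ⟨a6, h6⟩ := densG 2 1 (by norm_num) e he0
  obtain ⟨a7, h7⟩ := count6 e he0
  obtain ⟨a8, h8⟩ := AllX_big (12 / ε)
  refine ⟨8 * (a1 + a2 + a3 + a4 + a5 + a6 + a7 + a8) + 8, fun X hX => ?_⟩
  have p1 := h1 X (by omega)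
  have p2 := h2 X (by omega)
  have p3 := h3 (X / 4) (by omega)
  have p4 := h4 (X / 4) (by omega)
  have p5 := h5 (X / 8) (by omega)
  have p6 := h6 (X / 8) (by omega)
  have p7 := h7 X (by omega)
  have p8 := h8 X (by omega)
  have q1 := part.{u} (tp := 0) (cl := 0) (Or.inl rfl) X
  have q2 := part.{u} (tp := 0) (cl := 1) (Or.inr rfl) X
  have q3 := part.{u} (tp := 1) (cl := 0) (Or.inl rfl) X
  have q4 := part.{u} (tp := 1) (cl := 1) (Or.inr rfl) X
  have q5 := part.{u} (tp := 2) (cl := 0) (Or.inl rfl) X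
  have q6 := part.{u} (tp := 2) (cl := 1) (Or.inr rfl) X
  have b0 : bd0 0 X = X := rfl
  have b1 : bd0 1 X = X / 4 := rfl
  have b2 : bd0 2 X = X / 8 := rfl
  rw [b0] at q1 q2
  rw [b1] at q3 q4
  rw [b2] at q5 q6
  have hs := sum_parts.{u} X
  rw [Finset.sum_product] at hs
  simp only [Finset.sum_range_succ, Finset.sum_range_zero, zero_add] at hs
  have hA0 : 0 ≤ ((AllX X).card : ℝ) := Nat.cast_nonneg _
  rw [div_le_iff₀ hε] at p8
  generalize ((AllX X).card : ℝ) = A at *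
  generalize ((TX0.{u} X).card : ℝ) = T at *
  obtain ⟨g, hg⟩ : ∃ g : ℝ, g = ((GX 0 0 X).card : ℝ) + (GX 0 1 X).card +
      (GX 1 0 (X / 4)).card + (GX 1 1 (X / 4)).card + (GX 2 0 (X / 8)).card +
      (GX 2 1 (X / 8)).card := ⟨_, rfl⟩
  rw [← hg] at p7
  have s1 : (2 / 7 - e) * g ≤ T + 6 := by
    rw [hg, hs]
    linarith
  have s2 : (2 / 7 - e) * ((25 / 48 - e) * A) ≤ (2 / 7 - e) * g :=
    mul_le_mul_of_nonneg_left p7 (by linarith)
  have s3 : (25 / 168 - e) * A ≤ (2 / 7 - e) * ((25 / 48 - e) * A) := by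
    nlinarith [mul_nonneg he0.le hA0, mul_nonneg (mul_nonneg he0.le he0.le) hA0]
  have s4 : 6 ≤ (ε / 2) * A := by linarith
  have s5 : e * A ≤ ε / 2 * A := mul_le_mul_of_nonneg_right he1 hA0
  linarith

end Vale.Agent.P017.H506
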