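import Vale.Agent.P017.H506.T14
import Vale.Agent.P017.H506.Final

/-!
The exact value of the method among all imaginary quadratic fields.
-/

namespace Vale.Agent.P017.H506

open Finset Function Vale.Agent.P014.FM

universe u

/-- from the density in the six families to the density among all fields -/
theorem dens_of (c : ℝ) (hc : ∀ tp cl : ℕ, tp ≤ 2 → ∀ ε : ℝ, 0 < ε → ∃ X₀ : ℕ, ∀ X : ℕ, X₀ ≤ X →
      (c - ε) * ((GX tp cl X).card : ℝ) ≤
        (((GX tp cl X).filter fun n => (R3 tp cl n).card = 2).card : ℝ))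
    (ε : ℝ) (hε : 0 < ε) : ∃ X₀ : ℕ, ∀ X : ℕ, X₀ ≤ X →
    (25 / 48 * c - ε) * ((AllX X).card : ℝ) ≤ ((TX0.{u} X).card : ℝ) := by
  by_cases hc0 : c ≤ 0
  · refine ⟨0, fun X _ => ?_⟩
    have h1 : (0 : ℝ) ≤ ((TX0.{u} X).card : ℝ) := Nat.cast_nonneg _
    have h2 : (25 / 48 * c - ε) * ((AllX X).card : ℝ) ≤ 0 :=
      mul_nonpos_of_nonpos_of_nonneg (by linarith) (Nat.cast_nonneg _)
    linarith
  push Not at hc0
  obtain ⟨e, he⟩ : ∃ e, e = min (ε / (2 * (c + 1))) (c / 2) := ⟨_, rfl⟩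
  have he0 : 0 < e := by rw [he]; positivity
  have he1 : e * (c + 1) ≤ ε / 2 := by
    have h : e ≤ ε / (2 * (c + 1)) := by rw [he]; exact min_le_left _ _
    calc e * (c + 1) ≤ ε / (2 * (c + 1)) * (c + 1) :=
          mul_le_mul_of_nonneg_right h (by linarith)
      _ = ε / 2 := by field_simp
  have he2 : e ≤ c / 2 := by rw [he]; exact min_le_right _ _
  obtain ⟨a1, h1⟩ := hc 0 0 (by norm_num) e he0
  obtain ⟨a2, h2⟩ := hc 0 1 (by norm_num) e he0
  obtain ⟨a3, h3⟩ := hc 1 0 (by norm_num) e he0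
  obtain ⟨a4, h4⟩ := hc 1 1 (by norm_num) e he0
  obtain ⟨a5, h5⟩ := hc 2 0 (by norm_num) e he0
  obtain ⟨a6, h6⟩ := hc 2 1 (by norm_num) e he0
  obtain ⟨a7, h7⟩ := count6 e he0
  obtain ⟨a8, h8⟩ := AllX_big (12 / ε)
  refine ⟨8 * (a1 + a2 + a3 + a4 + a5 + a6 + a7 + a8) + 8, fun X hX => ?_⟩
  have p1 := h1 X (by omega)
  have p2 := h2 X (by omega)
  have p3 := h3 (X / 4) (by omega)
  have p4 := h4 (X / 4) (by omega)
  have p5 := h5 (X / 8) (by omega)
  have p6 := h6 (X / 8) (by omega)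
  have p7 := h7 X (by omega)
  have p8 := h8 X (by omega)
  have q1 := part.{u} (tp := 0) (cl := 0) (Or.inl rfl) X
  have q2 := part.{u} (tp := 0) (cl := 1) (Or.inr rfl) X
  have q3 := part.{u} (tp := 1) (cl := 0) (Or.inl rfl) X
  have q4 := part.{u} (tp := 1) (cl := 1) (Or.inr rfl) X
  have q5 := part.{u} (tp := 2) (cl := 0) (Or.inl rfl) X
  have q6 := part.{u} (tp := 2) (cl := 1) (Or.inr rfl) X
  have b0 : bd0 0 X = X := rfl
  have b1 : bd0 1 X = X / 4 := rfl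
  have b2 : bd0 2 X = X / 8 := rfl
  rw [b0] at q1 q2
  rw [b1] at q3 q4
  rw [b2] at q5 q6
  have hs := sum_parts.{u} X
  rw [Finset.sum_product] at hs
  simp only [Finset.sum_range_succ, Finset.sum_range_zero, zero_add] at hs
  have hA0 : 0 ≤ ((AllX X).card : ℝ) := Nat.cast_nonneg _
  rw [div_le_iff₀ hε] at p8
  generalize ((AllX X).card : ℝ) = A at *
  generalize ((TX0.{u} X).card : ℝ) = T at *
  obtain ⟨g, hg⟩ : ∃ g : ℝ, g = ((GX 0 0 X).card : ℝ) + (GX 0 1 X).card +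
      (GX 1 0 (X / 4)).card + (GX 1 1 (X / 4)).card + (GX 2 0 (X / 8)).card +
      (GX 2 1 (X / 8)).card := ⟨_, rfl⟩
  rw [← hg] at p7
  have s1 : (c - e) * g ≤ T + 6 := by
    rw [hg, hs]
    linarith
  have s2 : (c - e) * ((25 / 48 - e) * A) ≤ (c - e) * g :=
    mul_le_mul_of_nonneg_left p7 (by linarith)
  have s3 : (25 / 48 * c - e * (c + 1)) * A ≤ (c - e) * ((25 / 48 - e) * A) := by
    have hee : 0 ≤ e * e * A := by positivity
    have hea : 0 ≤ e * A := by positivity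
    nlinarith
  have s4 : 6 ≤ (ε / 2) * A := by linarith
  have s5 : e * (c + 1) * A ≤ ε / 2 * A := mul_le_mul_of_nonneg_right he1 hA0
  linarith

/-- **the density** -/
theorem dens_final2 (ε : ℝ) (hε : 0 < ε) : ∃ X₀ : ℕ, ∀ X : ℕ, X₀ ≤ X →
    (25 / 48 * (∏' j : ℕ, (1 - 1 / 2 ^ (j + 1) : ℝ)) - ε) * ((AllX X).card : ℝ) ≤
      ((TX0.{u} X).card : ℝ) :=
  dens_of eta0 (fun tp cl htp => densI tp cl htp) ε hε

lemma TS0_five : TS0 5 = 188 / 651 := by
  unfold TS0 cc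
  simp only [Finset.sum_range_succ, Finset.prod_range_succ, Finset.sum_range_zero,
    Finset.prod_range_zero]
  norm_num

/-- at least fifteen percent -/
theorem dens_fifteen : ∃ X₀ : ℕ, ∀ X : ℕ, X₀ ≤ X →
    (3 / 20 : ℝ) * ((AllX X).card : ℝ) ≤ ((TX0.{u} X).card : ℝ) := by
  obtain ⟨X₀, h⟩ := dens_of.{u} (TS0 5) (fun tp cl htp => densM tp cl htp 5 (by decide))
    (1 / 2500) (by norm_num)
  refine ⟨X₀, fun X hX => le_trans ?_ (h X hX)⟩
  apply mul_le_mul_of_nonneg_right _ (Nat.cast_nonneg _)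
  rw [TS0_five]
  norm_num

end Vale.Agent.P017.H506
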