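import Vale.Agent.P017.H506.E7
import Vale.Agent.P017.H506.S0

/-!
Definitions for all six cases: `ℚ(√-d)` with `d = n ≡ 3 mod 4` (type `0`), `d = n ≡ 1 mod 4`
(type `1`), `d = 2 n` (type `2`), and class I (`cl = 0`: `3` not inert, `5` not split) or class II
(`3` inert, `5` split).
-/

namespace Vale.Agent.P017.H506

open Finset Function Vale.Agent.P014.FM

/-- the character modulo 8 with kernel `1, 7` -/
noncomputable def chi8 (n : ℕ) : ℝ := ((ZMod.χ₈ (n : ZMod 8) : ℤ) : ℝ)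

/-- the radicand in terms of its odd part -/
def dd (tp n : ℕ) : ℕ := if tp = 2 then 2 * n else n

/-- the family -/
def IsG (tp cl n : ℕ) : Prop := Squarefree n ∧
  (if tp = 0 then n % 4 = 3 else if tp = 1 then n % 4 = 1 else tp = 2 ∧ n % 2 = 1) ∧
  (if cl = 0 then dd tp n % 3 ≠ 1 ∧ dd tp n % 5 ≠ 1 ∧ dd tp n % 5 ≠ 4
    else dd tp n % 3 = 1 ∧ (dd tp n % 5 = 1 ∨ dd tp n % 5 = 4))

open Classical in
/-- the family up to `X` -/
noncomputable def GX (tp cl X : ℕ) : Finset ℕ := (range (X + 1)).filter (IsG tp cl)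

/-- the local conditions at the primes dividing the odd part, for `2 ^ x * 5 ^ y * a` -/
def Loc3 (tp n : ℕ) (x y : ZMod 2) (a : ℕ) : Prop := ∀ p : ℕ, p.Prime → p ∣ n →
  (¬ p ∣ a → IsSquare ((2 ^ x.val * 5 ^ y.val * a : ℕ) : ZMod p)) ∧
  (p ∣ a → IsSquare ((2 ^ (x.val + if tp = 2 then 1 else 0) * 5 ^ y.val * (n / a) : ℕ) : ZMod p))

open Classical in
/-- the triples `(x, y, a)` for which `2 ^ x * 5 ^ y * a` satisfies the local conditions -/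
noncomputable def R3 (tp cl n : ℕ) : Finset (ZMod 2 × ZMod 2 × ℕ) :=
  ((univ : Finset (ZMod 2)) ×ˢ (univ : Finset (ZMod 2)) ×ˢ n.divisors).filter fun z =>
    (tp = 0 → z.1 = 0) ∧ (cl = 0 → z.2.1 = 0) ∧ Loc3 tp n z.1 z.2.1 z.2.2 ∧
    (cl ≠ 0 → (2 ^ z.1.val * 5 ^ z.2.1.val * z.2.2) % 3 = 1)

/-- the sign -/
def sgn2 (z : ZMod 2) : ℝ := if z = 1 then -1 else 1

/-- product of the characters `(2 | m)`, `(m | 5)`, `(m | 3)` with exponents `x`, `y`, `z` -/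
noncomputable def slot (x y z : ZMod 2) (m : ℕ) : ℝ :=
  (if x = 1 then chi8 m else 1) * (if y = 1 then J m 5 else 1) * (if z = 1 then J m 3 else 1)

section general

variable {ι : Type*} [Fintype ι]

/-- the sign attached to a tuple, with additional characters -/
noncomputable def wtS (P : ι → ι → ZMod 2) (e8 e5 e3 : ι → ZMod 2) (D : ι → ℕ) : ℝ :=
  (∏ u, slot (e8 u) (e5 u) (e3 u) (D u)) * wtP P D

variable [DecidableEq ι]

open Classical in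
/-- the part supported on `U` -/
noncomputable def mainS (N : ℕ) (P : ι → ι → ZMod 2) (e8 e5 e3 : ι → ZMod 2) (U : Finset ι)
    (n : ℕ) : ℝ :=
  (1 / (N : ℝ)) ^ n.primeFactors.card *
    ∑ D ∈ (tup ι n).filter (fun D => ∀ u, u ∉ U → D u = 1), wtS P e8 e5 e3 D

end general

/-- the additional summation variables: exponents of `2`, of `5`, and of the character mod `3` -/
abbrev Tx (k : ℕ) := (Fin k → ZMod 2) × (Fin k → ZMod 2) × (Fin k → ZMod 2)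

/-- the range of the additional variables -/
def TT (tp cl k : ℕ) : Finset (Tx k) :=
  univ.filter fun θ => (tp = 0 → θ.1 = 0) ∧ (cl = 0 → θ.2.1 = 0 ∧ θ.2.2 = 0)

/-- exponent of `(2 | D_u)` -/
def E8 (tp : ℕ) {k : ℕ} (θ : Tx k) (u : Ix k) : ZMod 2 :=
  ∑ i, (u i).2 * (θ.1 i + if tp = 2 then (u i).1 else 0)

/-- exponent of `(D_u | 5)` -/
def E5 {k : ℕ} (θ : Tx k) (u : Ix k) : ZMod 2 := ∑ i, (u i).2 * θ.2.1 i

/-- exponent of `(D_u | 3)` -/
def E3 {k : ℕ} (θ : Tx k) (u : Ix k) : ZMod 2 := ∑ i, θ.2.2 i * (u i).1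

/-- the sign of `θ` -/
def sT {k : ℕ} (θ : Tx k) : ℝ := sgn2 (∑ i, θ.2.2 i * (θ.1 i + θ.2.1 i))

/-- normalisation -/
noncomputable def nf (cl k : ℕ) : ℝ := if cl = 0 then 1 else (1 / 2) ^ k

/-- the weight -/
noncomputable def wtT (tp : ℕ) {k : ℕ} (θ : Tx k) (D : Ix k → ℕ) : ℝ :=
  wtS (Pk k) (E8 tp θ) (E5 θ) (E3 θ) D

/-- the main terms -/
noncomputable def mainT (tp : ℕ) {k : ℕ} (θ : Tx k) (U : Finset (Ix k)) (n : ℕ) : ℝ :=
  mainS (2 ^ k) (Pk k) (E8 tp θ) (E5 θ) (E3 θ) U n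

/-- the pairs contributing to the main term -/
def TrivT (tp : ℕ) {k : ℕ} (θ : Tx k) (U : Finset (Ix k)) : Prop :=
  Good (Pk k) U ∧ (∀ u ∈ U, ∀ v ∈ U, E8 tp θ u = E8 tp θ v ∧ E5 θ u = E5 θ v ∧ E3 θ u = E3 θ v) ∧
    (tp ≠ 0 → ∀ u ∈ U, ∀ v ∈ U, Pk k u v = 0)

/-- the fifteen nonprincipal quadratic characters modulo `120` -/
noncomputable def Psi (j : Fin 4 → Fin 2) (m : ℕ) : ℝ :=
  chi4 m ^ (j 0 : ℕ) * chi8 m ^ (j 1 : ℕ) * J m 5 ^ (j 2 : ℕ) * J m 3 ^ (j 3 : ℕ)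

open Classical in
/-- the bound for the other terms -/
noncomputable def Gn (n : ℕ) : ℝ :=
  2 * (1 / 2 : ℝ) ^ (n.primeFactors.filter (fun p => p % 4 = 3)).card +
    ∑ j ∈ (univ : Finset (Fin 4 → Fin 2)).filter (fun j => j ≠ 0),
      (if ∀ p ∈ n.primeFactors, Psi j p ≠ -1 then (1 : ℝ) else 0)

open Classical in
/-- the indicator of `F` is a combination of characters whose moduli are divisible by `q` -/
def CharFam (F : ℕ → Prop) (q : ℕ) : Prop := ∃ s : Finset (ℕ × ℕ), ∃ c : ℕ × ℕ → ℝ,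
  (∀ j ∈ s, j.1 ≠ 0 ∧ Odd j.2 ∧ q ∣ j.2) ∧
    ∀ N n : ℕ, (if F n then qN N n else 0) = ∑ j ∈ s, c j * pN N j.1 j.2 n

end Vale.Agent.P017.H506
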