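import Vale.Agent.P017.H506.R0

/-!
Leaf T4: the indicators of the six families are combinations of characters.
-/

namespace Vale.Agent.P017.H506

open Finset Function Vale.Agent.P014.FM
open Vale.Agent.P014.H580 (J_abs J_mul_left J_mul_right bilin harm_le)

namespace T4

lemma val3 (a b : ℕ) : padicValNat 3 (3 ^ a * 5 ^ b) = a := by
  have h3 : Fact (Nat.Prime 3) := ⟨Nat.prime_three⟩
  rw [padicValNat.mul (by positivity) (by positivity), padicValNat.prime_pow,
    padicValNat.eq_zero_of_not_dvd (fun h => absurd (Nat.prime_three.dvd_of_dvd_pow h)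
      (by norm_num)), add_zero]

lemma val5 (a b : ℕ) : padicValNat 5 (3 ^ a * 5 ^ b) = b := by
  have h5 : Fact (Nat.Prime 5) := ⟨Nat.prime_five⟩
  rw [padicValNat.mul (by positivity) (by positivity), padicValNat.prime_pow,
    padicValNat.eq_zero_of_not_dvd (fun h => absurd (Nat.prime_five.dvd_of_dvd_pow h)
      (by norm_num)), zero_add]

open Classical in
lemma combo (α β γ : ℕ → ℝ) (A T : Finset ℕ) (F : ℕ → Prop) (q : ℕ) (hA : ∀ i ∈ A, i ≠ 0)
    (hq : ∀ a ∈ T, ∀ b ∈ T, q ∣ 3 ^ a * 5 ^ b) (hF : ∀ n, F n → Squarefree n)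
    (h : ∀ n, Squarefree n → (if F n then (1 : ℝ) else 0) = (∑ i ∈ A, α i * chi4 n ^ i) *
      (∑ a ∈ T, β a * J n 3 ^ a) * (∑ b ∈ T, γ b * J n 5 ^ b)) : CharFam F q := by
  refine ⟨(A ×ˢ (T ×ˢ T)).image (fun z => (z.1, 3 ^ z.2.1 * 5 ^ z.2.2)),
    fun j => α j.1 * β (padicValNat 3 j.2) * γ (padicValNat 5 j.2), ?_, ?_⟩
  · intro j hj
    rw [Finset.mem_image] at hj
    obtain ⟨z, hz, rfl⟩ := hj
    rw [Finset.mem_product, Finset.mem_product] at hz
    refine ⟨hA _ hz.1, ?_, hq _ hz.2.1 _ hz.2.2⟩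
    exact (Odd.pow (by decide)).mul (Odd.pow (by decide))
  · intro N n
    rw [Finset.sum_image]
    · rw [Finset.sum_product]
      by_cases hsq : Squarefree n
      · have h1 := h n hsq
        have h2 : (if F n then qN N n else 0) = (if F n then (1 : ℝ) else 0) * qN N n := by
          split_ifs <;> ring
        rw [h2, h1, Finset.sum_mul_sum, Finset.sum_mul]
        rw [Finset.sum_mul]
        apply Finset.sum_congr rfl
        intro i _
        rw [Finset.sum_mul_sum, Finset.sum_mul, Finset.sum_product]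
        apply Finset.sum_congr rfl
        intro a _
        rw [Finset.sum_mul]
        apply Finset.sum_congr rfl
        intro b _
        dsimp only
        rw [val3, val5]
        unfold pN
        rw [if_pos hsq, J_comb]
        ring
      · rw [if_neg (fun hc => hsq (hF n hc))]
        symm
        apply Finset.sum_eq_zero
        intro i _
        apply Finset.sum_eq_zero
        intro z _
        rw [pN_not_sq hsq, mul_zero]
    · rintro ⟨i, a, b⟩ _ ⟨i', a', b'⟩ _ hz
      simp only [Prod.mk.injEq] at hz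
      obtain ⟨h1, h2⟩ := hz
      have e1 := congrArg (padicValNat 3) h2
      have e2 := congrArg (padicValNat 5) h2
      simp only [val3, val5] at e1 e2
      rw [h1, e1, e2]

/-- the sign of the characters at `2` -/
noncomputable def s2 (tp : ℕ) : ℝ := if tp = 2 then -1 else 1

noncomputable def al (tp i : ℕ) : ℝ := if tp = 0 then (if i = 2 then 1 / 2 else -(1 / 2)) else
  if tp = 1 then 1 / 2 else if tp = 2 then (if i = 2 then 1 else 0) else 0

noncomputable def be (tp cl a : ℕ) : ℝ := if cl = 0 then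
    (if a = 0 then 1 else if a = 1 then -(s2 tp / 2) else -(1 / 2))
  else (if a = 0 then 0 else if a = 1 then s2 tp / 2 else 1 / 2)

lemma four (tp n : ℕ) : ∑ i ∈ ({1, 2} : Finset ℕ), al tp i * chi4 n ^ i =
    if (if tp = 0 then n % 4 = 3 else if tp = 1 then n % 4 = 1 else tp = 2 ∧ n % 2 = 1)
      then (1 : ℝ) else 0 := by
  rw [Finset.sum_pair (by norm_num)]
  have h : n % 4 = 0 ∨ n % 4 = 1 ∨ n % 4 = 2 ∨ n % 4 = 3 := by omega
  have hc : chi4 n = if n % 4 = 1 then 1 else if n % 4 = 3 then -1 else 0 := rfl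
  rw [hc]
  unfold al
  by_cases h0 : tp = 0
  · rw [if_pos h0, if_pos h0]
    rcases h with h | h | h | h <;> simp [h, h0]
    all_goals norm_num
  · by_cases h1 : tp = 1
    · rcases h with h | h | h | h <;> simp [h, h1]
      all_goals norm_num
    · by_cases h2 : tp = 2
      · have hm : n % 2 = (n % 4) % 2 := by omega
        rcases h with h | h | h | h <;> simp [hm, h, h2]
      · simp [h0, h1, h2]

lemma three (tp cl n : ℕ) (T : Finset ℕ) (hT : T = if cl = 0 then {0, 1, 2} else {1, 2}) :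
    ∑ a ∈ T, be tp cl a * J n 3 ^ a =
    if (if cl = 0 then dd tp n % 3 ≠ 1 else dd tp n % 3 = 1) then (1 : ℝ) else 0 := by
  have h : n % 3 = 0 ∨ n % 3 = 1 ∨ n % 3 = 2 := by omega
  have hm : (2 * n) % 3 = (2 * (n % 3)) % 3 := by omega
  unfold be s2 dd
  rw [J_three]
  by_cases hcl : cl = 0
  · rw [hT, if_pos hcl, Finset.sum_insert (by norm_num), Finset.sum_pair (by norm_num)]
    by_cases htp : tp = 2
    · rcases h with h | h | h <;> simp [h, hcl, htp, hm] <;> norm_num
    · rcases h with h | h | h <;> simp [h, hcl, htp] <;> norm_num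
  · rw [hT, if_neg hcl, Finset.sum_pair (by norm_num)]
    by_cases htp : tp = 2
    · rcases h with h | h | h <;> simp [h, hcl, htp, hm] <;> norm_num
    · rcases h with h | h | h <;> simp [h, hcl, htp] <;> norm_num

lemma five (tp cl n : ℕ) (T : Finset ℕ) (hT : T = if cl = 0 then {0, 1, 2} else {1, 2}) :
    ∑ a ∈ T, be tp cl a * J n 5 ^ a =
    if (if cl = 0 then dd tp n % 5 ≠ 1 ∧ dd tp n % 5 ≠ 4
      else dd tp n % 5 = 1 ∨ dd tp n % 5 = 4) then (1 : ℝ) else 0 := by
  have h : n % 5 = 0 ∨ n % 5 = 1 ∨ n % 5 = 2 ∨ n % 5 = 3 ∨ n % 5 = 4 := by omega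
  have hm : (2 * n) % 5 = (2 * (n % 5)) % 5 := by omega
  unfold be s2 dd
  rw [J_five]
  by_cases hcl : cl = 0
  · rw [hT, if_pos hcl, Finset.sum_insert (by norm_num), Finset.sum_pair (by norm_num)]
    by_cases htp : tp = 2
    · rcases h with h | h | h | h | h <;> simp [h, hcl, htp, hm] <;> norm_num
    · rcases h with h | h | h | h | h <;> simp [h, hcl, htp] <;> norm_num
  · rw [hT, if_neg hcl, Finset.sum_pair (by norm_num)]
    by_cases htp : tp = 2
    · rcases h with h | h | h | h | h <;> simp [h, hcl, htp, hm] <;> norm_num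
    · rcases h with h | h | h | h | h <;> simp [h, hcl, htp] <;> norm_num

end T4

open T4 in
/-- T4 -/
theorem charFam (tp cl : ℕ) : CharFam (IsG tp cl) (if cl = 0 then 1 else 15) := by
  classical
  refine combo (al tp) (be tp cl) (be tp cl) {1, 2} (if cl = 0 then {0, 1, 2} else {1, 2})
    (IsG tp cl) _ ?_ ?_ (fun n h => h.1) ?_
  · intro i hi
    rw [Finset.mem_insert, Finset.mem_singleton] at hi
    omega
  · by_cases hcl : cl = 0
    · intro a _ b _
      rw [if_pos hcl]
      exact one_dvd _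
    · rw [if_neg hcl, if_neg hcl]
      intro a ha b hb
      rw [Finset.mem_insert, Finset.mem_singleton] at ha hb
      rcases ha with rfl | rfl <;> rcases hb with rfl | rfl <;> norm_num
  · intro n hsq
    rw [four, three tp cl n _ rfl, five tp cl n _ rfl]
    have hiff : IsG tp cl n ↔
        (if tp = 0 then n % 4 = 3 else if tp = 1 then n % 4 = 1 else tp = 2 ∧ n % 2 = 1) ∧
        (if cl = 0 then dd tp n % 3 ≠ 1 else dd tp n % 3 = 1) ∧
        (if cl = 0 then dd tp n % 5 ≠ 1 ∧ dd tp n % 5 ≠ 4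
          else dd tp n % 5 = 1 ∨ dd tp n % 5 = 4) := by
      unfold IsG
      by_cases hcl : cl = 0
      · simp only [hcl, if_true, hsq, true_and]
      · simp only [hcl, if_false, hsq, true_and]
    by_cases hA : (if tp = 0 then n % 4 = 3 else if tp = 1 then n % 4 = 1 else tp = 2 ∧ n % 2 = 1)
    · by_cases hB : (if cl = 0 then dd tp n % 3 ≠ 1 else dd tp n % 3 = 1)
      · by_cases hC : (if cl = 0 then dd tp n % 5 ≠ 1 ∧ dd tp n % 5 ≠ 4
          else dd tp n % 5 = 1 ∨ dd tp n % 5 = 4)
        · rw [if_pos (hiff.2 ⟨hA, hB, hC⟩), if_pos hA, if_pos hB, if_pos hC]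
          ring
        · rw [if_neg (fun hc => hC (hiff.1 hc).2.2), if_pos hA, if_pos hB, if_neg hC]
          ring
      · rw [if_neg (fun hc => hB (hiff.1 hc).2.1), if_pos hA, if_neg hB]
        ring
    · rw [if_neg (fun hc => hA (hiff.1 hc).1), if_neg hA]
      ring

end Vale.Agent.P017.H506
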