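import Vale.Agent.P017.H808.T7a
import Vale.Agent.P017.H654.Cases

/-!
# T7b: the main terms of the good sets
-/

namespace Vale.Agent.P017.H506

open Finset Function Vale.Agent.P014.FM

/-- T7b, trivial pairs -/
theorem triv_one {tp cl k : ℕ} {θ : Tx k} (hθ : θ ∈ TT tp cl k) {U : Finset (Ix k)}
    (hU : U ∈ UsN (Pk k) (2 ^ k)) (ht : TrivT tp θ U) {n : ℕ} (hn : IsG tp cl n) :
    sT θ * mainT tp θ U n = 1 := by
  obtain ⟨u₀, hu₀⟩ := H654.nonempty_of hU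
  rw [good_prod tp k θ hU ht.1 hu₀ hn.1 (H654.IsG_odd hn)]
  exact H654.triv_prod hθ hU ht hu₀ hn

/-- T7b, the other good pairs -/
theorem good_small {tp cl k : ℕ} {θ : Tx k} (hθ : θ ∈ TT tp cl k) {U : Finset (Ix k)}
    (hU : U ∈ UsN (Pk k) (2 ^ k)) (hg : Good (Pk k) U) (ht : ¬ TrivT tp θ U) {n : ℕ}
    (hn : IsG tp cl n) : |mainT tp θ U n| ≤ Gn n := by
  obtain ⟨u₀, hu₀⟩ := H654.nonempty_of hU
  rw [good_prod tp k θ hU hg hu₀ hn.1 (H654.IsG_odd hn)]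
  exact H654.small_prod hθ hU hg ht hu₀ hn

/-- T7b -/
theorem good_cases {tp cl k : ℕ} {θ : Tx k} (hθ : θ ∈ TT tp cl k) {U : Finset (Ix k)}
    (hU : U ∈ UsN (Pk k) (2 ^ k)) (hg : Good (Pk k) U) {n : ℕ} (hn : IsG tp cl n) :
    (TrivT tp θ U ∧ sT θ * mainT tp θ U n = 1) ∨ |mainT tp θ U n| ≤ Gn n := by
  by_cases ht : TrivT tp θ U
  · exact Or.inl ⟨ht, triv_one hθ hU ht hn⟩
  · exact Or.inr (good_small hθ hU hg ht hn)

end Vale.Agent.P017.H506
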