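import Vale.Agent.P017.H506.R0
import Vale.Agent.P017.H687.Negl

/-!
Leaf T8: the error terms are negligible.
-/

namespace Vale.Agent.P017.H506

open Finset Function Vale.Agent.P014.FM

namespace T8

lemma chi8_val (n : ℕ) : chi8 n = if n % 8 = 1 ∨ n % 8 = 7 then 1 else
    if n % 8 = 3 ∨ n % 8 = 5 then -1 else 0 := by
  unfold chi8
  have e : (n : ZMod 8) = ((n % 8 : ℕ) : ZMod 8) := by
    rw [ZMod.natCast_mod]
  rw [e]
  have h : n % 8 < 8 := Nat.mod_lt _ (by norm_num)
  generalize n % 8 = r at h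
  interval_cases r
  all_goals first
    | (rw [show ZMod.χ₈ ((0 : ℕ) : ZMod 8) = 0 by decide]; norm_num; done)
    | (rw [show ZMod.χ₈ ((1 : ℕ) : ZMod 8) = 1 by decide]; norm_num; done)
    | (rw [show ZMod.χ₈ ((2 : ℕ) : ZMod 8) = 0 by decide]; norm_num; done)
    | (rw [show ZMod.χ₈ ((3 : ℕ) : ZMod 8) = -1 by decide]; norm_num; done)
    | (rw [show ZMod.χ₈ ((4 : ℕ) : ZMod 8) = 0 by decide]; norm_num; done)
    | (rw [show ZMod.χ₈ ((5 : ℕ) : ZMod 8) = -1 by decide]; norm_num; done)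
    | (rw [show ZMod.χ₈ ((6 : ℕ) : ZMod 8) = 0 by decide]; norm_num; done)
    | (rw [show ZMod.χ₈ ((7 : ℕ) : ZMod 8) = 1 by decide]; norm_num; done)

lemma pw (x : ℝ) (hx : x = 1 ∨ x = -1) (a : ℕ) (ha : a < 2) :
    x ^ a = if x = -1 then (-1) ^ a else 1 := by
  rcases hx with rfl | rfl
  · rw [if_neg (by norm_num), one_pow]
  · rw [if_pos rfl]

lemma Psi_ch (j : Fin 4 → Fin 2) (p : ℕ)
    (h : Ng.ch (j 0 : ℕ) (j 1 : ℕ) (j 3 : ℕ) (j 2 : ℕ) p = -1) : Psi j p = -1 := by
  have h0 : (j 0 : ℕ) < 2 := (j 0).isLt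
  have h1 : (j 1 : ℕ) < 2 := (j 1).isLt
  have h2 : (j 2 : ℕ) < 2 := (j 2).isLt
  have h3 : (j 3 : ℕ) < 2 := (j 3).isLt
  unfold Psi
  generalize (j 0 : ℕ) = a at *
  generalize (j 1 : ℕ) = b at *
  generalize (j 2 : ℕ) = d at *
  generalize (j 3 : ℕ) = c at *
  unfold Ng.ch at h
  by_cases hc : p % 2 ≠ 0 ∧ p % 3 ≠ 0 ∧ p % 5 ≠ 0
  swap
  · rw [if_neg hc] at h
    norm_num at h
  rw [if_pos hc] at h
  have hpar : Ng.ex a b c d p % 2 = 1 := by
    by_contra hcon
    rw [if_pos (by omega)] at h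
    norm_num at h
  unfold Ng.ex at hpar
  have v4 : chi4 p = if p % 4 = 3 then (-1) else 1 := by
    unfold chi4
    rcases (by omega : p % 4 = 1 ∨ p % 4 = 3) with h | h <;> simp [h]
  have v8 : chi8 p = if p % 8 = 3 ∨ p % 8 = 5 then (-1) else 1 := by
    rw [chi8_val]
    rcases (by omega : p % 8 = 1 ∨ p % 8 = 3 ∨ p % 8 = 5 ∨ p % 8 = 7) with h | h | h | h <;>
      simp [h]
  have v3 : J p 3 = if p % 3 = 2 then (-1) else 1 := by
    rw [J_three]
    rcases (by omega : p % 3 = 1 ∨ p % 3 = 2) with h | h <;> simp [h]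
  have v5 : J p 5 = if p % 5 = 2 ∨ p % 5 = 3 then (-1) else 1 := by
    rw [J_five]
    rcases (by omega : p % 5 = 1 ∨ p % 5 = 2 ∨ p % 5 = 3 ∨ p % 5 = 4) with h | h | h | h <;>
      simp [h]
  rw [v4, v8, v3, v5]
  have e : ∀ (q : Prop) [Decidable q] (m : ℕ), (if q then (-1 : ℝ) else 1) ^ m
      = (-1) ^ (if q then m else 0) := by
    intro q _ m
    split_ifs <;> simp
  rw [e, e, e, e, ← pow_add, ← pow_add, ← pow_add]
  apply Odd.neg_one_pow
  rw [Nat.odd_iff]
  omega

end T8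

open T8 in
/-- T8 -/
theorem negl3 (tp cl : ℕ) (ε : ℝ) (hε : 0 < ε) : ∃ X₀ : ℕ, ∀ X : ℕ, X₀ ≤ X →
    ∑ n ∈ GX tp cl X, Gn n ≤ ε * X := by
  classical
  have hsub : ∀ X, GX tp cl X ⊆ (Icc 1 X).filter Squarefree := by
    intro X n hn
    unfold GX at hn
    rw [Finset.mem_filter, mem_range] at hn
    rw [Finset.mem_filter, mem_Icc]
    have h0 : n ≠ 0 := hn.2.1.ne_zero
    exact ⟨⟨by omega, by omega⟩, hn.2.1⟩
  have hj : ∀ j ∈ (univ : Finset (Fin 4 → Fin 2)).filter (fun j => j ≠ 0), ∃ X₀ : ℕ, ∀ X : ℕ,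
      X₀ ≤ X → ∑ n ∈ GX tp cl X, (if ∀ p ∈ n.primeFactors, Psi j p ≠ -1 then (1 : ℝ) else 0)
        ≤ ε / 32 * X := by
    intro j hj
    have hj0 := (Finset.mem_filter.1 hj).2
    obtain ⟨X₀, h⟩ := negl_gen (a := (j 0 : ℕ)) (b := (j 1 : ℕ)) (c := (j 3 : ℕ)) (d := (j 2 : ℕ))
      (j 0).isLt (j 1).isLt (j 3).isLt (j 2).isLt (by
        intro hs
        apply hj0
        funext i
        have h0 : (j 0 : ℕ) = 0 := by omega
        have h1 : (j 1 : ℕ) = 0 := by omega
        have h2 : (j 2 : ℕ) = 0 := by omega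
        have h3 : (j 3 : ℕ) = 0 := by omega
        fin_cases i
        · exact Fin.ext h0
        · exact Fin.ext h1
        · exact Fin.ext h2
        · exact Fin.ext h3) (ε / 32) (by positivity)
    refine ⟨X₀, fun X hX => ?_⟩
    refine le_trans ?_ (h X hX)
    refine le_trans ?_ (Finset.sum_le_sum_of_subset_of_nonneg (hsub X)
      (fun n _ _ => by positivity))
    apply Finset.sum_le_sum
    intro n _
    split_ifs with hp
    · have : n.primeFactors.filter (fun p => Ng.ch (j 0 : ℕ) (j 1 : ℕ) (j 3 : ℕ) (j 2 : ℕ) p = -1)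
          = ∅ := by
        rw [Finset.filter_eq_empty_iff]
        intro p hpn hc
        exact hp p hpn (Psi_ch j p hc)
      rw [this]
      simp
    · positivity
  choose! f hf using hj
  obtain ⟨X₁, h1⟩ := negl_gen (a := 1) (b := 0) (c := 0) (d := 0) (by norm_num) (by norm_num)
    (by norm_num) (by norm_num) (by norm_num) (ε / 4) (by positivity)
  refine ⟨max X₁ (∑ j ∈ (univ : Finset (Fin 4 → Fin 2)).filter (fun j => j ≠ 0), f j),
    fun X hX => ?_⟩
  have hX0 : (0 : ℝ) ≤ X := Nat.cast_nonneg _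
  unfold Gn
  rw [Finset.sum_add_distrib, Finset.sum_comm (s := GX tp cl X)]
  have a1 : ∑ n ∈ GX tp cl X, 2 * (1 / 2 : ℝ) ^ (n.primeFactors.filter (fun p => p % 4 = 3)).card
      ≤ ε / 2 * X := by
    rw [← Finset.mul_sum]
    have h2 := h1 X ((le_max_left _ _).trans hX)
    have h3 : ∑ n ∈ GX tp cl X, (1 / 2 : ℝ) ^ (n.primeFactors.filter (fun p => p % 4 = 3)).card
        ≤ ∑ n ∈ (Icc 1 X).filter Squarefree,
          (1 / 2 : ℝ) ^ (n.primeFactors.filter (fun p => Ng.ch 1 0 0 0 p = -1)).card := by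
      refine le_trans ?_ (Finset.sum_le_sum_of_subset_of_nonneg (hsub X)
        (fun n _ _ => by positivity))
      apply Finset.sum_le_sum
      intro n _
      apply pow_le_pow_of_le_one (by norm_num) (by norm_num)
      apply Finset.card_le_card
      intro p hp
      rw [Finset.mem_filter] at hp ⊢
      refine ⟨hp.1, ?_⟩
      by_contra hc
      have h4 := hp.2
      unfold Ng.ch Ng.ex at h4
      split_ifs at h4 <;> omega
    linarith
  have a2 : ∑ j ∈ (univ : Finset (Fin 4 → Fin 2)).filter (fun j => j ≠ 0),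
      ∑ n ∈ GX tp cl X, (if ∀ p ∈ n.primeFactors, Psi j p ≠ -1 then (1 : ℝ) else 0)
      ≤ ε / 2 * X := by
    calc _ ≤ ∑ j ∈ (univ : Finset (Fin 4 → Fin 2)).filter (fun j => j ≠ 0), ε / 32 * X := by
          apply Finset.sum_le_sum
          intro j hj
          exact hf j hj X (((Finset.single_le_sum (fun _ _ => Nat.zero_le _) hj).trans
            (le_max_right _ _)).trans hX)
      _ = (((univ : Finset (Fin 4 → Fin 2)).filter (fun j => j ≠ 0)).card : ℝ) * (ε / 32 * X) := by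
          rw [Finset.sum_const, nsmul_eq_mul]
      _ ≤ 16 * (ε / 32 * X) := by
          apply mul_le_mul_of_nonneg_right _ (by positivity)
          have h3 := Finset.card_le_card (Finset.filter_subset (fun j => j ≠ 0)
            (univ : Finset (Fin 4 → Fin 2)))
          rw [Finset.card_univ] at h3
          have h4 : Fintype.card (Fin 4 → Fin 2) = 16 := by
            rw [Fintype.card_fun, Fintype.card_fin, Fintype.card_fin]
            norm_num
          rw [h4] at h3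
          exact_mod_cast h3
      _ = ε / 2 * X := by ring
  linarith

end Vale.Agent.P017.H506
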