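import Vale.Agent.P017.H6.T9

/-!
Weighted numbers of subspaces.
-/

namespace Vale.Agent.P017.H506

open Finset Vale.Agent.P017.H654

/-- weighted number of subspaces -/
noncomputable def SS (k s : ℕ) : ℝ := ∑ S ∈ H6.Sb k, ((2 ^ k : ℝ) / (S.card : ℝ)) ^ s

theorem SS_zero_right (k : ℕ) : SS k 0 = ((H6.Sb k).card : ℝ) := by
  unfold SS
  simp

theorem SS_zero (s : ℕ) : SS 0 s = 1 := by
  unfold SS
  have h : H6.Sb 0 = {{0}} := by
    ext S
    rw [H6.mem_Sb, Finset.mem_singleton]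
    constructor
    · rintro ⟨h0, _⟩
      ext x
      rw [Finset.mem_singleton]
      have hx : x = 0 := Subsingleton.elim _ _
      rw [hx]
      exact ⟨fun _ => rfl, fun _ => h0⟩
    · rintro rfl
      refine ⟨Finset.mem_singleton_self _, fun a _ b _ => ?_⟩
      rw [Finset.mem_singleton]
      exact Subsingleton.elim _ _
  rw [h, Finset.sum_singleton, Finset.card_singleton]
  norm_num

namespace U1

variable {k : ℕ}

/-- adding a coordinate -/
def cn (a : ZMod 2) (w : V k) : V (k + 1) := Fin.cons a w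

lemma cn_add (a b : ZMod 2) (v w : V k) : cn a v + cn b w = cn (a + b) (v + w) := by
  unfold cn
  funext i
  refine Fin.cases ?_ (fun j => ?_) i
  · simp
  · simp

lemma cn_zero : cn 0 (0 : V k) = 0 := by
  unfold cn
  funext i
  refine Fin.cases ?_ (fun j => ?_) i
  · simp
  · simp

lemma cn_inj {a b : ZMod 2} {v w : V k} (h : cn a v = cn b w) : a = b ∧ v = w := by
  unfold cn at h
  exact Fin.cons_injective2 h

lemma exists_cn (z : V (k + 1)) : ∃ a w, z = cn a w := ⟨z 0, Fin.tail z, by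
  unfold cn
  exact (Fin.cons_self_tail z).symm⟩

lemma z2 (a : ZMod 2) : a = 0 ∨ a = 1 := by
  revert a
  decide

lemma vadd (v : V k) : v + v = 0 := by
  funext i
  exact CharTwo.add_self_eq_zero _

/-- the part in the hyperplane -/
def W0 (S : Finset (V (k + 1))) : Finset (V k) := univ.filter fun w => cn 0 w ∈ S

lemma mem_W0 {S : Finset (V (k + 1))} {w : V k} : w ∈ W0 S ↔ cn 0 w ∈ S := by
  unfold W0
  simp

/-- the part outside the hyperplane -/
def W1 (S : Finset (V (k + 1))) : Finset (V k) := univ.filter fun w => cn 1 w ∈ S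

lemma mem_W1 {S : Finset (V (k + 1))} {w : V k} : w ∈ W1 S ↔ cn 1 w ∈ S := by
  unfold W1
  simp

/-- subspaces in the hyperplane -/
def I0 (W : Finset (V k)) : Finset (V (k + 1)) := W.image (cn 0)

/-- the others -/
def I1 (W : Finset (V k)) (v : V k) : Finset (V (k + 1)) :=
  W.image (cn 0) ∪ W.image (fun w => cn 1 (w + v))

lemma mem_I0 {W : Finset (V k)} {a : ZMod 2} {w : V k} : cn a w ∈ I0 W ↔ a = 0 ∧ w ∈ W := by
  unfold I0
  rw [Finset.mem_image]
  constructor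
  · rintro ⟨x, hx, h⟩
    obtain ⟨h1, h2⟩ := cn_inj h
    exact ⟨h1.symm, h2 ▸ hx⟩
  · rintro ⟨rfl, h⟩
    exact ⟨w, h, rfl⟩

lemma mem_I1 {W : Finset (V k)} {v : V k} {a : ZMod 2} {w : V k} :
    cn a w ∈ I1 W v ↔ (a = 0 ∧ w ∈ W) ∨ (a = 1 ∧ w + v ∈ W) := by
  unfold I1
  rw [Finset.mem_union, Finset.mem_image, Finset.mem_image]
  constructor
  · rintro (⟨x, hx, h⟩ | ⟨x, hx, h⟩)
    · obtain ⟨h1, h2⟩ := cn_inj h
      exact Or.inl ⟨h1.symm, h2 ▸ hx⟩
    · obtain ⟨h1, h2⟩ := cn_inj h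
      refine Or.inr ⟨h1.symm, ?_⟩
      rw [← h2, add_assoc, vadd, add_zero]
      exact hx
  · rintro (⟨rfl, h⟩ | ⟨rfl, h⟩)
    · exact Or.inl ⟨w, h, rfl⟩
    · refine Or.inr ⟨w + v, h, ?_⟩
      rw [add_assoc, vadd, add_zero]

lemma card_I0 (W : Finset (V k)) : (I0 W).card = W.card := by
  unfold I0
  apply Finset.card_image_of_injective
  intro a b h
  exact (cn_inj h).2

lemma card_I1 (W : Finset (V k)) (v : V k) : (I1 W v).card = 2 * W.card := by
  unfold I1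
  rw [Finset.card_union_of_disjoint, Finset.card_image_of_injective,
    Finset.card_image_of_injective]
  · ring
  · intro a b h
    exact add_right_cancel (cn_inj h).2
  · intro a b h
    exact (cn_inj h).2
  · rw [Finset.disjoint_left]
    intro z h1 h2
    rw [Finset.mem_image] at h1 h2
    obtain ⟨x, _, rfl⟩ := h1
    obtain ⟨y, _, hy⟩ := h2
    exact one_ne_zero (cn_inj hy).1

lemma W0_Sb {S : Finset (V (k + 1))} (hS : S ∈ H6.Sb (k + 1)) : W0 S ∈ H6.Sb k := by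
  rw [H6.mem_Sb] at hS ⊢
  refine ⟨?_, fun a ha b hb => ?_⟩
  · rw [mem_W0, cn_zero]
    exact hS.1
  · rw [mem_W0] at ha hb ⊢
    have := hS.2 _ ha _ hb
    rwa [cn_add, add_zero] at this

lemma I0_Sb {W : Finset (V k)} (hW : W ∈ H6.Sb k) : I0 W ∈ H6.Sb (k + 1) := by
  rw [H6.mem_Sb] at hW ⊢
  refine ⟨?_, fun a ha b hb => ?_⟩
  · rw [← cn_zero, mem_I0]
    exact ⟨rfl, hW.1⟩
  · obtain ⟨x, v, rfl⟩ := exists_cn a
    obtain ⟨y, w, rfl⟩ := exists_cn b
    rw [mem_I0] at ha hb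
    rw [cn_add, mem_I0]
    exact ⟨by rw [ha.1, hb.1, add_zero], hW.2 _ ha.2 _ hb.2⟩

lemma I1_Sb {W : Finset (V k)} (hW : W ∈ H6.Sb k) (u : V k) : I1 W u ∈ H6.Sb (k + 1) := by
  rw [H6.mem_Sb] at hW ⊢
  refine ⟨?_, fun a ha b hb => ?_⟩
  · rw [← cn_zero, mem_I1]
    exact Or.inl ⟨rfl, hW.1⟩
  · obtain ⟨x, v, rfl⟩ := exists_cn a
    obtain ⟨y, w, rfl⟩ := exists_cn b
    rw [mem_I1] at ha hb
    rw [cn_add, mem_I1]
    rcases ha with ⟨rfl, ha⟩ | ⟨rfl, ha⟩ <;> rcases hb with ⟨rfl, hb⟩ | ⟨rfl, hb⟩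
    · exact Or.inl ⟨add_zero _, hW.2 _ ha _ hb⟩
    · refine Or.inr ⟨zero_add _, ?_⟩
      rw [add_assoc]
      exact hW.2 _ ha _ hb
    · refine Or.inr ⟨add_zero _, ?_⟩
      have := hW.2 _ ha _ hb
      rwa [add_right_comm] at this
    · refine Or.inl ⟨by decide, ?_⟩
      have h1 := hW.2 _ ha _ hb
      have h2 : v + u + (w + u) = v + w + (u + u) := by abel
      rwa [h2, vadd, add_zero] at h1

lemma W0_I0 (W : Finset (V k)) : W0 (I0 W) = W := by
  ext w
  rw [mem_W0, mem_I0]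
  exact ⟨fun h => h.2, fun h => ⟨rfl, h⟩⟩

lemma W1_I0 (W : Finset (V k)) : W1 (I0 W) = ∅ := by
  rw [Finset.eq_empty_iff_forall_notMem]
  intro w hw
  rw [mem_W1, mem_I0] at hw
  exact one_ne_zero hw.1

lemma W0_I1 (W : Finset (V k)) (v : V k) : W0 (I1 W v) = W := by
  ext w
  rw [mem_W0, mem_I1]
  constructor
  · rintro (h | h)
    · exact h.2
    · exact absurd h.1 (by decide)
  · intro h
    exact Or.inl ⟨rfl, h⟩

lemma I0_W0 {S : Finset (V (k + 1))} (h : W1 S = ∅) : I0 (W0 S) = S := by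
  ext z
  obtain ⟨a, w, rfl⟩ := exists_cn z
  rw [mem_I0, mem_W0]
  constructor
  · rintro ⟨rfl, h1⟩
    exact h1
  · intro h1
    rcases z2 a with rfl | rfl
    · exact ⟨rfl, h1⟩
    · exfalso
      rw [Finset.eq_empty_iff_forall_notMem] at h
      exact h w (mem_W1.2 h1)

lemma I1_W0 {S : Finset (V (k + 1))} (hS : S ∈ H6.Sb (k + 1)) {v : V k} (hv : v ∈ W1 S) :
    I1 (W0 S) v = S := by
  rw [H6.mem_Sb] at hS
  rw [mem_W1] at hv
  ext z
  obtain ⟨a, w, rfl⟩ := exists_cn z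
  rw [mem_I1, mem_W0, mem_W0]
  constructor
  · rintro (⟨rfl, h1⟩ | ⟨rfl, h1⟩)
    · exact h1
    · have h2 := hS.2 _ h1 _ hv
      rwa [cn_add, add_assoc, vadd, zero_add, add_zero] at h2
  · intro h1
    rcases z2 a with rfl | rfl
    · exact Or.inl ⟨rfl, h1⟩
    · refine Or.inr ⟨rfl, ?_⟩
      have h2 := hS.2 _ h1 _ hv
      rwa [cn_add, show (1 : ZMod 2) + 1 = 0 by decide] at h2

lemma card_W1 {S : Finset (V (k + 1))} (hS : S ∈ H6.Sb (k + 1)) (h : W1 S ≠ ∅) :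
    (W1 S).card = (W0 S).card := by
  obtain ⟨v, hv⟩ := Finset.nonempty_iff_ne_empty.2 h
  rw [H6.mem_Sb] at hS
  rw [mem_W1] at hv
  apply Finset.card_bij' (fun w _ => w + v) (fun w _ => w + v)
  · intro w hw
    rw [mem_W1] at hw
    rw [mem_W0]
    have h2 := hS.2 _ hw _ hv
    rwa [cn_add, show (1 : ZMod 2) + 1 = 0 by decide] at h2
  · intro w hw
    rw [mem_W0] at hw
    rw [mem_W1]
    have h2 := hS.2 _ hw _ hv
    rwa [cn_add, zero_add] at h2
  · intro w _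
    rw [add_assoc, vadd, add_zero]
  · intro w _
    rw [add_assoc, vadd, add_zero]

end U1

open U1 in
theorem SS_succ (k s : ℕ) : SS (k + 1) s = 2 ^ s * SS k s + SS k (s + 1) := by
  classical
  have hpos : ∀ {j : ℕ} {S : Finset (V j)}, S ∈ H6.Sb j → (0 : ℝ) < (S.card : ℝ) := by
    intro j S hS
    rw [H6.mem_Sb] at hS
    exact_mod_cast Finset.card_pos.2 ⟨0, hS.1⟩
  have h0 : ∑ S ∈ (H6.Sb (k + 1)).filter (fun S => W1 S = ∅),
      ((2 ^ (k + 1) : ℝ) / (S.card : ℝ)) ^ s = 2 ^ s * SS k s := by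
    unfold SS
    rw [Finset.mul_sum]
    refine Finset.sum_bij' (fun S _ => W0 S) (fun W _ => I0 W) ?_ ?_ ?_ ?_ ?_
    · intro S hS
      exact W0_Sb (Finset.mem_filter.1 hS).1
    · intro W hW
      rw [Finset.mem_filter]
      exact ⟨I0_Sb hW, W1_I0 W⟩
    · intro S hS
      exact I0_W0 (Finset.mem_filter.1 hS).2
    · intro W _
      exact W0_I0 W
    · intro S hS
      have h1 : (W0 S).card = S.card := by
        conv_rhs => rw [← I0_W0 (Finset.mem_filter.1 hS).2]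
        rw [card_I0]
      rw [h1, ← mul_pow, pow_succ]
      congr 1
      ring
  have h1 : ∑ S ∈ (H6.Sb (k + 1)).filter (fun S => ¬ W1 S = ∅),
      ((2 ^ (k + 1) : ℝ) / (S.card : ℝ)) ^ s = SS k (s + 1) := by
    have e1 : ∀ S ∈ (H6.Sb (k + 1)).filter (fun S => ¬ W1 S = ∅),
        ((2 ^ (k + 1) : ℝ) / (S.card : ℝ)) ^ s
        = ∑ _v ∈ W1 S, ((2 ^ (k + 1) : ℝ) / (S.card : ℝ)) ^ s * (1 / ((W0 S).card : ℝ)) := by
      intro S hS
      rw [Finset.mem_filter] at hS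
      rw [Finset.sum_const, nsmul_eq_mul, card_W1 hS.1 hS.2]
      have := hpos (W0_Sb hS.1)
      field_simp
    rw [Finset.sum_congr rfl e1, Finset.sum_sigma']
    have e2 : SS k (s + 1) = ∑ p ∈ (H6.Sb k).sigma (fun _ => (univ : Finset (V k))),
        ((2 ^ k : ℝ) / (p.1.card : ℝ)) ^ s * (1 / (p.1.card : ℝ)) := by
      unfold SS
      rw [Finset.sum_sigma]
      apply Finset.sum_congr rfl
      intro S hS
      dsimp only
      rw [Finset.sum_const, nsmul_eq_mul, Finset.card_univ, pow_succ]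
      have h2 : (Fintype.card (V k) : ℝ) = 2 ^ k := by
        rw [H6.card_V]
        push_cast
        rfl
      rw [h2]
      have := hpos hS
      field_simp
    rw [e2]
    refine Finset.sum_bij' (fun p _ => ⟨W0 p.1, p.2⟩) (fun p _ => ⟨I1 p.1 p.2, p.2⟩) ?_ ?_ ?_ ?_ ?_
    · rintro ⟨S, v⟩ hp
      rw [Finset.mem_sigma, Finset.mem_filter] at hp
      rw [Finset.mem_sigma]
      exact ⟨W0_Sb hp.1.1, Finset.mem_univ _⟩
    · rintro ⟨W, v⟩ hp
      rw [Finset.mem_sigma] at hp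
      have hv : v ∈ W1 (I1 W v) := by
        rw [mem_W1, mem_I1]
        refine Or.inr ⟨rfl, ?_⟩
        rw [vadd]
        exact (H6.mem_Sb.1 hp.1).1
      rw [Finset.mem_sigma, Finset.mem_filter]
      refine ⟨⟨I1_Sb hp.1 v, ?_⟩, hv⟩
      intro h
      change W1 (I1 W v) = ∅ at h
      rw [h] at hv
      exact absurd hv (Finset.notMem_empty _)
    · rintro ⟨S, v⟩ hp
      rw [Finset.mem_sigma, Finset.mem_filter] at hp
      dsimp only
      rw [I1_W0 hp.1.1 hp.2]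
    · rintro ⟨W, v⟩ hp
      dsimp only
      rw [W0_I1]
    · rintro ⟨S, v⟩ hp
      rw [Finset.mem_sigma, Finset.mem_filter] at hp
      dsimp only
      have hI : I1 (W0 S) v = S := I1_W0 hp.1.1 hp.2
      have h2 : S.card = 2 * (W0 S).card := by
        rw [← card_I1 (W0 S) v, hI]
      rw [h2]
      push_cast
      rw [pow_succ]
      congr 2
      have := hpos (W0_Sb hp.1.1)
      field_simp
  have h2 := Finset.sum_filter_add_sum_filter_not (H6.Sb (k + 1)) (fun S => W1 S = ∅)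
    (fun S => ((2 ^ (k + 1) : ℝ) / (S.card : ℝ)) ^ s)
  rw [h0, h1] at h2
  rw [h2]
  rfl

end Vale.Agent.P017.H506
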