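import Mathlib

/-!
# Euler's identity at `1 / 2`
-/

namespace Vale.Agent.P017.H506

open Finset Filter Topology

namespace U3

/-- the coefficients -/
noncomputable def a (i : ℕ) : ℝ := (-1 : ℝ) ^ i / ∏ t ∈ range i, (2 ^ (t + 1) - 1 : ℝ)

theorem two_pow_sub (t : ℕ) : (1 : ℝ) ≤ 2 ^ (t + 1) - 1 := by
  have : (2 : ℝ) ≤ 2 ^ (t + 1) := by
    calc (2 : ℝ) = 2 ^ 1 := (pow_one _).symm
      _ ≤ 2 ^ (t + 1) := pow_le_pow_right₀ (by norm_num) (by omega)
  linarith

theorem prod_pos (i : ℕ) : (0 : ℝ) < ∏ t ∈ range i, (2 ^ (t + 1) - 1 : ℝ) :=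
  Finset.prod_pos fun t _ => lt_of_lt_of_le one_pos (two_pow_sub t)

theorem a_zero : a 0 = 1 := by simp [a]

theorem a_succ (i : ℕ) : a (i + 1) * 2 ^ (i + 1) = a (i + 1) - a i := by
  have h1 := prod_pos i
  have h2 := two_pow_sub i
  have h3 : (2 : ℝ) ^ (i + 1) - 1 ≠ 0 := by linarith
  unfold a
  rw [Finset.prod_range_succ]
  field_simp
  ring

theorem abs_a_succ (i : ℕ) : |a (i + 1)| * (2 ^ (i + 1) - 1) = |a i| := by
  have h := a_succ i
  have h1 : a (i + 1) * (2 ^ (i + 1) - 1) = - a i := by linarith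
  have h2 := congrArg abs h1
  rw [abs_mul, abs_neg, abs_of_nonneg (by linarith [two_pow_sub i] : (0 : ℝ) ≤ 2 ^ (i + 1) - 1)]
    at h2
  exact h2

theorem abs_a_le (i : ℕ) : |a i| ≤ 2 * (1 / 2) ^ i := by
  induction i with
  | zero => rw [a_zero]; norm_num
  | succ i ih =>
    have h1 := abs_a_succ i
    have h2 := two_pow_sub i
    rcases Nat.eq_zero_or_pos i with h0 | h0
    · subst h0
      rw [a_zero] at h1
      norm_num at h1 ⊢
      linarith
    · have h3 : (3 : ℝ) ≤ 2 ^ (i + 1) - 1 := by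
        have : (4 : ℝ) ≤ 2 ^ (i + 1) := by
          calc (4 : ℝ) = 2 ^ 2 := by norm_num
            _ ≤ 2 ^ (i + 1) := pow_le_pow_right₀ (by norm_num) (by omega)
        linarith
      have h4 : |a (i + 1)| * 3 ≤ |a i| := by
        rw [← h1]
        exact mul_le_mul_of_nonneg_left h3 (abs_nonneg _)
      have h5 := abs_nonneg (a (i + 1))
      rw [pow_succ]
      linarith

theorem summable_a {z : ℝ} (hz : |z| ≤ 1) : Summable fun i => a i * z ^ i := by
  refine Summable.of_norm_bounded (g := fun i => 2 * (1 / 2 : ℝ) ^ i)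
    ((summable_geometric_of_lt_one (by norm_num) (by norm_num)).mul_left 2) fun i => ?_
  rw [Real.norm_eq_abs, abs_mul, abs_pow]
  calc |a i| * |z| ^ i ≤ |a i| * 1 :=
        mul_le_mul_of_nonneg_left (pow_le_one₀ (abs_nonneg _) hz) (abs_nonneg _)
    _ ≤ _ := by rw [mul_one]; exact abs_a_le i

/-- the sum -/
noncomputable def S (z : ℝ) : ℝ := ∑' i, a i * z ^ i

theorem S_double {z : ℝ} (hz : |2 * z| ≤ 1) : S (2 * z) = (1 - z) * S z := by
  have hz' : |z| ≤ 1 := by
    rw [abs_mul] at hz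
    have : |(2 : ℝ)| = 2 := abs_of_pos two_pos
    rw [this] at hz
    linarith [abs_nonneg z]
  have s1 := summable_a hz'
  have s2 := summable_a hz
  have s1' : Summable fun i => a (i + 1) * z ^ (i + 1) :=
    (summable_nat_add_iff (f := fun i => a i * z ^ i) 1).2 s1
  unfold S
  rw [s2.tsum_eq_zero_add]
  have h1 : ∀ i, a (i + 1) * (2 * z) ^ (i + 1) =
      a (i + 1) * z ^ (i + 1) - z * (a i * z ^ i) := by
    intro i
    rw [mul_pow, ← mul_assoc, a_succ]
    ring
  rw [tsum_congr h1, s1'.tsum_sub (s1.mul_left z), tsum_mul_left]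
  have h2 := s1.tsum_eq_zero_add
  simp only [pow_zero, mul_one] at h2 ⊢
  linarith

theorem S_one (J : ℕ) : S 1 = (∏ j ∈ range J, (1 - 1 / 2 ^ (j + 1) : ℝ)) * S (1 / 2 ^ J) := by
  induction J with
  | zero => simp
  | succ J ih =>
    rw [ih, Finset.prod_range_succ, mul_assoc]
    congr 1
    have h1 : (1 : ℝ) / 2 ^ J = 2 * (1 / 2 ^ (J + 1)) := by
      rw [pow_succ]
      field_simp
    rw [h1]
    refine S_double ?_
    rw [← h1, abs_of_pos (by positivity), div_le_one (by positivity)]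
    exact one_le_pow₀ (by norm_num)

theorem S_near {z : ℝ} (hz : |z| ≤ 1) : |S z - 1| ≤ |z| * 2 := by
  have s1 := summable_a hz
  have h2 := s1.tsum_eq_zero_add
  have h3 : S z - 1 = ∑' i, a (i + 1) * z ^ (i + 1) := by
    unfold S
    rw [h2, a_zero]
    simp
  rw [h3]
  have hg : HasSum (fun i : ℕ => |z| * (1 / 2 : ℝ) ^ i) (|z| * 2) := by
    have := hasSum_geometric_of_lt_one (r := (1 / 2 : ℝ)) (by norm_num) (by norm_num)
    have h5 := this.mul_left |z|
    norm_num at h5 ⊢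
    exact h5
  rw [← Real.norm_eq_abs]
  refine tsum_of_norm_bounded hg fun i => ?_
  rw [Real.norm_eq_abs, abs_mul, abs_pow, pow_succ]
  have h4 := abs_a_le (i + 1)
  rw [pow_succ] at h4
  have h5 : |z| ^ i ≤ 1 := pow_le_one₀ (abs_nonneg _) hz
  have h6 := abs_nonneg (a (i + 1))
  calc |a (i + 1)| * (|z| ^ i * |z|) ≤ (2 * ((1 / 2) ^ i * (1 / 2))) * (1 * |z|) :=
        mul_le_mul h4 (mul_le_mul_of_nonneg_right h5 (abs_nonneg _)) (by positivity)
          (by positivity)
    _ = |z| * (1 / 2) ^ i := by ring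

theorem multipliable_half : Multipliable fun j : ℕ => (1 - 1 / 2 ^ (j + 1) : ℝ) := by
  have h : Summable fun j : ℕ => (-(1 / 2 ^ (j + 1)) : ℝ) := by
    refine Summable.neg ?_
    have h1 := (summable_nat_add_iff (f := fun j : ℕ => (1 / 2 : ℝ) ^ j) 1).2
      (summable_geometric_of_lt_one (by norm_num) (by norm_num))
    refine h1.congr fun j => ?_
    rw [one_div_pow]
  have h2 := Real.multipliable_one_add_of_summable h
  exact h2.congr fun j => by ring

end U3

open U3 in
/-- **Euler's identity** -/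
theorem euler_half : Filter.Tendsto (fun m : ℕ => ∑ i ∈ Finset.range (m + 1),
    (-1 : ℝ) ^ i / ∏ t ∈ Finset.range i, (2 ^ (t + 1) - 1 : ℝ)) Filter.atTop
    (nhds (∏' j : ℕ, (1 - 1 / 2 ^ (j + 1) : ℝ))) := by
  have h1 : S 1 = ∏' j : ℕ, (1 - 1 / 2 ^ (j + 1) : ℝ) := by
    have hp := multipliable_half.hasProd.tendsto_prod_nat
    have hz : Tendsto (fun J : ℕ => (1 / 2 ^ J : ℝ)) atTop (𝓝 0) := by
      have := tendsto_pow_atTop_nhds_zero_of_lt_one (r := (1 / 2 : ℝ)) (by norm_num) (by norm_num)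
      refine this.congr fun J => ?_
      rw [one_div_pow]
    have hS : Tendsto (fun J : ℕ => S (1 / 2 ^ J)) atTop (𝓝 1) := by
      rw [tendsto_iff_norm_sub_tendsto_zero]
      refine squeeze_zero (fun _ => norm_nonneg _) (fun J => ?_)
        (g := fun J : ℕ => |(1 / 2 ^ J : ℝ)| * 2) ?_
      · rw [Real.norm_eq_abs]
        refine S_near ?_
        rw [abs_of_pos (by positivity), div_le_one (by positivity)]
        exact one_le_pow₀ (by norm_num)
      · have := (hz.abs).mul_const 2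
        simpa using this
    have h2 := hp.mul hS
    rw [mul_one] at h2
    have h3 : Tendsto (fun _ : ℕ => S 1) atTop (𝓝 (∏' j : ℕ, (1 - 1 / 2 ^ (j + 1) : ℝ))) := by
      refine h2.congr fun J => ?_
      exact (S_one J).symm
    exact tendsto_nhds_unique tendsto_const_nhds h3
  rw [← h1]
  have s := (summable_a (z := 1) (by simp)).hasSum.tendsto_sum_nat
  have h4 := s.comp (tendsto_add_atTop_nat 1)
  refine h4.congr fun m => ?_
  simp only [Function.comp]
  exact Finset.sum_congr rfl fun i _ => by rw [one_pow, mul_one]; rfl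

end Vale.Agent.P017.H506
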