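import Vale.Agent.P017.H6.T9
import Vale.Agent.P017.H506.E9
import Vale.Agent.P017.H506.RT4
import Vale.Agent.P017.H506.RT8
import Vale.Agent.P017.H506.RT7b
import Vale.Agent.P017.H333.T6
import Vale.Agent.P017.H994.T7
import Vale.Agent.P017.H687.T5
import Vale.Agent.P017.H687.T10

/-!
Round 3: the moments for the six families.
-/

namespace Vale.Agent.P017.H506

open Finset Function Vale.Agent.P014.FM

namespace T13

lemma sgn2_abs (z : ZMod 2) : |sgn2 z| ≤ 1 := by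
  unfold sgn2
  split_ifs <;> simp

lemma nf_nonneg (cl k : ℕ) : 0 ≤ nf cl k := by
  unfold nf
  split_ifs <;> positivity

lemma nf_le_one (cl k : ℕ) : nf cl k ≤ 1 := by
  unfold nf
  split_ifs
  · exact le_rfl
  · exact pow_le_one₀ (by norm_num) (by norm_num)

lemma mem_GX {tp cl X n : ℕ} : n ∈ GX tp cl X ↔ n ≤ X ∧ IsG tp cl n := by
  classical
  unfold GX
  rw [Finset.mem_filter, mem_range, Nat.lt_succ_iff]

end T13

open T13

/-- the reduction of the `k`-th moment to the main terms -/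
theorem engine3 (tp cl k : ℕ) (hk : 1 ≤ k) (ε : ℝ) (hε : 0 < ε) : ∃ X₀ : ℕ, ∀ X : ℕ, X₀ ≤ X →
    |∑ n ∈ GX tp cl X, (((R3 tp cl n).card : ℝ) ^ k - nf cl k * ∑ θ ∈ TT tp cl k, sT θ *
      ∑ U ∈ UsN (Pk k) (2 ^ k), mainT tp θ U n)| ≤ ε * X := by
  classical
  have h2 : 2 ≤ 2 ^ k := by
    calc 2 = 2 ^ 1 := by norm_num
      _ ≤ 2 ^ k := Nat.pow_le_pow_right (by norm_num) hk
  set T : ℝ := ((TT tp cl k).card : ℝ) with hT
  have hT0 : 0 ≤ T := Nat.cast_nonneg _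
  have key : ∀ θ ∈ TT tp cl k, ∃ X₀ : ℕ, ∀ X : ℕ, X₀ ≤ X →
      |∑ n ∈ GX tp cl X, ((1 / ((2 ^ k : ℕ) : ℝ)) ^ n.primeFactors.card *
        ∑ D ∈ tup (Ix k) n, wtT tp θ D - ∑ U ∈ UsN (Pk k) (2 ^ k), mainT tp θ U n)|
        ≤ (ε / (T + 1)) * X := by
    intro θ hθ
    have hθ' : (tp = 0 → θ.1 = 0) ∧ (cl = 0 → θ.2.1 = 0 ∧ θ.2.2 = 0) := by
      unfold TT at hθ
      exact (Finset.mem_filter.1 hθ).2
    obtain ⟨X₀, h⟩ := H994.engineS (2 ^ k) h2 (card_Ix k) (Pk k) (Pk_self k) (unl_le k)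
      (E8 tp θ) (E5 θ) (E3 θ) (IsG tp cl) (if cl = 0 then 1 else 15) (charFam tp cl) (by
        intro u hu
        by_cases hcl : cl = 0
        · exfalso
          unfold E5 at hu
          rw [(hθ'.2 hcl).1] at hu
          simp at hu
        · rw [if_neg hcl]
          norm_num) (by
        intro u hu
        by_cases hcl : cl = 0
        · exfalso
          unfold E3 at hu
          rw [(hθ'.2 hcl).2] at hu
          simp at hu
        · rw [if_neg hcl]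
          norm_num) (ε / (T + 1)) (by positivity)
    refine ⟨X₀, fun X hX => ?_⟩
    have h1 := h X hX
    unfold GX wtT mainT
    exact h1
  choose! f hf using key
  refine ⟨∑ θ ∈ TT tp cl k, f θ, fun X hX => ?_⟩
  have hX0 : (0 : ℝ) ≤ X := Nat.cast_nonneg _
  have e1 : ∑ n ∈ GX tp cl X, (((R3 tp cl n).card : ℝ) ^ k - nf cl k * ∑ θ ∈ TT tp cl k, sT θ *
      ∑ U ∈ UsN (Pk k) (2 ^ k), mainT tp θ U n)
      = nf cl k * ∑ θ ∈ TT tp cl k, sT θ * ∑ n ∈ GX tp cl X,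
        ((1 / ((2 ^ k : ℕ) : ℝ)) ^ n.primeFactors.card *
        ∑ D ∈ tup (Ix k) n, wtT tp θ D - ∑ U ∈ UsN (Pk k) (2 ^ k), mainT tp θ U n) := by
    simp only [Finset.mul_sum (GX tp cl X)]
    rw [Finset.sum_comm, Finset.mul_sum]
    apply Finset.sum_congr rfl
    intro n hn
    rw [card_pow3 tp cl k (mem_GX.1 hn).2, ← mul_sub, ← Finset.sum_sub_distrib]
    congr 1
    apply Finset.sum_congr rfl
    intro θ _
    ring
  rw [e1, abs_mul, abs_of_nonneg (nf_nonneg cl k)]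
  have e2 : |∑ θ ∈ TT tp cl k, sT θ * ∑ n ∈ GX tp cl X,
        ((1 / ((2 ^ k : ℕ) : ℝ)) ^ n.primeFactors.card *
        ∑ D ∈ tup (Ix k) n, wtT tp θ D - ∑ U ∈ UsN (Pk k) (2 ^ k), mainT tp θ U n)|
      ≤ T * ((ε / (T + 1)) * X) := by
    refine (Finset.abs_sum_le_sum_abs _ _).trans ?_
    calc _ ≤ ∑ θ ∈ TT tp cl k, (ε / (T + 1)) * X := by
          apply Finset.sum_le_sum
          intro θ hθ
          rw [abs_mul]
          have h1 := hf θ hθ X ((Finset.single_le_sum (fun _ _ => Nat.zero_le _) hθ).trans hX)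
          calc |sT θ| * _ ≤ 1 * _ := mul_le_mul_of_nonneg_right (sgn2_abs _) (abs_nonneg _)
            _ ≤ _ := by rw [one_mul]; exact h1
      _ = T * ((ε / (T + 1)) * X) := by rw [Finset.sum_const, nsmul_eq_mul]
  calc nf cl k * |∑ θ ∈ TT tp cl k, sT θ * ∑ n ∈ GX tp cl X,
        ((1 / ((2 ^ k : ℕ) : ℝ)) ^ n.primeFactors.card *
        ∑ D ∈ tup (Ix k) n, wtT tp θ D - ∑ U ∈ UsN (Pk k) (2 ^ k), mainT tp θ U n)|
      ≤ 1 * (T * ((ε / (T + 1)) * X)) :=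
        mul_le_mul (nf_le_one cl k) e2 (abs_nonneg _) zero_le_one
    _ = (T / (T + 1)) * (ε * X) := by field_simp
    _ ≤ 1 * (ε * X) := by
        apply mul_le_mul_of_nonneg_right _ (by positivity)
        rw [div_le_one (by positivity)]
        linarith
    _ = ε * X := one_mul _

open Classical in
/-- the number of main terms -/
noncomputable def cntT (tp cl k : ℕ) : ℝ := nf cl k * ∑ θ ∈ TT tp cl k,
    (((UsN (Pk k) (2 ^ k)).filter (fun U => TrivT tp θ U)).card : ℝ)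

/-- the number of all terms -/
noncomputable def totT (tp cl k : ℕ) : ℝ := ((TT tp cl k).card : ℝ) * ((UsN (Pk k) (2 ^ k)).card : ℝ)

lemma Gn_nonneg (n : ℕ) : 0 ≤ Gn n := by
  unfold Gn
  apply add_nonneg
  · positivity
  · apply Finset.sum_nonneg
    intro j _
    split_ifs <;> simp

lemma bad_le_Gn (n : ℕ) :
    2 * (1 / 2 : ℝ) ^ (n.primeFactors.filter (fun p => p % 4 = 3)).card ≤ Gn n := by
  unfold Gn
  apply le_add_of_nonneg_right
  apply Finset.sum_nonneg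
  intro j _
  split_ifs <;> simp

lemma odd_of_IsG {tp cl n : ℕ} (hn : IsG tp cl n) : n % 2 = 1 := by
  have h := hn.2.1
  split_ifs at h <;> omega

open Classical in
/-- one term -/
lemma term_abs {tp cl k : ℕ} {θ : Tx k} (hθ : θ ∈ TT tp cl k) {U : Finset (Ix k)}
    (hU : U ∈ UsN (Pk k) (2 ^ k)) {n : ℕ} (hn : IsG tp cl n) :
    |sT θ * mainT tp θ U n - (if TrivT tp θ U then 1 else 0)| ≤ Gn n := by
  by_cases ht : TrivT tp θ U
  · rw [if_pos ht, triv_one hθ hU ht hn, sub_self, abs_zero]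
    exact Gn_nonneg n
  · rw [if_neg ht, sub_zero, abs_mul]
    have h1 : |mainT tp θ U n| ≤ Gn n := by
      by_cases hg : Good (Pk k) U
      · exact good_small hθ hU hg ht hn
      · exact (bad_bound3 tp k θ hU hg hn.1 (odd_of_IsG hn)).trans (bad_le_Gn n)
    calc |sT θ| * |mainT tp θ U n| ≤ 1 * |mainT tp θ U n| :=
          mul_le_mul_of_nonneg_right (sgn2_abs _) (abs_nonneg _)
      _ ≤ Gn n := by rw [one_mul]; exact h1

open Classical in
/-- all terms -/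
lemma all_abs {tp cl k n : ℕ} (hn : IsG tp cl n) :
    |nf cl k * ∑ θ ∈ TT tp cl k, sT θ * ∑ U ∈ UsN (Pk k) (2 ^ k), mainT tp θ U n - cntT tp cl k|
      ≤ totT tp cl k * Gn n := by
  unfold cntT
  rw [← mul_sub, ← Finset.sum_sub_distrib, abs_mul, abs_of_nonneg (nf_nonneg cl k)]
  have e : ∀ θ ∈ TT tp cl k, |sT θ * ∑ U ∈ UsN (Pk k) (2 ^ k), mainT tp θ U n -
      (((UsN (Pk k) (2 ^ k)).filter (fun U => TrivT tp θ U)).card : ℝ)|
      ≤ ((UsN (Pk k) (2 ^ k)).card : ℝ) * Gn n := by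
    intro θ hθ
    rw [Finset.card_filter, Nat.cast_sum, Finset.mul_sum, ← Finset.sum_sub_distrib]
    refine (Finset.abs_sum_le_sum_abs _ _).trans ?_
    calc _ ≤ ∑ U ∈ UsN (Pk k) (2 ^ k), Gn n := by
          apply Finset.sum_le_sum
          intro U hU
          refine le_trans (le_of_eq ?_) (term_abs hθ hU hn)
          congr 2
          split_ifs <;> simp
      _ = _ := by rw [Finset.sum_const, nsmul_eq_mul]
  calc nf cl k * |∑ θ ∈ TT tp cl k, (sT θ * ∑ U ∈ UsN (Pk k) (2 ^ k), mainT tp θ U n -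
      (((UsN (Pk k) (2 ^ k)).filter (fun U => TrivT tp θ U)).card : ℝ))|
      ≤ 1 * ∑ θ ∈ TT tp cl k, ((UsN (Pk k) (2 ^ k)).card : ℝ) * Gn n := by
        apply mul_le_mul (nf_le_one cl k) _ (abs_nonneg _) zero_le_one
        exact (Finset.abs_sum_le_sum_abs _ _).trans (Finset.sum_le_sum e)
    _ = totT tp cl k * Gn n := by
        unfold totT
        rw [Finset.sum_const, nsmul_eq_mul]
        ring

/-- the moments -/
theorem momG (tp cl k : ℕ) (hk : 1 ≤ k) (ε : ℝ) (hε : 0 < ε) : ∃ X₀ : ℕ, ∀ X : ℕ, X₀ ≤ X →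
    |∑ n ∈ GX tp cl X, ((R3 tp cl n).card : ℝ) ^ k - cntT tp cl k * ((GX tp cl X).card : ℝ)|
      ≤ ε * X := by
  obtain ⟨X₁, h1⟩ := engine3 tp cl k hk (ε / 2) (by positivity)
  obtain ⟨t, ht⟩ : ∃ t, totT tp cl k = t := ⟨_, rfl⟩
  have ht0 : 0 ≤ t := by
    rw [← ht]
    unfold totT
    positivity
  obtain ⟨X₂, h2⟩ := negl3 tp cl (ε / (2 * (t + 1))) (by positivity)
  refine ⟨max X₁ X₂, fun X hX => ?_⟩
  have a := h1 X ((le_max_left _ _).trans hX)
  have b := h2 X ((le_max_right _ _).trans hX)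
  have e1 : ∑ n ∈ GX tp cl X, ((R3 tp cl n).card : ℝ) ^ k - cntT tp cl k * ((GX tp cl X).card : ℝ)
      = ∑ n ∈ GX tp cl X, (((R3 tp cl n).card : ℝ) ^ k - nf cl k * ∑ θ ∈ TT tp cl k, sT θ *
      ∑ U ∈ UsN (Pk k) (2 ^ k), mainT tp θ U n) + ∑ n ∈ GX tp cl X, (nf cl k *
        ∑ θ ∈ TT tp cl k, sT θ * ∑ U ∈ UsN (Pk k) (2 ^ k), mainT tp θ U n - cntT tp cl k) := by
    rw [← Finset.sum_add_distrib]
    have : cntT tp cl k * ((GX tp cl X).card : ℝ) = ∑ n ∈ GX tp cl X, cntT tp cl k := by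
      rw [Finset.sum_const, nsmul_eq_mul]
      ring
    rw [this, ← Finset.sum_sub_distrib]
    apply Finset.sum_congr rfl
    intro n _
    ring
  rw [e1]
  refine (abs_add_le _ _).trans ?_
  have e2 : |∑ n ∈ GX tp cl X, (nf cl k *
        ∑ θ ∈ TT tp cl k, sT θ * ∑ U ∈ UsN (Pk k) (2 ^ k), mainT tp θ U n - cntT tp cl k)|
      ≤ ε / 2 * X := by
    refine (Finset.abs_sum_le_sum_abs _ _).trans ?_
    calc _ ≤ ∑ n ∈ GX tp cl X, t * Gn n := by
          apply Finset.sum_le_sum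
          intro n hn
          rw [← ht]
          exact all_abs (mem_GX.1 hn).2
      _ = t * ∑ n ∈ GX tp cl X, Gn n := by rw [Finset.mul_sum]
      _ ≤ t * (ε / (2 * (t + 1)) * X) := mul_le_mul_of_nonneg_left b ht0
      _ = (t / (t + 1)) * (ε / 2 * X) := by field_simp
      _ ≤ 1 * (ε / 2 * X) := by
          apply mul_le_mul_of_nonneg_right _ (by positivity)
          rw [div_le_one (by positivity)]
          linarith
      _ = ε / 2 * X := one_mul _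
  linarith

theorem mom31 (tp cl : ℕ) (htp : tp ≤ 2) (ε : ℝ) (hε : 0 < ε) : ∃ X₀ : ℕ, ∀ X : ℕ, X₀ ≤ X →
    ∑ n ∈ GX tp cl X, ((R3 tp cl n).card : ℝ) ≤ 4 * ((GX tp cl X).card : ℝ) + ε * X := by
  obtain ⟨X₀, h⟩ := momG tp cl 1 le_rfl ε hε
  refine ⟨X₀, fun X hX => ?_⟩
  have h1 := (abs_le.1 (h X hX)).2
  have h2 : cntT tp cl 1 ≤ 4 := cnt_one tp cl htp
  have h3 : (0 : ℝ) ≤ ((GX tp cl X).card : ℝ) := Nat.cast_nonneg _
  simp only [pow_one] at h1
  have h4 := mul_le_mul_of_nonneg_right h2 h3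
  linarith

theorem mom32 (tp cl : ℕ) (htp : tp ≤ 2) (ε : ℝ) (hε : 0 < ε) : ∃ X₀ : ℕ, ∀ X : ℕ, X₀ ≤ X →
    20 * ((GX tp cl X).card : ℝ) - ε * X ≤ ∑ n ∈ GX tp cl X, ((R3 tp cl n).card : ℝ) ^ 2 := by
  obtain ⟨X₀, h⟩ := momG tp cl 2 (by norm_num) ε hε
  refine ⟨X₀, fun X hX => ?_⟩
  have h1 := (abs_le.1 (h X hX)).1
  have h2 : 20 ≤ cntT tp cl 2 := cnt_two tp cl htp
  have h3 : (0 : ℝ) ≤ ((GX tp cl X).card : ℝ) := Nat.cast_nonneg _
  have h4 := mul_le_mul_of_nonneg_right h2 h3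
  linarith

theorem mom33 (tp cl : ℕ) (htp : tp ≤ 2) (ε : ℝ) (hε : 0 < ε) : ∃ X₀ : ℕ, ∀ X : ℕ, X₀ ≤ X →
    ∑ n ∈ GX tp cl X, ((R3 tp cl n).card : ℝ) ^ 3 ≤ 128 * ((GX tp cl X).card : ℝ) + ε * X := by
  obtain ⟨X₀, h⟩ := momG tp cl 3 (by norm_num) ε hε
  refine ⟨X₀, fun X hX => ?_⟩
  have h1 := (abs_le.1 (h X hX)).2
  have h2 : cntT tp cl 3 ≤ 128 := cnt_three tp cl htp
  have h3 : (0 : ℝ) ≤ ((GX tp cl X).card : ℝ) := Nat.cast_nonneg _
  have h4 := mul_le_mul_of_nonneg_right h2 h3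
  linarith

end Vale.Agent.P017.H506
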