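import Vale.Agent.P017.H506.T13
import Vale.Agent.P017.H506.RU1
import Vale.Agent.P017.H506.RU3
import Vale.Agent.P017.H506.RT11

/-!
All moments, and the exact value of the method in each of the six families.
-/

namespace Vale.Agent.P017.H506

open Finset Function Vale.Agent.P014.FM

/-- the factorial moments -/
theorem momF (tp cl m : ℕ) : ∀ k : ℕ, ∀ ε : ℝ, 0 < ε → ∃ X₀ : ℕ, ∀ X : ℕ, X₀ ≤ X →
    |∑ n ∈ GX tp cl X, ((((R3 tp cl n).card : ℝ) / 2) ^ k *
      ∏ t ∈ range m, (((R3 tp cl n).card : ℝ) / 2 - 2 ^ t)) - SS k m * ((GX tp cl X).card : ℝ)|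
      ≤ ε * X := by
  induction m with
  | zero =>
    intro k ε hε
    rcases Nat.eq_zero_or_pos k with rfl | hk
    · refine ⟨0, fun X _ => ?_⟩
      have h0 : (0 : ℝ) ≤ X := Nat.cast_nonneg _
      rw [SS_zero]
      simp only [pow_zero, Finset.range_zero, Finset.prod_empty, mul_one, one_mul,
        Finset.sum_const, nsmul_eq_mul, sub_self, abs_zero]
      positivity
    · obtain ⟨X₀, h⟩ := momG tp cl k hk ε hε
      refine ⟨X₀, fun X hX => ?_⟩
      have h1 := h X hX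
      have h2 : cntT tp cl k = 2 ^ k * SS k 0 := by
        rw [SS_zero_right]
        exact H6.cnt tp cl k
      have h0 : (0 : ℝ) ≤ X := Nat.cast_nonneg _
      rw [h2] at h1
      have e : ∑ n ∈ GX tp cl X, ((((R3 tp cl n).card : ℝ) / 2) ^ k *
          ∏ t ∈ range 0, (((R3 tp cl n).card : ℝ) / 2 - 2 ^ t)) -
          SS k 0 * ((GX tp cl X).card : ℝ) = (1 / 2 ^ k) *
          (∑ n ∈ GX tp cl X, ((R3 tp cl n).card : ℝ) ^ k -
            2 ^ k * SS k 0 * ((GX tp cl X).card : ℝ)) := by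
        rw [mul_sub, Finset.mul_sum]
        congr 1
        · apply Finset.sum_congr rfl
          intro n _
          rw [Finset.range_zero, Finset.prod_empty, div_pow]
          ring
        · field_simp
      rw [e, abs_mul, abs_of_nonneg (by positivity)]
      have h3 : (1 : ℝ) / 2 ^ k ≤ 1 := by
        rw [div_le_one (by positivity)]
        exact one_le_pow₀ (by norm_num)
      calc (1 / 2 ^ k) * |_| ≤ 1 * (ε * X) :=
            mul_le_mul h3 h1 (abs_nonneg _) zero_le_one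
        _ = ε * X := one_mul _
  | succ m ih =>
    intro k ε hε
    obtain ⟨X₁, h1⟩ := ih (k + 1) (ε / 2) (by positivity)
    obtain ⟨X₂, h2⟩ := ih k (ε / (2 * 2 ^ m)) (by positivity)
    refine ⟨max X₁ X₂, fun X hX => ?_⟩
    have a := h1 X ((le_max_left _ _).trans hX)
    have b := h2 X ((le_max_right _ _).trans hX)
    have hS : SS k (m + 1) = SS (k + 1) m - 2 ^ m * SS k m := by
      rw [SS_succ]
      ring
    have e : ∑ n ∈ GX tp cl X, ((((R3 tp cl n).card : ℝ) / 2) ^ k *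
        ∏ t ∈ range (m + 1), (((R3 tp cl n).card : ℝ) / 2 - 2 ^ t)) -
        SS k (m + 1) * ((GX tp cl X).card : ℝ)
        = (∑ n ∈ GX tp cl X, ((((R3 tp cl n).card : ℝ) / 2) ^ (k + 1) *
        ∏ t ∈ range m, (((R3 tp cl n).card : ℝ) / 2 - 2 ^ t)) -
        SS (k + 1) m * ((GX tp cl X).card : ℝ)) - 2 ^ m *
        (∑ n ∈ GX tp cl X, ((((R3 tp cl n).card : ℝ) / 2) ^ k *
        ∏ t ∈ range m, (((R3 tp cl n).card : ℝ) / 2 - 2 ^ t)) -
        SS k m * ((GX tp cl X).card : ℝ)) := by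
      have e1 : ∑ n ∈ GX tp cl X, ((((R3 tp cl n).card : ℝ) / 2) ^ k *
          ∏ t ∈ range (m + 1), (((R3 tp cl n).card : ℝ) / 2 - 2 ^ t))
          = ∑ n ∈ GX tp cl X, ((((R3 tp cl n).card : ℝ) / 2) ^ (k + 1) *
          ∏ t ∈ range m, (((R3 tp cl n).card : ℝ) / 2 - 2 ^ t)) - 2 ^ m *
          ∑ n ∈ GX tp cl X, ((((R3 tp cl n).card : ℝ) / 2) ^ k *
          ∏ t ∈ range m, (((R3 tp cl n).card : ℝ) / 2 - 2 ^ t)) := by
        rw [Finset.mul_sum, ← Finset.sum_sub_distrib]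
        apply Finset.sum_congr rfl
        intro n _
        rw [Finset.prod_range_succ, pow_succ]
        ring
      rw [e1, hS]
      ring
    rw [e]
    refine (abs_sub _ _).trans ?_
    rw [abs_mul, abs_of_nonneg (by positivity : (0 : ℝ) ≤ 2 ^ m)]
    have h3 : (2 : ℝ) ^ m * (ε / (2 * 2 ^ m) * X) = ε / 2 * X := by
      field_simp
    have h4 := mul_le_mul_of_nonneg_left b (by positivity : (0 : ℝ) ≤ 2 ^ m)
    rw [h3] at h4
    linarith

/-- the denominators -/
noncomputable def cc (i : ℕ) : ℝ := ∏ t ∈ range i, (2 ^ (t + 1) - 1 : ℝ)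

lemma cc_pos (i : ℕ) : 0 < cc i := by
  unfold cc
  apply Finset.prod_pos
  intro t _
  have h : (1 : ℝ) < 2 ^ (t + 1) := one_lt_pow₀ (by norm_num) (by omega)
  linarith

/-- the lower sieve polynomial -/
lemma sieve_eq (x : ℝ) (m : ℕ) :
    ∑ i ∈ range (m + 1), (-1 : ℝ) ^ i / cc i * ∏ t ∈ range i, (x - 2 ^ t)
      = (∏ t ∈ range m, (2 ^ (t + 1) - x)) / cc m := by
  induction m with
  | zero => simp [cc]
  | succ m ih =>
    rw [Finset.sum_range_succ, ih]
    have h1 : cc (m + 1) = cc m * (2 ^ (m + 1) - 1) := by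
      unfold cc
      rw [Finset.prod_range_succ]
    have h2 : ∏ t ∈ range (m + 1), (x - 2 ^ t)
        = (-1) ^ m * (x - 1) * ∏ t ∈ range m, (2 ^ (t + 1) - x) := by
      rw [Finset.prod_range_succ']
      have : ∏ t ∈ range m, (x - 2 ^ (t + 1)) = (-1) ^ m * ∏ t ∈ range m, (2 ^ (t + 1) - x) := by
        rw [← Finset.card_range m, ← Finset.prod_const, Finset.card_range,
          ← Finset.prod_mul_distrib]
        apply Finset.prod_congr rfl
        intro t _
        ring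
      rw [this]
      ring
    have hc := (cc_pos m).ne'
    have hc1 := (cc_pos (m + 1)).ne'
    have hd : (2 : ℝ) ^ (m + 1) - 1 ≠ 0 := by
      rw [h1] at hc1
      exact right_ne_zero_of_mul hc1
    rw [h2, Finset.prod_range_succ, h1]
    have hs : (-1 : ℝ) ^ (m + 1) * (-1) ^ m = -1 := by
      rw [← pow_add]
      exact Odd.neg_one_pow ⟨m, by ring⟩
    field_simp
    linear_combination ((x - 1) * ∏ t ∈ range m, (2 ^ (t + 1) - x)) * hs

lemma sieve_le (j m : ℕ) (hm : Odd m) :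
    ∑ i ∈ range (m + 1), (-1 : ℝ) ^ i / cc i * ∏ t ∈ range i, (((2 ^ j : ℕ) : ℝ) - 2 ^ t)
      ≤ if j = 0 then 1 else 0 := by
  rw [sieve_eq]
  have hc := cc_pos m
  by_cases hj : j = 0
  · subst hj
    rw [if_pos rfl, div_le_one hc]
    unfold cc
    simp
  · rw [if_neg hj]
    apply div_nonpos_of_nonpos_of_nonneg _ hc.le
    push_cast
    by_cases hjm : j ≤ m
    · have : ∏ t ∈ range m, ((2 : ℝ) ^ (t + 1) - 2 ^ j) = 0 := by
        apply Finset.prod_eq_zero (i := j - 1)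
        · rw [mem_range]
          omega
        · rw [Nat.sub_add_cancel (by omega)]
          ring
      rw [this]
    · have h1 : ∏ t ∈ range m, ((2 : ℝ) ^ (t + 1) - 2 ^ j)
          = (-1) ^ m * ∏ t ∈ range m, ((2 : ℝ) ^ j - 2 ^ (t + 1)) := by
        rw [← Finset.card_range m, ← Finset.prod_const, Finset.card_range,
          ← Finset.prod_mul_distrib]
        apply Finset.prod_congr rfl
        intro t _
        ring
      rw [h1, hm.neg_one_pow]
      have h2 : 0 ≤ ∏ t ∈ range m, ((2 : ℝ) ^ j - 2 ^ (t + 1)) := by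
        apply Finset.prod_nonneg
        intro t ht
        rw [mem_range] at ht
        have : (2 : ℝ) ^ (t + 1) ≤ 2 ^ j := pow_le_pow_right₀ (by norm_num) (by omega)
        linarith
      linarith

/-- the partial sums -/
noncomputable def TS0 (m : ℕ) : ℝ := ∑ i ∈ range (m + 1), (-1 : ℝ) ^ i / cc i

theorem densM (tp cl : ℕ) (htp : tp ≤ 2) (m : ℕ) (hm : Odd m) : ∀ ε : ℝ, 0 < ε → ∃ X₀ : ℕ,
    ∀ X : ℕ, X₀ ≤ X → (TS0 m - ε) * ((GX tp cl X).card : ℝ) ≤
        (((GX tp cl X).filter fun n => (R3 tp cl n).card = 2).card : ℝ) := by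
  classical
  intro ε hε
  obtain ⟨c, hc, X₁, hX₁⟩ := GX_card tp cl htp
  have hδ : 0 < ε * c / (m + 1) := by positivity
  have hmom : ∀ i ∈ range (m + 1), ∃ X₀ : ℕ, ∀ X : ℕ, X₀ ≤ X →
      |(-1 : ℝ) ^ i / cc i * (∑ n ∈ GX tp cl X,
        ∏ t ∈ range i, (((R3 tp cl n).card : ℝ) / 2 - 2 ^ t)) -
        (-1 : ℝ) ^ i / cc i * ((GX tp cl X).card : ℝ)| ≤ ε * c / (m + 1) * X := by
    intro i _
    obtain ⟨X₀, h⟩ := momF tp cl i 0 (ε * c / (m + 1) * cc i) (mul_pos hδ (cc_pos i))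
    refine ⟨X₀, fun X hX => ?_⟩
    have h1 := h X hX
    simp only [pow_zero, one_mul, SS_zero] at h1
    rw [← mul_sub, abs_mul, abs_div, abs_pow, abs_neg, abs_one, one_pow,
      abs_of_pos (cc_pos i)]
    have hci := cc_pos i
    calc 1 / cc i * |_| ≤ 1 / cc i * (ε * c / (m + 1) * cc i * X) :=
          mul_le_mul_of_nonneg_left h1 (by positivity)
      _ = ε * c / (m + 1) * X := by field_simp
  choose! f hf using hmom
  refine ⟨max X₁ (∑ i ∈ range (m + 1), f i), fun X hX => ?_⟩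
  have g0 := hX₁ X ((le_max_left _ _).trans hX)
  set N : ℝ := ((GX tp cl X).card : ℝ) with hN
  have hpt : ∑ n ∈ GX tp cl X, (∑ i ∈ range (m + 1), (-1 : ℝ) ^ i / cc i *
      ∏ t ∈ range i, (((R3 tp cl n).card : ℝ) / 2 - 2 ^ t))
      ≤ ∑ n ∈ GX tp cl X, (if (R3 tp cl n).card = 2 then (1 : ℝ) else 0) := by
    apply Finset.sum_le_sum
    intro n hn
    obtain ⟨j, hj1, hj⟩ := R3_pow (T13.mem_GX.1 hn).2
    obtain ⟨i, rfl⟩ : ∃ i, j = i + 1 := ⟨j - 1, by omega⟩
    have e : ((R3 tp cl n).card : ℝ) / 2 = ((2 ^ i : ℕ) : ℝ) := by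
      rw [hj]
      push_cast
      rw [pow_succ]
      ring
    rw [e]
    refine (sieve_le i m hm).trans (le_of_eq ?_)
    rw [hj]
    by_cases hi : i = 0
    · rw [if_pos hi, if_pos (by rw [hi]; norm_num)]
    · rw [if_neg hi, if_neg]
      intro h2
      have h3 : 2 ^ (i + 1) = 2 ^ 1 := by rw [h2]; norm_num
      have := Nat.pow_right_injective (le_refl 2) h3
      omega
  have hA : ∑ n ∈ GX tp cl X, (if (R3 tp cl n).card = 2 then (1 : ℝ) else 0)
      = (((GX tp cl X).filter fun n => (R3 tp cl n).card = 2).card : ℝ) := by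
    rw [card_filter, Nat.cast_sum]
    exact sum_congr rfl fun n _ => by split_ifs <;> simp
  rw [hA, Finset.sum_comm] at hpt
  simp only [← Finset.mul_sum] at hpt
  refine le_trans ?_ hpt
  have hsum : ∑ i ∈ range (m + 1), ((-1 : ℝ) ^ i / cc i * N - ε * c / (m + 1) * X)
      ≤ ∑ i ∈ range (m + 1), (-1 : ℝ) ^ i / cc i * (∑ n ∈ GX tp cl X,
        ∏ t ∈ range i, (((R3 tp cl n).card : ℝ) / 2 - 2 ^ t)) := by
    apply Finset.sum_le_sum
    intro i hi
    have h1 := (abs_le.1 (hf i hi X (((Finset.single_le_sum (fun _ _ => Nat.zero_le _) hi).trans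
      (le_max_right _ _)).trans hX))).1
    linarith
  refine le_trans ?_ hsum
  rw [Finset.sum_sub_distrib, ← Finset.sum_mul, Finset.sum_const, Finset.card_range,
    nsmul_eq_mul]
  have h5 : ((m + 1 : ℕ) : ℝ) * (ε * c / (m + 1) * X) = ε * (c * X) := by
    push_cast
    field_simp
  rw [h5]
  have h6 : ε * (c * X) ≤ ε * N := mul_le_mul_of_nonneg_left g0 hε.le
  have h7 : (TS0 m - ε) * N = (∑ i ∈ range (m + 1), (-1 : ℝ) ^ i / cc i) * N - ε * N := by
    unfold TS0
    ring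
  rw [h7]
  linarith

/-- the infinite product -/
noncomputable def eta0 : ℝ := ∏' j : ℕ, (1 - 1 / 2 ^ (j + 1) : ℝ)

/-- the density of the six families -/
theorem densI (tp cl : ℕ) (htp : tp ≤ 2) : ∀ ε : ℝ, 0 < ε → ∃ X₀ : ℕ,
    ∀ X : ℕ, X₀ ≤ X → (eta0 - ε) * ((GX tp cl X).card : ℝ) ≤
        (((GX tp cl X).filter fun n => (R3 tp cl n).card = 2).card : ℝ) := by
  intro ε hε
  have h1 : ∀ᶠ m : ℕ in Filter.atTop, eta0 - ε / 2 < TS0 m := by
    have h := euler_half
    exact (tendsto_order.1 h).1 _ (by unfold eta0; linarith)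
  obtain ⟨M, hM⟩ := Filter.eventually_atTop.1 h1
  obtain ⟨X₀, h2⟩ := densM tp cl htp (2 * M + 1) ⟨M, rfl⟩ (ε / 2) (by positivity)
  refine ⟨X₀, fun X hX => (le_trans ?_ (h2 X hX))⟩
  have h3 := hM (2 * M + 1) (by omega)
  apply mul_le_mul_of_nonneg_right _ (Nat.cast_nonneg _)
  linarith

end Vale.Agent.P017.H506
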